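import Vale.Agent.P219.CH.Full.Defs
import Vale.Agent.P219.CH.Geo.Basic

/-!
P219, the full inequality: shared tools for measures on the unit bundle and tangential gradients.
-/

namespace Vale.Agent.P219.CH.Full

open MeasureTheory Filter Topology Set Metric
open scoped ContDiff RealInnerProductSpace

noncomputable section

set_option maxSynthPendingDepth 3

variable {n : ℕ} {G : Coeff n}

/-- A compact part of the unit bundle. -/
theorem isCompact_unitBundle (hG : IsMetric G) {K : Set (E n)} (hK : IsCompact K) :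
    IsCompact {p : E n × E n | p.1 ∈ K ∧ G p.1 p.2 p.2 = 1} := by
  rcases (K ×ˢ sphere (0 : E n) 1).eq_empty_or_nonempty with h | h
  · refine isCompact_empty.of_isClosed_subset ?_ fun p hp => ?_
    · exact (hK.isClosed.preimage continuous_fst).inter
        (isClosed_eq (((hG.smooth.continuous.comp continuous_fst).clm_apply continuous_snd).clm_apply
          continuous_snd) continuous_const)
    · have hp2 : p.2 ≠ 0 := fun h0 => by simpa [h0] using hp.2
      have : (p.1, ‖p.2‖⁻¹ • p.2) ∈ K ×ˢ sphere (0 : E n) 1 :=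
        ⟨hp.1, by simp [norm_smul, hp2]⟩
      rw [h] at this
      exact this
  obtain ⟨q, hq, hmin⟩ := (hK.prod (isCompact_sphere (0 : E n) 1)).exists_isMinOn h
    hG.continuous_gnorm.continuousOn
  set c := gnorm G q.1 q.2 with hc
  have hc0 : 0 < c := hG.gnorm_pos (ne_of_mem_sphere hq.2 one_ne_zero)
  refine (hK.prod (isCompact_closedBall (0 : E n) c⁻¹)).of_isClosed_subset ?_ fun p hp => ?_
  · exact (hK.isClosed.preimage continuous_fst).inter
      (isClosed_eq (((hG.smooth.continuous.comp continuous_fst).clm_apply continuous_snd).clm_apply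
        continuous_snd) continuous_const)
  · have hp2 : p.2 ≠ 0 := fun h0 => by simpa [h0] using hp.2
    have hn : 0 < ‖p.2‖ := norm_pos_iff.2 hp2
    have h1 : c ≤ gnorm G p.1 (‖p.2‖⁻¹ • p.2) :=
      hmin (show (p.1, ‖p.2‖⁻¹ • p.2) ∈ K ×ˢ sphere (0 : E n) 1 from
        ⟨hp.1, by simp [norm_smul, hn.ne']⟩)
    rw [gnorm_smul, abs_inv, abs_norm, gnorm, hp.2, Real.sqrt_one, mul_one] at h1
    refine ⟨hp.1, ?_⟩
    rw [mem_closedBall_zero_iff]
    exact (le_inv_comm₀ hc0 hn).1 h1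

/-- A continuous function supported over a compact set is integrable for a measure on the unit
bundle. -/
theorem integrable_bundle (hG : IsMetric G) {μ : Measure (E n × E n)} [IsFiniteMeasure μ]
    (hu : ∀ᵐ p ∂μ, G p.1 p.2 p.2 = 1) {F : E n × E n → ℝ} (hF : Continuous F) {K : Set (E n)}
    (hK : IsCompact K) (hFK : ∀ p, p.1 ∉ K → F p = 0) : Integrable F μ := by
  obtain ⟨C, hC⟩ := (isCompact_unitBundle hG hK).exists_bound_of_continuousOn hF.continuousOn
  refine Integrable.of_bound hF.aestronglyMeasurable (max C 0) ?_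
  filter_upwards [hu] with p hp
  by_cases h : p.1 ∈ K
  · exact (hC p ⟨h, hp⟩).trans (le_max_left _ _)
  · simp [hFK p h]

theorem Varifold.integrable_of_supp {h₀ : ℝ} (D : Varifold G h₀) (hG : IsMetric G)
    {F : E n × E n → ℝ} (hF : Continuous F) {K : Set (E n)} (hK : IsCompact K)
    (hFK : ∀ p, p.1 ∉ K → F p = 0) : Integrable F D.μ :=
  integrable_bundle hG D.unit hF hK hFK

/-- A continuous function of the base point with compact support is integrable. -/
theorem Varifold.integrable_fst {h₀ : ℝ} (D : Varifold G h₀) (hG : IsMetric G) {f : E n → ℝ}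
    (hf : Continuous f) (hs : HasCompactSupport f) : Integrable (fun p => f p.1) D.μ :=
  D.integrable_of_supp hG (hf.comp continuous_fst) hs
    fun _ hp => image_eq_zero_of_notMem_tsupport hp

/-! ### Tangential products -/

theorem continuous_tgp (hG : IsMetric G) {u v : E n → ℝ} (hu : ContDiff ℝ 1 u)
    (hv : ContDiff ℝ 1 v) : Continuous (tgp G u v) := by
  have h1 := (hu.continuous_fderiv one_ne_zero).comp (continuous_fst (X := E n) (Y := E n))
  have h2 := (hv.continuous_fderiv one_ne_zero).comp (continuous_fst (X := E n) (Y := E n))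
  exact (h1.clm_apply ((hG.continuous_grad hv).comp continuous_fst)).sub
    ((h1.clm_apply continuous_snd).mul (h2.clm_apply continuous_snd))

theorem continuous_tgsq (hG : IsMetric G) {u : E n → ℝ} (hu : ContDiff ℝ 1 u) :
    Continuous (tgsq G u) := continuous_tgp hG hu hu

theorem tgp_eq_zero_left {u v : E n → ℝ} {p : E n × E n} (h : p.1 ∉ tsupport u) :
    tgp G u v p = 0 := by
  simp [tgp, fderiv_of_notMem_tsupport (𝕜 := ℝ) h]

theorem tgsq_eq_zero {u : E n → ℝ} {p : E n × E n} (h : p.1 ∉ tsupport u) : tgsq G u p = 0 :=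
  tgp_eq_zero_left h

theorem tgp_comm (hG : IsMetric G) (u v : E n → ℝ) (p : E n × E n) :
    tgp G u v p = tgp G v u p := by
  have h : fderiv ℝ u p.1 (grad G v p.1) = fderiv ℝ v p.1 (grad G u p.1) := by
    rw [← hG.G_grad u, ← hG.G_grad v, hG.symm]
  simp only [tgp, h]
  ring

theorem tgsq_nonneg (hG : IsMetric G) (u : E n → ℝ) {p : E n × E n}
    (hp : G p.1 p.2 p.2 = 1) : 0 ≤ tgsq G u p := by
  have h := hG.cauchy p.1 (grad G u p.1) p.2
  have hn : gnorm G p.1 p.2 = 1 := by rw [gnorm, hp, Real.sqrt_one]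
  rw [hn, mul_one, hG.G_grad] at h
  have h2 := pow_le_pow_left₀ (abs_nonneg _) h 2
  rw [sq_abs, hG.gnorm_sq, hG.G_grad] at h2
  simp only [tgsq, tgp]
  nlinarith

theorem tgsq_le (hG : IsMetric G) (u : E n → ℝ) (p : E n × E n) :
    tgsq G u p ≤ G p.1 (grad G u p.1) (grad G u p.1) := by
  rw [hG.G_grad]
  simp only [tgsq, tgp]
  nlinarith [sq_nonneg (fderiv ℝ u p.1 p.2)]

theorem tgp_of_fderiv_right {u v v₁ v₂ : E n → ℝ} {p : E n × E n} {a b : ℝ}
    (h : fderiv ℝ v p.1 = a • fderiv ℝ v₁ p.1 + b • fderiv ℝ v₂ p.1) :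
    tgp G u v p = a * tgp G u v₁ p + b * tgp G u v₂ p := by
  simp only [tgp, grad, h, map_add, map_smul, add_apply, smul_apply, smul_eq_mul]
  ring

theorem tgp_of_fderiv_left {u u₁ u₂ v : E n → ℝ} {p : E n × E n} {a b : ℝ}
    (h : fderiv ℝ u p.1 = a • fderiv ℝ u₁ p.1 + b • fderiv ℝ u₂ p.1) :
    tgp G u v p = a * tgp G u₁ v p + b * tgp G u₂ v p := by
  simp only [tgp, h, add_apply, smul_apply, smul_eq_mul]
  ring

/-- Product rule. -/
theorem tgp_mul_left {u₁ u₂ v : E n → ℝ} {p : E n × E n} (h₁ : DifferentiableAt ℝ u₁ p.1)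
    (h₂ : DifferentiableAt ℝ u₂ p.1) :
    tgp G (fun x => u₁ x * u₂ x) v p = u₁ p.1 * tgp G u₂ v p + u₂ p.1 * tgp G u₁ v p :=
  tgp_of_fderiv_left (fderiv_fun_mul h₁ h₂)

/-- Chain rule. -/
theorem tgp_comp_left {φ : ℝ → ℝ} {u v : E n → ℝ} {p : E n × E n}
    (hφ : DifferentiableAt ℝ φ (u p.1)) (hu : DifferentiableAt ℝ u p.1) :
    tgp G (fun x => φ (u x)) v p = deriv φ (u p.1) * tgp G u v p := by
  have h : fderiv ℝ (fun x => φ (u x)) p.1 = deriv φ (u p.1) • fderiv ℝ u p.1 :=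
    (hφ.hasDerivAt.comp_hasFDerivAt p.1 hu.hasFDerivAt).fderiv
  simp only [tgp, h, smul_apply, smul_eq_mul]
  ring

theorem tgsq_comp (hG : IsMetric G) {φ : ℝ → ℝ} {u : E n → ℝ} {p : E n × E n}
    (hφ : DifferentiableAt ℝ φ (u p.1)) (hu : DifferentiableAt ℝ u p.1) :
    tgsq G (fun x => φ (u x)) p = deriv φ (u p.1) ^ 2 * tgsq G u p := by
  rw [tgsq, tgp_comp_left hφ hu, tgp_comm hG, tgp_comp_left hφ hu]
  simp only [tgsq]
  ring

/-- `|∇(u v)|² ≤ 2 v² |∇u|² + 2 u² |∇v|²`. -/
theorem tgsq_mul_le (hG : IsMetric G) {u v : E n → ℝ} {p : E n × E n}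
    (hp : G p.1 p.2 p.2 = 1) (hu : DifferentiableAt ℝ u p.1) (hv : DifferentiableAt ℝ v p.1) :
    tgsq G (fun x => u x * v x) p ≤ 2 * v p.1 ^ 2 * tgsq G u p + 2 * u p.1 ^ 2 * tgsq G v p := by
  have h2 : fderiv ℝ (fun x => u x * v x) p.1 = u p.1 • fderiv ℝ v p.1 + v p.1 • fderiv ℝ u p.1 :=
    fderiv_fun_mul hu hv
  have h0 : 0 ≤ tgsq G (fun x => u p.1 * v x - v p.1 * u x) p := tgsq_nonneg hG _ hp
  have h3 : fderiv ℝ (fun x => u p.1 * v x - v p.1 * u x) p.1 =
      u p.1 • fderiv ℝ v p.1 + (-v p.1) • fderiv ℝ u p.1 := by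
    rw [fderiv_fun_sub (hv.const_mul _) (hu.const_mul _), fderiv_const_mul hv,
      fderiv_const_mul hu]
    module
  rw [tgsq, tgp_of_fderiv_left h3, tgp_of_fderiv_right h3, tgp_of_fderiv_right h3] at h0
  rw [tgsq, tgp_of_fderiv_left h2, tgp_of_fderiv_right h2, tgp_of_fderiv_right h2]
  simp only [tgsq]
  linarith

/-! ### Exponents -/

theorem three_le_md (hn : 4 ≤ n) : 3 ≤ md n := by
  have : (4 : ℝ) ≤ n := by exact_mod_cast hn
  simp only [md]; linarith

theorem md_eq_cast (hn : 1 ≤ n) : md n = ((n - 1 : ℕ) : ℝ) := by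
  simp [md, Nat.cast_sub hn]

theorem two_lt_qe (hn : 4 ≤ n) : 2 < qe n := by
  have := three_le_md hn
  rw [qe, lt_div_iff₀ (by linarith)]
  linarith

theorem qe_sub_two (hn : 4 ≤ n) : qe n - 2 = 4 / (md n - 2) := by
  have := three_le_md hn
  rw [qe, div_sub' (by linarith)]
  ring

theorem cc_div (hn : 4 ≤ n) : cc n = (md n - 1) * (qe n - 2) := by
  rw [qe_sub_two hn, cc]; ring

theorem qe_al (hn : 4 ≤ n) : qe n * al n = md n := by
  have h : md n - 2 ≠ 0 := by linarith [three_le_md hn]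
  rw [qe, al]; field_simp

theorem qe_sub_two_al (hn : 4 ≤ n) : (qe n - 2) * al n = 2 := by
  have h : md n - 2 ≠ 0 := by linarith [three_le_md hn]
  rw [qe_sub_two hn, al]; field_simp; ring

theorem cc_al (hn : 4 ≤ n) : cc n * al n = 2 * (md n - 1) := by
  rw [cc_div hn, mul_assoc, qe_sub_two_al hn]; ring

theorem cc_pos (hn : 4 ≤ n) : 0 < cc n := by
  have := three_le_md hn
  exact div_pos (by linarith) (by linarith)

end

end Vale.Agent.P219.CH.Full
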