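import Vale.Agent.P219.CH.Full.Statements
import Vale.Agent.P219.CH.Full.Tools
import Vale.Agent.P219.CH.Full.Concentration.Tools
import Vale.Agent.P219.CH.Full.Model.Series
import Vale.Agent.P219.CH.Core.MinTools

/-!
P219: the area bound, by cut-offs of constants in the sharp Sobolev inequality, and its equality
case, where a normalised constant is a minimiser.
-/

namespace Vale.Agent.P219.CH.Full

open MeasureTheory Filter Topology Set
open scoped ContDiff RealInnerProductSpace

noncomputable section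

namespace Area

variable {n : ℕ} {G : Coeff n} {Γ : Geo G} {e h₀ : ℝ}

/-- The smooth step down from `1` at `1` to `0` at `2`. -/
def down (s : ℝ) : ℝ := 1 - Concentration.up 1 2 s

theorem contDiff_down : ContDiff ℝ 1 down := contDiff_const.sub (Concentration.contDiff_up 1 2)

theorem down_mem (s : ℝ) : down s ∈ Icc (0 : ℝ) 1 := by
  obtain ⟨h1, h2⟩ := Concentration.up_mem 1 2 s
  exact ⟨sub_nonneg.2 h2, sub_le_self _ h1⟩

theorem down_one {s : ℝ} (h : s ≤ 1) : down s = 1 := by
  simp [down, Concentration.up_eq_zero one_lt_two h]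

theorem down_zero {s : ℝ} (h : 2 ≤ s) : down s = 0 := by
  simp [down, Concentration.up_eq_one one_lt_two h]

theorem deriv_down {s : ℝ} (h : s < 1 ∨ 2 < s) : deriv down s = 0 := by
  show deriv (fun t => 1 - Concentration.up 1 2 t) s = 0
  rw [deriv_const_sub, Concentration.deriv_up_out one_lt_two h, neg_zero]

/-- Cut-offs exhausting the space. -/
def cut (Γ : Geo G) (e : ℝ) (k : ℕ) (y : E n) : ℝ := down (phi Γ e 0 y / (k + 1))

theorem cut_mem (k : ℕ) (y : E n) : cut Γ e k y ∈ Icc (0 : ℝ) 1 := down_mem _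

variable (hG : IsCHe G e) (hC : Comp Γ e)
include hC

theorem contDiff_phi (z : E n) : ContDiff ℝ 1 (phi Γ e z) :=
  hC.phi_c1.comp (contDiff_const.prodMk contDiff_id)

include hG in
theorem grad_phi_le (z : E n) (p : E n × E n) :
    tgsq G (phi Γ e z) p ≤ 2 * phi Γ e z p.1 + e * phi Γ e z p.1 ^ 2 := by
  have h : grad G (phi Γ e z) p.1 = gradPhi Γ e z p.1 := by
    by_contra hne
    have hp := hG.metric.pos p.1 _ (sub_ne_zero.2 hne)
    simp only [map_sub, sub_apply, hG.metric.G_grad, ← hC.fderiv_right, sub_self] at hp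
    exact lt_irrefl _ hp
  have := tgsq_le hG.metric (phi Γ e z) p
  rwa [h, hC.grad_sq] at this

theorem contDiff_cut (k : ℕ) : ContDiff ℝ 1 (cut Γ e k) :=
  contDiff_down.comp ((contDiff_phi hC 0).div_const _)

include hG in
omit hC in
theorem cut_supp (k : ℕ) : HasCompactSupport (cut Γ e k) := by
  refine HasCompactSupport.intro
    (Core.Mini.isCompact_gball Γ hG.metric 0 (Real.sqrt (4 * (k + 1)))) fun y hy => ?_
  simp only [Core.gball, mem_ofPred_eq, not_le] at hy
  have h1 : 4 * ((k : ℝ) + 1) < sqd Γ 0 y := by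
    have := Real.lt_sq_of_sqrt_lt hy
    rwa [Geo.dist, gnorm, Real.sq_sqrt (hG.metric.nonneg 0 _)] at this
  have h2 : sqd Γ 0 y / 2 ≤ phi Γ e 0 y := by
    have h0 : 0 ≤ sqd Γ 0 y := hG.metric.nonneg 0 _
    have := one_le_pow₀ (n := 2) (one_le_sd (x := e * sqd Γ 0 y / 4)
      (div_nonneg (mul_nonneg hG.nonneg h0) (by norm_num)))
    simp only [phi, phiR]
    exact le_mul_of_one_le_right (by positivity) this
  refine down_zero ?_
  rw [le_div_iff₀ (by positivity)]
  linarith

include hG in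
theorem tgsq_cut (k : ℕ) (p : E n × E n) :
    tgsq G (cut Γ e k) p =
      (deriv down (phi Γ e 0 p.1 / (k + 1)) / (k + 1)) ^ 2 * tgsq G (phi Γ e 0) p := by
  have hd : HasDerivAt (fun s => down (s / ((k : ℝ) + 1)))
      (deriv down (phi Γ e 0 p.1 / (k + 1)) / (k + 1)) (phi Γ e 0 p.1) := by
    have h := ((contDiff_down.differentiable one_ne_zero)
      (phi Γ e 0 p.1 / (k + 1))).hasDerivAt.comp (phi Γ e 0 p.1)
        ((hasDerivAt_id (phi Γ e 0 p.1)).div_const ((k : ℝ) + 1))
    exact h.congr_deriv (by ring)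
  rw [← hd.deriv]
  exact tgsq_comp hG.metric (φ := fun s => down (s / ((k : ℝ) + 1))) hd.differentiableAt
    ((contDiff_phi hC 0).differentiable one_ne_zero p.1)

omit hC in
/-- The admissible multiple of a cut-off and its energy. -/
theorem energy_div (D : Varifold G h₀) {φ : E n → ℝ} (hφ : ContDiff ℝ 1 φ)
    (hs : HasCompactSupport φ) (hM : IsMetric G) {N : ℝ} (hN : 0 ≤ N) :
    energy D.μ G e h₀ (fun x => φ x / N ^ (1 / qe n)) =
      (cc n * ∫ p, tgsq G φ p ∂D.μ + lam n e h₀ * ∫ p, φ p.1 ^ 2 ∂D.μ) / N ^ (2 / qe n) := by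
  have e1 : ∀ p : E n × E n, tgsq G (fun x => φ x / N ^ (1 / qe n)) p =
      tgsq G φ p / N ^ (2 / qe n) := fun p => by
    rw [tgsq_comp hM (φ := fun s => s / N ^ (1 / qe n))
      (differentiableAt_fun_id.div_const _) (hφ.differentiable one_ne_zero p.1)]
    have : deriv (fun s : ℝ => s / N ^ (1 / qe n)) (φ p.1) = 1 / N ^ (1 / qe n) := by
      simp
    rw [this, div_pow, one_pow, ← Real.rpow_two (N ^ _), ← Real.rpow_mul hN, div_mul_eq_mul_div,
      one_mul, div_mul_eq_mul_div, one_mul]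
  have e2 : ∀ p : E n × E n, (φ p.1 / N ^ (1 / qe n)) ^ 2 = φ p.1 ^ 2 / N ^ (2 / qe n) :=
      fun p => by
    rw [div_pow, ← Real.rpow_two (N ^ _), ← Real.rpow_mul hN, div_mul_eq_mul_div, one_mul]
  simp only [energy, e1, e2, ← mul_div_assoc, ← add_div]
  rw [integral_div, integral_add, integral_const_mul, integral_const_mul]
  · exact (D.integrable_of_supp hM (continuous_tgsq hM hφ) hs fun _ h => tgsq_eq_zero h).const_mul _
  · exact (D.integrable_fst (f := fun x => φ x ^ 2) hM (hφ.continuous.pow 2)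
      (hs.comp_left (g := fun t : ℝ => t ^ 2) (by simp))).const_mul _

include hG in
theorem limits (hn : 4 ≤ n) (D : Varifold G h₀) :
    Tendsto (fun k => ∫ p, cut Γ e k p.1 ^ qe n ∂D.μ) atTop (𝓝 (D.μ.real univ)) ∧
      Tendsto (fun k => ∫ p, cut Γ e k p.1 ^ 2 ∂D.μ) atTop (𝓝 (D.μ.real univ)) ∧
      Tendsto (fun k => ∫ p, tgsq G (cut Γ e k) p ∂D.μ) atTop (𝓝 0) := by
  have hq : 0 < qe n := by linarith [two_lt_qe hn]
  have hev : ∀ y : E n, ∀ᶠ k : ℕ in atTop, phi Γ e 0 y / (k + 1) < 1 := fun y => by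
    obtain ⟨K, hK⟩ := exists_nat_gt (phi Γ e 0 y)
    filter_upwards [eventually_ge_atTop K] with k hk
    rw [div_lt_one (by positivity)]
    have : (K : ℝ) ≤ k := by exact_mod_cast hk
    linarith
  have hone : ∀ (F : ℝ → ℝ), Continuous F → F 1 = 1 → (∀ s ∈ Icc (0 : ℝ) 1, |F s| ≤ 1) →
      Tendsto (fun k => ∫ p, F (cut Γ e k p.1) ∂D.μ) atTop (𝓝 (D.μ.real univ)) := by
    intro F hF h1 hb
    have h := tendsto_integral_of_dominated_convergence (μ := D.μ)
      (F := fun k p => F (cut Γ e k p.1)) (f := fun _ => (1 : ℝ)) (fun _ => (1 : ℝ))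
      (fun k => (hF.comp ((contDiff_cut hC k).continuous.comp continuous_fst)).aestronglyMeasurable)
      (integrable_const _) (fun k => ae_of_all _ fun p => hb _ (cut_mem (Γ := Γ) (e := e) k p.1))
      (ae_of_all _ fun p => tendsto_const_nhds.congr' <| (hev p.1).mono fun k hk => by
        simp only [cut, down_one hk.le, h1])
    simpa using h
  refine ⟨hone _ (Real.continuous_rpow_const hq.le) (Real.one_rpow _) fun s hs => ?_,
    hone _ (continuous_pow 2) (one_pow _) fun s hs => ?_, ?_⟩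
  · rw [abs_of_nonneg (Real.rpow_nonneg hs.1 _)]
    exact Real.rpow_le_one hs.1 hs.2 hq.le
  · rw [abs_of_nonneg (sq_nonneg s)]
    exact pow_le_one₀ hs.1 hs.2
  obtain ⟨B, hB, hBd⟩ :=
    Concentration.exists_deriv_bound contDiff_down (a := 1) (b := 2) fun x hx => deriv_down hx
  have h := tendsto_integral_of_dominated_convergence (μ := D.μ)
    (F := fun k p => tgsq G (cut Γ e k) p) (f := fun _ => 0) (fun _ => B ^ 2 * (4 + 4 * e))
    (fun k => (continuous_tgsq hG.metric (contDiff_cut hC k)).aestronglyMeasurable)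
    (integrable_const _) (fun k => by
      filter_upwards [D.unit] with p hp
      rw [Real.norm_of_nonneg (tgsq_nonneg hG.metric _ hp), tgsq_cut hG hC]
      set j : ℝ := (k : ℝ) + 1
      have hj : 1 ≤ j := le_add_of_nonneg_left k.cast_nonneg
      set F := phi Γ e 0 p.1 with hF
      rcases lt_or_ge (2 * j) F with h2 | h2
      · rw [deriv_down (Or.inr ((lt_div_iff₀ (by positivity)).2 h2))]
        simp only [zero_div, zero_pow two_ne_zero, zero_mul]
        have := hG.nonneg
        positivity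
      have hT : tgsq G (phi Γ e 0) p ≤ (4 + 4 * e) * j ^ 2 := by
        have := grad_phi_le hG hC 0 p
        have h0 := hC.phi_nonneg 0 p.1
        have := mul_le_mul_of_nonneg_left (pow_le_pow_left₀ h0 h2 2) hG.nonneg
        nlinarith
      calc (deriv down (F / j) / j) ^ 2 * tgsq G (phi Γ e 0) p
          ≤ (deriv down (F / j) / j) ^ 2 * ((4 + 4 * e) * j ^ 2) :=
            mul_le_mul_of_nonneg_left hT (sq_nonneg _)
        _ = deriv down (F / j) ^ 2 * (4 + 4 * e) := by field_simp
        _ ≤ _ := by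
          refine mul_le_mul_of_nonneg_right ?_ (by linarith [hG.nonneg])
          rw [← sq_abs]
          exact pow_le_pow_left₀ (abs_nonneg _) (hBd _).1 2)
    (ae_of_all _ fun p => tendsto_const_nhds.congr' <| (hev p.1).mono fun k hk => by
      dsimp only
      rw [tgsq_cut hG hC, deriv_down (Or.inl hk)]
      simp)
  simpa using h

end Area

open Area in
/-- The area bound. -/
theorem areaStmt (hcore : CoreStmt) : AreaStmt := by
  intro n G e Γ h₀ hn hG hC D hlam
  have hq : 0 < qe n := by linarith [two_lt_qe hn]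
  have hm := three_le_md hn
  set A := D.μ.real univ with hA
  have hA0 : 0 < A := ENNReal.toReal_pos (Measure.measure_univ_ne_zero.2 D.ne_zero)
    (measure_ne_top _ _)
  obtain ⟨l1, l2, l3⟩ := limits hG hC hn D.toVarifold
  have hlim : Tendsto (fun k => (cc n * (∫ p, tgsq G (cut Γ e k) p ∂D.μ) +
      lam n e h₀ * ∫ p, cut Γ e k p.1 ^ 2 ∂D.μ) /
        (∫ p, cut Γ e k p.1 ^ qe n ∂D.μ) ^ (2 / qe n)) atTop
      (𝓝 (lam n e h₀ * A ^ (2 / md n))) := by
    have h := ((l3.const_mul (cc n)).add (l2.const_mul (lam n e h₀))).div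
      (l1.rpow_const (p := 2 / qe n) (Or.inl hA0.ne')) (Real.rpow_pos_of_pos hA0 _).ne'
    refine (show (cc n * 0 + lam n e h₀ * A) / A ^ (2 / qe n) = lam n e h₀ * A ^ (2 / md n) from
      ?_) ▸ h
    rw [mul_zero, zero_add, mul_div_assoc]
    congr 1
    rw [div_eq_iff (Real.rpow_pos_of_pos hA0 _).ne', ← Real.rpow_add hA0]
    have : 2 / md n + 2 / qe n = 1 := by
      rw [qe]; field_simp; ring
    rw [this, Real.rpow_one]
  refine ge_of_tendsto hlim ?_
  filter_upwards [l1.eventually (eventually_gt_nhds hA0)] with k hk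
  have h := (hcore n G e Γ h₀ hn hG hC D hlam).trans
    (csInf_le (Concentration.bddBelow_energy hn hG.metric D.unit hlam.le)
      (mem_image_of_mem _ (Concentration.adm_div hn (contDiff_cut hC k) (cut_supp hG k)
        (fun x => (cut_mem (Γ := Γ) (e := e) k x).1) hk)))
  rwa [energy_div D.toVarifold (contDiff_cut hC k) (cut_supp hG k) hG.metric hk.le] at h

open Area in
/-- The equality case of the area bound. -/
theorem rigidCoreStmt (hcore : CoreStmt) (hbarta : BartaStmt) (halmost : AlmostStmt)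
    (hcenter : CenterStmt) : RigidCoreStmt := by
  intro n G e Γ h₀ hn hG hC D hlam K hK hDK hle
  have hq : 0 < qe n := by linarith [two_lt_qe hn]
  have hm := three_le_md hn
  set A := D.μ.real univ with hA
  have hA0 : 0 < A := ENNReal.toReal_pos (Measure.measure_univ_ne_zero.2 D.ne_zero)
    (measure_ne_top _ _)
  obtain ⟨C, hCK⟩ := hK.bddAbove_image (contDiff_phi hC 0).continuous.continuousOn
  obtain ⟨k, hk⟩ := exists_nat_gt C
  have hK1 : ∀ x ∈ K, cut Γ e k =ᶠ[𝓝 x] fun _ => 1 := fun x hx => by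
    have : phi Γ e 0 x < (k : ℝ) + 1 := by
      have := hCK (mem_image_of_mem _ hx); linarith
    filter_upwards [((contDiff_phi hC 0).continuous.continuousAt).eventually
      (eventually_lt_nhds this)]
      with y hy
    exact down_one ((div_le_one (by positivity)).2 hy.le)
  have hφ := contDiff_cut (Γ := Γ) hC k
  have hs := cut_supp (Γ := Γ) hG k
  have hN : ∀ r : ℝ, 0 < r → ∫ p, cut Γ e k p.1 ^ r ∂D.μ = A := fun r hr => by
    rw [integral_congr_ae (g := fun _ => (1 : ℝ)) (hDK.mono fun p hp => by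
      simp [(hK1 _ hp).eq_of_nhds])]
    simp [hA]
  set c : ℝ := A ^ (1 / qe n) with hc
  have hc0 : 0 < c := Real.rpow_pos_of_pos hA0 _
  set u : E n → ℝ := fun x => cut Γ e k x / c with hu'
  have hu : Adm D.μ u := by
    have h := Concentration.adm_div (μ := D.μ) hn hφ hs (fun x => (cut_mem (Γ := Γ) (e := e) k x).1)
      (by rw [hN _ hq]; exact hA0)
    rwa [hN _ hq] at h
  have hT0 : ∫ p, tgsq G (cut Γ e k) p ∂D.μ = 0 := by
    refine integral_eq_zero_of_ae (hDK.mono fun p hp => ?_)
    simp [tgsq, tgp, grad, (hK1 _ hp).fderiv_eq]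
  have hen : energy D.μ G e h₀ u = lam n e h₀ * A ^ (2 / md n) := by
    rw [hu', hc, energy_div D.toVarifold hφ hs hG.metric hA0.le, hT0,
      show (∫ p, cut Γ e k p.1 ^ 2 ∂D.μ) = A by simpa using hN 2 two_pos, mul_zero, zero_add,
      div_eq_iff (Real.rpow_pos_of_pos hA0 _).ne', mul_assoc, ← Real.rpow_add hA0]
    have : 2 / md n + 2 / qe n = 1 := by
      rw [qe]; field_simp; ring
    rw [this, Real.rpow_one]
  set Y := Yinf D.μ G e h₀ with hY
  have hY1 : YS n ≤ Y := hcore n G e Γ h₀ hn hG hC D hlam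
  have hY2 : Y ≤ energy D.μ G e h₀ u :=
    csInf_le (Concentration.bddBelow_energy hn hG.metric D.unit hlam.le) (mem_image_of_mem _ hu)
  have hEY : energy D.μ G e h₀ u = Y := le_antisymm (by linarith) hY2
  obtain ⟨z, a, hb⟩ := hcenter n G e Γ h₀ (by omega) hG hC D.toVarifold u hu
  have hk0 := (Concentration.kk_sq hb.pos hb.small).1
  have hψ : ∀ y, 0 < psi Γ e z a y := fun y => Concentration.psi_pos hC hb.pos y
  have hψc : ContDiff ℝ 1 (psi Γ e z a) := (contDiff_phi hC z).add contDiff_const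
  have hw : ContDiff ℝ 1 (wgt Γ e z a) := contDiff_const.div hψc fun y => (hψ y).ne'
  have hwp : ∀ y, 0 < wgt Γ e z a y := fun y => div_pos hk0 (hψ y)
  set W := ∫ p, wgt Γ e z a p.1 ^ 2 * u p.1 ^ 2 ∂D.μ with hW
  have hlim : gap Γ e D.μ z a u ≤ 0 ∧ |Y - md n * (md n - 1) * W| ≤ 0 := by
    constructor <;> refine le_of_forall_gt_imp_ge_of_dense fun τ hτ => ?_ <;>
      obtain ⟨η, hη, h⟩ := halmost n G e Γ h₀ hn hG hC D.toVarifold hlam τ 1 hτ one_pos
    · exact (h u z a hu (by linarith) hb).1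
    · exact (h u z a hu (by linarith) hb).2.1
  have hgap_nn : ∀ᵐ p ∂D.μ,
      0 ≤ wgt Γ e z a p.1 ^ (2 * al n) * tgsq G (vfun Γ e z a u) p := by
    filter_upwards [D.unit] with p hp
    exact mul_nonneg (Real.rpow_nonneg (hwp _).le _) (tgsq_nonneg hG.metric _ hp)
  have hv : ContDiff ℝ 1 (vfun Γ e z a u) :=
    hu.c1.div (hw.rpow_const_of_ne fun y => (hwp y).ne')
      fun y => (Real.rpow_pos_of_pos (hwp y) _).ne'
  have hgi : Integrable (fun p => wgt Γ e z a p.1 ^ (2 * al n) * tgsq G (vfun Γ e z a u) p) D.μ :=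
    D.toVarifold.integrable_of_supp hG.metric
      (((hw.continuous.comp continuous_fst).rpow_const fun p => Or.inl (hwp p.1).ne').mul
        (continuous_tgsq hG.metric hv)) hu.supp fun p hp => by
          rw [tgsq_eq_zero fun h => hp (closure_mono (fun y hy => Function.mem_support.2 fun h0 =>
            Function.mem_support.1 hy (by simp [vfun, h0])) h), mul_zero]
  have hgap : gap Γ e D.μ z a u = 0 := le_antisymm hlim.1 (integral_nonneg_of_ae hgap_nn)
  have hv0 := (integral_eq_zero_iff_of_nonneg_ae hgap_nn hgi).1 hgap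
  set S : E n × E n → ℝ := fun p => u p.1 ^ 2 * ((h₀ ^ 2 - D.h p.1 ^ 2) +
    (D.h p.1 * psi Γ e z a p.1 - md n * fderiv ℝ (phi Γ e z) p.1 p.2) ^ 2 /
      psi Γ e z a p.1 ^ 2) with hSd
  have hh : ∀ x, D.h x ^ 2 ≤ h₀ ^ 2 := fun x =>
    sq_le_sq' (abs_le.1 (D.h_le x)).1 (abs_le.1 (D.h_le x)).2
  have hS0 : ∀ p, 0 ≤ S p := fun p => mul_nonneg (sq_nonneg _)
    (add_nonneg (sub_nonneg.2 (hh _)) (div_nonneg (sq_nonneg _) (sq_nonneg _)))
  have hψf : Continuous fun p : E n × E n => psi Γ e z a p.1 := hψc.continuous.comp continuous_fst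
  have hσ : Continuous fun p : E n × E n => fderiv ℝ (phi Γ e z) p.1 p.2 :=
    (((contDiff_phi hC z).continuous_fderiv one_ne_zero).comp continuous_fst).clm_apply
      continuous_snd
  have hhc : Continuous fun p : E n × E n => D.h p.1 := D.h_cont.comp continuous_fst
  have hSi : Integrable S D.μ :=
    D.toVarifold.integrable_of_supp hG.metric
      (((hu.c1.continuous.comp continuous_fst).pow 2).mul ((continuous_const.sub (hhc.pow 2)).add
        ((((hhc.mul hψf).sub (continuous_const.mul hσ)).pow 2).div (hψf.pow 2)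
          fun p => pow_ne_zero 2 (hψ p.1).ne')))
      hu.supp fun p hp => by simp [hSd, image_eq_zero_of_notMem_tsupport hp]
  have hB := hbarta n G e Γ h₀ hn hG hC D.toVarifold u hu.c1 hu.supp z a hb.pos hb.small
  have hS : ∫ p, S p ∂D.μ = 0 := by
    refine le_antisymm ?_ (integral_nonneg hS0)
    rw [hgap, hEY, mul_zero, zero_add, ← hW] at hB
    have h2 := abs_nonpos_iff.1 hlim.2
    have h3 : 0 < (md n - 1) / md n := div_pos (by linarith) (by linarith)
    exact nonpos_of_mul_nonpos_right (by linarith) h3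
  have hSz := (integral_eq_zero_iff_of_nonneg hS0 hSi).1 hS
  have hbal := hb.zero (0, 1) Concentration.sphUnit_north
  refine ⟨z, a, hb.pos, hb.small, ?_, ?_⟩
  · have h1 : ∫ p, u p.1 ^ qe n * sph Γ e z a (0, 1) p.1 ∂D.μ =
        ∫ p, A⁻¹ * ((1 - e * a) - kk e a * wgt Γ e z a p.1) ∂D.μ := by
      refine integral_congr_ae (hDK.mono fun p hp => ?_)
      simp only [hu', (hK1 _ hp).eq_of_nhds, Concentration.sph_north,
        Concentration.om0_eq hC hb.pos hb.small, hc]
      rw [Real.div_rpow zero_le_one (Real.rpow_nonneg hA0.le _), Real.one_rpow,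
        ← Real.rpow_mul hA0.le,
        one_div_mul_cancel hq.ne', Real.rpow_one, one_div]
    have hwi : Integrable (fun p : E n × E n => wgt Γ e z a p.1) D.μ := by
      refine Integrable.of_bound (hw.continuous.comp continuous_fst).aestronglyMeasurable
        (kk e a / a) (ae_of_all _ fun p => ?_)
      rw [Real.norm_of_nonneg (hwp _).le]
      exact div_le_div_of_nonneg_left hk0.le hb.pos (le_add_of_nonneg_left (hC.phi_nonneg z _))
    rw [h1, integral_const_mul, integral_sub (integrable_const _) (hwi.const_mul _),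
      integral_const, integral_const_mul, smul_eq_mul, ← hA] at hbal
    have := (mul_eq_zero.1 hbal).resolve_left (inv_ne_zero hA0.ne')
    field_simp
    linarith
  filter_upwards [hDK, hv0, hSz, D.unit] with p hp hvz hs2 hun
  simp only [Pi.zero_apply] at hvz hs2
  have hu1 : u p.1 = 1 / c := by simp [hu', (hK1 _ hp).eq_of_nhds]
  have hs3 := (add_eq_zero_iff_of_nonneg (sub_nonneg.2 (hh p.1))
    (div_nonneg (sq_nonneg _) (sq_nonneg _))).1
      ((mul_eq_zero.1 hs2).resolve_left (pow_ne_zero 2 (by rw [hu1]; positivity)))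
  refine ⟨?_, ?_, ?_⟩
  · have h1 : |D.h p.1| ^ 2 = h₀ ^ 2 := by rw [sq_abs]; linarith [hs3.1]
    exact (pow_left_inj₀ (abs_nonneg _) ((abs_nonneg _).trans (D.h_le p.1)) two_ne_zero).1 h1
  · have hvd : tgsq G (vfun Γ e z a u) p = 0 :=
      (mul_eq_zero.1 hvz).resolve_left (Real.rpow_pos_of_pos (hwp _) _).ne'
    have hev : vfun Γ e z a u =ᶠ[𝓝 p.1]
        fun y => 1 / c * ((phi Γ e z y + a) / kk e a) ^ al n := by
      filter_upwards [hK1 _ hp] with y hy
      simp only [vfun, hu', hy, wgt, psi]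
      have h1 : 0 < phi Γ e z y + a := hψ y
      rw [← inv_div (phi Γ e z y + a), Real.inv_rpow (by positivity), div_inv_eq_mul]
    have hd : HasDerivAt (fun t => 1 / c * ((t + a) / kk e a) ^ al n)
        (1 / c * (al n * ((phi Γ e z p.1 + a) / kk e a) ^ (al n - 1) * (1 / kk e a)))
        (phi Γ e z p.1) := by
      refine (((((hasDerivAt_id (phi Γ e z p.1)).add_const a).div_const (kk e a)).rpow_const
        (p := al n) (Or.inl (div_pos (hψ p.1) hk0).ne')).const_mul (1 / c)).congr_deriv ?_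
      simp only [id_eq]
      ring
    have heq : tgsq G (vfun Γ e z a u) p =
        tgsq G (fun y => 1 / c * ((phi Γ e z y + a) / kk e a) ^ al n) p := by
      simp [tgsq, tgp, grad, hev.fderiv_eq]
    rw [heq, tgsq_comp hG.metric (φ := fun t => 1 / c * ((t + a) / kk e a) ^ al n)
      hd.differentiableAt ((contDiff_phi hC z).differentiable one_ne_zero p.1), hd.deriv] at hvd
    refine (mul_eq_zero.1 hvd).resolve_left (pow_ne_zero 2 ?_)
    have : al n ≠ 0 := by rw [al]; intro h; linarith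
    have := div_pos (hψ p.1) hk0
    simp only [psi] at this
    positivity
  · have := (div_eq_zero_iff.1 hs3.2).resolve_right (pow_ne_zero 2 (hψ p.1).ne')
    linarith [pow_eq_zero_iff two_ne_zero |>.1 this]

end

end Vale.Agent.P219.CH.Full
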