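import Vale.Agent.P219.CH.Full.Statements
import Vale.Agent.P219.CH.Full.Model.Series
import Vale.Agent.P219.Full.Geo.Hess

/-!
P219 full Q1: comparison with curvature at most `-e` (`CompStmt`).
-/

namespace Vale.Agent.P219.CH.Full

open MeasureTheory Filter Topology Set
open Vale.Agent.P219.Full (sinhq coshq geo_compare geo_hess geo_log_le geo_log_contract
  hasDerivAt_sinhq sinhq_zero)
open scoped ContDiff RealInnerProductSpace

noncomputable section

variable {n : ℕ} {G : Coeff n} {e : ℝ}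

/-- Curvature at most `-e ≤ 0` is nonpositive. -/
theorem IsCHe.isCH (h : IsCHe G e) : IsCH G :=
  ⟨h.metric, h.complete, fun x u v => (h.sec x u v).trans
    (mul_nonpos_of_nonpos_of_nonneg (neg_nonpos.2 h.nonneg)
      (by linarith [sq_le_of_isMetric h.metric x u v, mul_comm (G x u u) (G x v v)]))⟩

theorem sd_eq_sinhq {s : ℝ} (hs : 0 ≤ s) : sd s = sinhq s := by
  rcases hs.eq_or_lt with rfl | h
  · rw [sd_zero, sinhq_zero]
  · simp [sd, h, sinhq, Vale.Agent.P219.Full.snb, (Real.sqrt_pos.2 h).ne']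

theorem hasDerivAt_sd_pos {s : ℝ} (hs : 0 < s) :
    HasDerivAt sd ((coshq s - sinhq s) / (2 * s)) s := by
  refine (hasDerivAt_sinhq hs).congr_of_eventuallyEq ?_
  filter_upwards [eventually_gt_nhds hs] with r hr using sd_eq_sinhq hr.le

section

variable (Γ : Geo G)

/-- Reversing a geodesic. -/
theorem logm_swap (x y : E n) : Γ.logm y x = -Γ.V x y := by
  have h : (Γ.flow 1 (y, -Γ.V x y)).1 = x := by
    have h1 := Γ.flow_scale (-1) 1 y (Γ.V x y)
    rw [neg_one_smul, mul_one] at h1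
    rw [h1]
    have h2 : (y, Γ.V x y) = Γ.flow 1 (x, Γ.logm x y) :=
      Prod.ext (Γ.exp_logm x y).symm rfl
    change (Γ.flow (-1) (y, Γ.V x y)).1 = x
    rw [h2, ← Γ.flow_add, neg_add_cancel, Γ.flow_zero]
  conv_lhs => rw [← h]
  exact Γ.logm_exp y _

theorem V_swap (x y : E n) : Γ.V y x = -Γ.logm x y := by
  rw [logm_swap Γ y x, neg_neg]

theorem sq_V (hG : IsMetric G) (x y : E n) : G y (Γ.V x y) (Γ.V x y) = sqd Γ x y := by
  have h := Γ.flow_speed 1 (x, Γ.logm x y)
  rw [gnorm, gnorm, Γ.exp_logm] at h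
  exact (Real.sqrt_inj (hG.nonneg _ _) (hG.nonneg _ _)).1 h

theorem sqd_swap (hG : IsMetric G) (x y : E n) : sqd Γ y x = sqd Γ x y := by
  rw [← sq_V Γ hG x y, sqd, logm_swap Γ x y]
  simp

theorem sqd_nonneg' (hG : IsMetric G) (x y : E n) : 0 ≤ sqd Γ x y := hG.nonneg _ _

theorem contDiff_sqd (hG : IsMetric G) : ContDiff ℝ 1 fun q : E n × E n => sqd Γ q.1 q.2 :=
  (((hG.smooth.of_le (WithTop.coe_le_coe.2 le_top)).comp contDiff_fst).clm_apply
    Γ.logm_c1).clm_apply Γ.logm_c1

theorem hasFDerivAt_sqd (hG : IsMetric G) (x y : E n) :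
    ∃ L : E n →L[ℝ] ℝ, HasFDerivAt (sqd Γ x) L y ∧ ∀ w, L w = 2 * G y (Γ.V x y) w := by
  have hd : DifferentiableAt ℝ (sqd Γ x) y :=
    (((contDiff_sqd Γ hG).comp (contDiff_const.prodMk contDiff_id)).differentiable
      one_ne_zero y)
  exact ⟨_, hd.hasFDerivAt, fun w => Γ.grad_dist x y w⟩

theorem contDiff_V_pair : ContDiff ℝ 1 fun q : E n × E n => Γ.V q.1 q.2 :=
  contDiff_snd.comp (Γ.flow_c1.comp (contDiff_const.prodMk (contDiff_fst.prodMk Γ.logm_c1)))

theorem hasFDerivAt_sd_sqd (hG : IsMetric G) (x y : E n) :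
    ∃ L : E n →L[ℝ] ℝ, HasFDerivAt (fun z => sd (e * sqd Γ x z)) L y ∧
      ∀ w, L w = deriv sd (e * sqd Γ x y) * e * (2 * G y (Γ.V x y) w) := by
  obtain ⟨L, hL, hLw⟩ := hasFDerivAt_sqd Γ hG x y
  refine ⟨_, ((contDiff_sd.differentiable one_ne_zero _).hasDerivAt.comp_hasFDerivAt y
    (hL.const_mul e)), fun w => ?_⟩
  simp [hLw, mul_assoc]

end

/-- The comparison with curvature at most `-e`. -/
theorem compStmt : CompStmt := by
  intro n G e hCHe Γ
  have hG := hCHe.metric
  have he := hCHe.nonneg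
  have hCH := hCHe.isCH
  have hs : ∀ x u v, G x (curv G x u v v) u ≤ -e * (G x u u * G x v v - G x u v ^ 2) := hCHe.sec
  have hD : ∀ x y, 0 ≤ sqd Γ x y := sqd_nonneg' Γ hG
  have hsd : ContDiff ℝ 1 fun q : E n × E n => sd (e * sqd Γ q.1 q.2) :=
    contDiff_sd.comp (contDiff_const.mul (contDiff_sqd Γ hG))
  have hright : ∀ z y w, fderiv ℝ (phi Γ e z) y w = G y (gradPhi Γ e z y) w := by
    intro z y w
    obtain ⟨L, hL, hLw⟩ := hasFDerivAt_sqd Γ hG z y
    have h : HasFDerivAt (phi Γ e z) _ y :=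
      (hasDerivAt_phiR he (hD z y)).comp_hasFDerivAt y hL
    rw [h.fderiv]
    simp [gradPhi, hLw]
    ring
  have hp0 : ∀ x y w, sqd Γ x y = 0 → G y (Γ.V x y) w = 0 := by
    intro x y w h
    have hV : Γ.V x y = 0 := by
      by_contra hne
      exact (hG.pos y _ hne).ne' (by rw [sq_V Γ hG]; exact h)
    simp [hV]
  refine ⟨fun x y => ?_, (contDiff_phiR e).comp (contDiff_sqd Γ hG), hsd.smul Γ.logm_c1,
    hsd.smul (contDiff_V_pair Γ), fun z y => phiR_nonneg he (hD z y), fun z y => ?_,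
    fun z y => ?_, hright, fun z y w => ?_, fun z y w => ?_, fun z y w => ?_⟩
  · exact congrArg Real.sqrt (sqd_swap Γ hG x y).symm
  · rw [phi, phiR_quadratic he (hD z y)]
    simp [xi, sqd]
    ring
  · rw [phi, phiR_quadratic he (hD z y)]
    simp [gradPhi, sq_V Γ hG]
    ring
  · have e1 : (fun z' => phi Γ e z' y) = phi Γ e y := funext fun z' => by
      rw [phi, phi, sqd_swap Γ hG y z']
    rw [e1, hright y z w, gradPhi, xi, sqd_swap Γ hG z y, V_swap Γ z y]
    simp
  · -- Hessian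
    obtain ⟨L, hL, hLw⟩ := hasFDerivAt_sd_sqd (e := e) Γ hG z y
    have hV : HasFDerivAt (Γ.V z) (fderiv ℝ (Γ.V z) y) y :=
      (((contDiff_V_pair Γ).comp (contDiff_const.prodMk contDiff_id)).differentiable
        one_ne_zero y).hasFDerivAt
    have hg : HasFDerivAt (gradPhi Γ e z) _ y := hL.smul hV
    have hcov : G y (covd G (gradPhi Γ e z) y w) w =
        sd (e * sqd Γ z y) * G y (covd G (Γ.V z) y w) w +
          deriv sd (e * sqd Γ z y) * e * (2 * G y (Γ.V z y) w) * G y (Γ.V z y) w := by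
      rw [covd, covd, hg.fderiv, gradPhi, ← chrL_apply, map_smul, chrL_apply]
      simp [hLw]
      ring
    rw [hcov, phi, one_add_mul_phiR_eq_cosh he (hD z y), sd_eq_sinhq (mul_nonneg he (hD z y))]
    refine (geo_hess hCH Γ he hs z y w).trans ?_
    rcases (mul_nonneg he (hD z y)).eq_or_lt with h0 | h0
    · have hp : e * G y (Γ.V z y) w = 0 := by
        rcases mul_eq_zero.1 h0.symm with h | h
        · simp [h]
        · simp [hp0 z y w h]
      have h0' : e * G z (Γ.logm z y) (Γ.logm z y) = 0 := h0.symm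
      rw [h0', ← h0]
      simp only [sinhq_zero, coshq, Real.sqrt_zero, Real.cosh_zero]
      linear_combination (-(2 * deriv sd 0 * G y (Γ.V z y) w)) * hp
    · rw [(hasDerivAt_sd_pos h0).deriv]
      refine le_of_eq ?_
      have hne : e ≠ 0 := left_ne_zero_of_mul h0.ne'
      have hne' : sqd Γ z y ≠ 0 := right_ne_zero_of_mul h0.ne'
      simp only [sqd] at hne' ⊢
      field_simp
  · -- Rauch
    obtain ⟨L, hL, hLw⟩ := hasFDerivAt_sd_sqd (e := e) Γ hG z y
    have hlg : HasFDerivAt (Γ.logm z) (fderiv ℝ (Γ.logm z) y) y :=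
      ((Γ.logm_c1.comp (contDiff_const.prodMk contDiff_id)).differentiable
        one_ne_zero y).hasFDerivAt
    have hx : HasFDerivAt (xi Γ e z) _ y := hL.smul hlg
    obtain ⟨-, hp, -, -⟩ := geo_compare hCH Γ he hs z y w
    set u := fderiv ℝ (Γ.logm z) y w with hu
    set D := sqd Γ z y with hDd
    set p := G y (Γ.V z y) w
    set S := sd (e * D)
    have hexp : G z (fderiv ℝ (xi Γ e z) y w) (fderiv ℝ (xi Γ e z) y w) -
        e * fderiv ℝ (phi Γ e z) y w ^ 2 =
        S ^ 2 * G z u u + 2 * (deriv sd (e * D) * e * (2 * p)) * S * p +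
          (deriv sd (e * D) * e * (2 * p)) ^ 2 * D - e * S ^ 2 * p ^ 2 := by
      rw [hright, hx.fderiv, gradPhi]
      simp only [add_apply, smul_apply, ContinuousLinearMap.smulRight_apply, map_add, map_smul,
        smul_eq_mul, hLw, hG.symm z u (Γ.logm z y), hp, ← hu]
      simp only [S, p, D, sqd]
      ring
    rw [hexp]
    have hSq : S = sinhq (e * D) := sd_eq_sinhq (mul_nonneg he (hD z y))
    rcases (mul_nonneg he (hD z y)).eq_or_lt with h0 | h0
    · have h0' : e * D = 0 := h0.symm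
      have hep : e * p = 0 := by
        rcases mul_eq_zero.1 h0' with h | h
        · simp [h]
        · simp [p, hp0 z y w h]
      have hS1 : S = 1 := by rw [hSq, h0', sinhq_zero]
      rw [hS1]
      have := geo_log_contract hCH Γ z y w
      rw [← hu] at this
      have e1 : deriv sd (e * D) * e * (2 * p) = 0 := by
        rw [mul_assoc, show e * (2 * p) = 2 * (e * p) by ring, hep]
        simp
      rw [e1, show e * 1 ^ 2 * p ^ 2 = (e * p) * p by ring, hep]
      linarith
    · have hne : e ≠ 0 := left_ne_zero_of_mul h0.ne'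
      have hne' : D ≠ 0 := right_ne_zero_of_mul h0.ne'
      have hDpos : 0 < D := lt_of_le_of_ne (hD z y) (Ne.symm hne')
      have h := geo_log_le hCH Γ he hs z y w hDpos
      rw [hp, ← hu] at h
      have hpy : coshq (e * D) ^ 2 = 1 + e * D * S ^ 2 := by
        have := ser_pythagoras h0.le
        rwa [ser_zero_eq h0.le, ← sd_eq_ser h0.le] at this
      rw [← show sqd Γ z y = G z (Γ.logm z y) (Γ.logm z y) from rfl, ← hDd, ← hSq] at h
      rw [(hasDerivAt_sd_pos h0).deriv, ← hDd, ← hSq]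
      refine le_trans (le_of_eq ?_) h
      field_simp
      linear_combination (p ^ 2) * hpy

end

end Vale.Agent.P219.CH.Full
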