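import Vale.Agent.P219.CH.Full.Concentration.Sharp

/-!
P219, the full inequality: the sharp Sobolev inequality on the unit-bundle measure.
-/

namespace Vale.Agent.P219.CH.Full

open MeasureTheory Filter Topology Set
open scoped ContDiff
open Concentration

noncomputable section

/-- The sharp inequality from monotonicity on `M` and on the sphere. -/
theorem coreStmt (hk : KernelStmt) (hsc : SchurStmt) (hr : RadIntStmt) (hs : SphereStmt)
    (hcr : CrudeStmt) (hcen : CenterStmt) (ha : AlmostStmt) (hp : PoissonStmt) : CoreStmt := by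
  intro n G e Γ h₀ hn hCH hC D hl
  by_contra hlt
  push Not at hlt
  have hG := hCH.metric
  have hm := three_le_md hn
  have hq := two_lt_qe hn
  set Y := Yinf D.μ G e h₀ with hYdef
  have hne : (energy D.μ G e h₀ '' {u | Adm D.μ u}).Nonempty := by
    obtain ⟨u, hu⟩ := adm_nonempty (n := n) hn D.ne_zero
    exact ⟨_, u, hu, rfl⟩
  obtain ⟨c, hc, hcY⟩ := hcr n G e Γ h₀ hn hCH hC D hl
  have hY0 : 0 < Y := hc.trans_le (le_csInf hne fun y ⟨u, hu, h⟩ => h ▸ hcY u hu)
  set K := md n * (md n - 1) with hK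
  have hK0 : 0 < K := mul_pos (by linarith) (by linarith)
  set M := (K / Y) ^ (1 / (qe n - 2)) with hMdef
  have hKY : 0 < K / Y := div_pos hK0 hY0
  have hM : 0 < M := Real.rpow_pos_of_pos hKY _
  have hMq : M ^ (qe n - 2) = K / Y := by
    rw [hMdef, ← Real.rpow_mul hKY.le, one_div_mul_cancel (by linarith), Real.rpow_one]
  have hYM : Y = K / M ^ (qe n - 2) := by rw [hMq]; field_simp
  set S := sphA n with hS
  have hS0 : 0 < S := mul_pos (by exact_mod_cast (by omega : 0 < n))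
    (ENNReal.toReal_pos (Metric.measure_ball_pos _ _ one_pos).ne' measure_ball_lt_top.ne)
  have hbig : 1 < M ^ qe n * S := by
    have h1 : (S ^ (2 / md n))⁻¹ < K / Y := by
      rw [inv_lt_iff_one_lt_mul₀ (Real.rpow_pos_of_pos hS0 _), div_mul_eq_mul_div,
        one_lt_div hY0]
      exact hlt
    have h2 : M ^ qe n = (K / Y) ^ (md n / 2) := by
      rw [hMdef, ← Real.rpow_mul hKY.le]
      congr 1
      have : md n - 2 ≠ 0 := by linarith
      rw [qe_sub_two hn, qe]
      field_simp; ring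
    have h3 : ((S ^ (2 / md n))⁻¹) ^ (md n / 2) = S⁻¹ := by
      rw [Real.inv_rpow (Real.rpow_nonneg hS0.le _), ← Real.rpow_mul hS0.le,
        show 2 / md n * (md n / 2) = 1 by field_simp, Real.rpow_one]
    have h4 : S⁻¹ < M ^ qe n := by
      rw [h2, ← h3]
      exact Real.rpow_lt_rpow (inv_nonneg.2 (Real.rpow_nonneg hS0.le _)) h1 (by linarith)
    have := mul_lt_mul_of_pos_right h4 hS0
    rwa [inv_mul_cancel₀ hS0.ne'] at this
  set γ := (M ^ qe n * S - 1) / 2 with hγ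
  have hγ0 : 0 < γ := by linarith
  -- the widths
  obtain ⟨t, ht0, ht2, htF⟩ : ∃ t : ℝ, 0 < t ∧ 2 * t < M ∧
      1 + γ < Real.exp (-(4 * t)) ^ (n - 1) * S * (M - 2 * t) ^ qe n := by
    have hcont : Continuous fun t : ℝ => Real.exp (-(4 * t)) ^ (n - 1) * S * (M - 2 * t) ^ qe n :=
      ((by fun_prop : Continuous fun t : ℝ => Real.exp (-(4 * t)) ^ (n - 1) * S)).mul
        ((by fun_prop : Continuous fun t : ℝ => M - 2 * t).rpow_const
          fun _ => Or.inr (by linarith))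
    have h0 : Tendsto (fun t : ℝ => Real.exp (-(4 * t)) ^ (n - 1) * S * (M - 2 * t) ^ qe n)
        (𝓝[>] 0) (𝓝 (S * M ^ qe n)) := by
      simpa using (hcont.tendsto 0).mono_left nhdsWithin_le_nhds
    obtain ⟨t, h1, h2⟩ := ((h0.eventually (eventually_gt_nhds (show 1 + γ < S * M ^ qe n by
      linarith [mul_comm S (M ^ qe n)]))).and
      (Ioo_mem_nhdsGT (show (0 : ℝ) < M / 2 by linarith) : ∀ᶠ t in 𝓝[>] (0 : ℝ),
        t ∈ Ioo 0 (M / 2))).exists
    exact ⟨t, h2.1, by linarith [h2.2], h1⟩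
  obtain ⟨ε, amax, η₁, hε, -, -, hη₁, hheavy⟩ :=
    heavy hs ha hn hCH hC hl hM hYM (δ := t) ht0 (by linarith)
  obtain ⟨η₂, hη₂, hlev⟩ :=
    levels hs ha hn hCH hC hl hM hYM (δ := t) ht0 (by linarith) one_pos
  obtain ⟨C, hmain⟩ := main_est hk hsc hr hs hn hCH hC D (M := M) (δ := t) (ε := ε)
    (amax := amax) (κ := t) ht0 ht2 hε ht0
  set U := ((M - 2 * t) ^ qe n)⁻¹ with hU
  have hM2 : 0 < (M - 2 * t) ^ qe n := Real.rpow_pos_of_pos (by linarith) _
  have hU0 : 0 < U := inv_pos.2 hM2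
  set c₀ := 1 / 16 / (M + t) ^ qe n with hc₀
  have hMt : 0 < (M + t) ^ qe n := Real.rpow_pos_of_pos (by linarith) _
  have hc₀0 : 0 < c₀ := by positivity
  -- the radius on the sphere
  set F : ℝ → ℝ := fun l => ((1 + l) * Real.exp (-(4 * t))) ^ (n - 1) * (S / 2 ^ (n - 1)) with hF
  obtain ⟨l, hl0, hl1, hlF⟩ : ∃ l : ℝ, 0 < l ∧ l < 1 ∧
      |C| * (1 - l) < (F l - (1 + γ / 2) * U) * c₀ := by
    have hcont : Continuous fun l => (F l - (1 + γ / 2) * U) * c₀ - |C| * (1 - l) := by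
      simp only [hF]; fun_prop
    have h1 : 0 < (F 1 - (1 + γ / 2) * U) * c₀ - |C| * (1 - 1) := by
      have e1 : F 1 = Real.exp (-(4 * t)) ^ (n - 1) * S := by
        simp only [hF, show (1 : ℝ) + 1 = 2 by norm_num, mul_pow]
        field_simp
      have h2 : (1 + γ) * U < F 1 := by
        rw [e1, hU, mul_inv_lt_iff₀ hM2]; exact htF
      have h3 : 0 < F 1 - (1 + γ / 2) * U := by
        linarith [mul_pos (half_pos hγ0) hU0]
      simpa using mul_pos h3 hc₀0
    obtain ⟨l, h2, h3⟩ := (((hcont.tendsto 1).mono_left nhdsWithin_le_nhds).eventually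
      (eventually_gt_nhds h1) |>.and (Ioo_mem_nhdsLT (zero_lt_one' ℝ) :
        ∀ᶠ l in 𝓝[<] (1 : ℝ), l ∈ Ioo 0 1)).exists
    exact ⟨l, h3.1, h3.2, by linarith⟩
  obtain ⟨η₃, hη₃, hpoi⟩ := hp n G e Γ h₀ hn hCH hC D.toVarifold hl hY0 (γ / 2) l
    (half_pos hγ0) hl0.le hl1
  -- an almost minimiser
  obtain ⟨_, ⟨u, hu, rfl⟩, hE⟩ := exists_lt_of_csInf_lt hne
    (show sInf (energy D.μ G e h₀ '' {u | Adm D.μ u}) < Y + min η₁ (min η₂ η₃) from
      lt_add_of_pos_right Y (lt_min hη₁ (lt_min hη₂ hη₃)))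
  have hE1 := hE.le.trans (add_le_add le_rfl (min_le_left η₁ _))
  have hE2 := hE.le.trans (add_le_add le_rfl ((min_le_right η₁ _).trans (min_le_left η₂ η₃)))
  have hE3 := hE.le.trans (add_le_add le_rfl ((min_le_right η₁ _).trans (min_le_right η₂ η₃)))
  obtain ⟨z, a, hb⟩ := hcen n G e Γ h₀ (by omega) hCH hC D.toVarifold u hu
  obtain ⟨hamax, hmass⟩ := hheavy u z a hu hE1 hb
  obtain ⟨hgap, -⟩ := hlev u z a hu hE2 hb
  have hest := hmain l (γ / 2) hl0 hl1 u z a hu hb hamax hgap (hpoi u z a hu hE3 hb)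
  obtain ⟨-, hw, hwb, -⟩ := hs n G e Γ (by omega) hCH hC z a hb.pos hb.small
  have hwp : ∀ y, 0 < wgt Γ e z a y := fun y => (hwb y).1
  set I := ∫ p, core Γ e M t ε u z a p.1 * wgt Γ e z a p.1 ^ (n - 1) ∂D.μ with hI
  have hIlo : c₀ ≤ I := by
    rw [hc₀, div_le_iff₀ hMt]
    refine hmass.trans ?_
    rw [hI, ← integral_mul_const]
    have hcc := continuous_core (M := M) (δ := t) (ε := ε) hw hwp hu.c1
    refine integral_mono (integrable_mul_pow hn hG hu hcc)
      ((D.integrable_fst (f := fun x => core Γ e M t ε u z a x * wgt Γ e z a x ^ (n - 1)) hG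
        (hcc.fun_mul (hw.continuous.pow _)) (HasCompactSupport.intro hu.supp fun x hx => by
          simp [core_eq_zero ht0 ht2 hx])).mul_const _) fun p => ?_
    change core Γ e M t ε u z a p.1 * u p.1 ^ qe n ≤ _
    rcases (core_mem (M := M) (δ := t) (ε := ε) (Γ := Γ) (e := e) (u := u) (z := z) (a := a)
      p.1).1.eq_or_lt with h | h
    · simp [← h]
    rw [mul_assoc]
    refine mul_le_mul_of_nonneg_left ?_ h.le
    rw [u_pow hn hwp hu.nonneg p.1, mul_comm _ ((M + t) ^ qe n)]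
    exact mul_le_mul_of_nonneg_right (Real.rpow_le_rpow (vfun_nonneg hwp hu.nonneg _)
      (bump_pos (by linarith) (by linarith) (pos_of_mul_pos_left h (up_mem _ _ _).1)).2.le
      (by linarith)) (pow_nonneg (hwp _).le _)
  have h5 : (F l - (1 + γ / 2) * U) * I ≤ C * (1 - l) := by
    simp only [hF]; linarith
  have h6 : C * (1 - l) ≤ |C| * (1 - l) :=
    mul_le_mul_of_nonneg_right (le_abs_self C) (by linarith)
  have h7 : 0 ≤ F l - (1 + γ / 2) * U := nonneg_of_mul_nonneg_left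
    ((mul_nonneg (abs_nonneg C) (by linarith)).trans hlF.le) hc₀0
  linarith [mul_le_mul_of_nonneg_left hIlo h7]

end

end Vale.Agent.P219.CH.Full
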