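import Vale.Agent.P219.CH.Full.Statements
import Vale.Agent.P219.CH.Full.Tools
import Vale.Agent.P219.CH.Core.MinTools

/-!
P219: the non-sharp Sobolev inequality for unit-bundle measures with bounded mean curvature, from
the monotonicity formula and Schur's test. A Nash inequality is applied to smooth truncations at
dyadic levels.
-/

namespace Vale.Agent.P219.CH.Full

open MeasureTheory Filter Topology Set
open scoped ContDiff RealInnerProductSpace

noncomputable section

namespace Crude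

variable {n : ℕ} {G : Coeff n} {h₀ : ℝ} (D : Varifold G h₀)

include D in
theorem h₀_nonneg : 0 ≤ h₀ := (abs_nonneg (D.h 0)).trans (D.h_le 0)

theorem integrable_tgsq (hG : IsMetric G) {u : E n → ℝ} (hu : ContDiff ℝ 1 u)
    (hs : HasCompactSupport u) : Integrable (tgsq G u) D.μ :=
  D.integrable_of_supp hG (continuous_tgsq hG hu) hs fun _ hp => tgsq_eq_zero hp

end Crude

open Crude in
/-- The inequality of Nash. -/
theorem nash {n : ℕ} {G : Coeff n} {e h₀ : ℝ} {Γ : Geo G} (hk : KernelStmt) (hs : SchurStmt)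
    (hn : 4 ≤ n) (hG : IsCHe G e) (hC : Comp Γ e) (D : Datum Γ h₀) :
    ∃ A : ℝ, 0 < A ∧ ∀ g : E n → ℝ, ContDiff ℝ 1 g → HasCompactSupport g → (∀ x, 0 ≤ g x) →
      ∀ ρ : ℝ, 0 < ρ → ∫ p, g p.1 ^ 2 ∂D.μ ≤ A * ((∫ p, g p.1 ∂D.μ) ^ 2 / ρ ^ (n - 1) +
        ρ ^ 2 * ∫ p, (tgsq G g p + g p.1 ^ 2) ∂D.μ) := by
  obtain ⟨C, hC0, hsch, -, -⟩ := hs n G e Γ h₀ (by omega) hG hC D.toVarifold
  have hh : 0 ≤ h₀ := h₀_nonneg D.toVarifold
  set κ := sphA n / 2 ^ (n - 1) with hκd
  have hκ : 0 < κ := by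
    have := Core.Mini.omega_pos n
    have : (0 : ℝ) < n := by exact_mod_cast (by omega : 0 < n)
    rw [hκd, sphA]
    positivity
  refine ⟨2 / κ + 2 * C ^ 2 * (h₀ ^ 2 + 1) / κ ^ 2, by positivity, ?_⟩
  intro g hg hgs hg0 ρ hρ
  have hgi := D.integrable_fst hG.metric hg.continuous hgs
  have hg2 : Integrable (fun p : E n × E n => g p.1 ^ 2) D.μ :=
    D.integrable_fst hG.metric (f := fun x => g x ^ 2) (hg.continuous.pow 2)
      (hgs.comp_left (g := fun t : ℝ => t ^ 2) (by simp))
  have hT := integrable_tgsq D.toVarifold hG.metric hg hgs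
  set F : E n × E n → ℝ := fun p => h₀ * g p.1 + Real.sqrt (tgsq G g p) with hF
  have hFc : Continuous F :=
    (continuous_const.mul (hg.continuous.comp continuous_fst)).add
      (continuous_tgsq hG.metric hg).sqrt
  have hF0 : ∀ p, 0 ≤ F p := fun p => add_nonneg (mul_nonneg hh (hg0 _)) (Real.sqrt_nonneg _)
  have hFK : ∀ p : E n × E n, p.1 ∉ tsupport g → F p = 0 := fun p hp => by
    simp [hF, tgsq_eq_zero (u := g) hp, image_eq_zero_of_notMem_tsupport hp]
  obtain ⟨hint, hle⟩ := hsch ρ hρ (fun p => g p.1) F (tsupport g) hgs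
    (hg.continuous.comp continuous_fst) hFc (fun p => hg0 _) hF0
    (fun p hp => image_eq_zero_of_notMem_tsupport hp) hFK
  set I := ∫ p, g p.1 ∂D.μ with hI
  set S := ∫ p, g p.1 ^ 2 ∂D.μ with hS
  set T := ∫ p, (tgsq G g p + g p.1 ^ 2) ∂D.μ with hTd
  have hkey : κ * S ≤ I ^ 2 / ρ ^ (n - 1) +
      C * ρ * Real.sqrt S * Real.sqrt (∫ p, F p ^ 2 ∂D.μ) := by
    have h1 : ∀ᵐ p ∂D.μ, κ * g p.1 ^ 2 ≤ g p.1 * (I / ρ ^ (n - 1)) +
        g p.1 * ∫ q, rad n ρ (Γ.dist p.1 q.1) * F q ∂D.μ := by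
      filter_upwards [hk n G e Γ h₀ (by omega) hG hC D g hg hgs hg0] with p hp
      have hk' : (∫ q, kern n ρ (Γ.dist p.1 q.1) * g q.1 ∂D.μ) ≤ I / ρ ^ (n - 1) := by
        rw [hI, ← integral_div]
        refine integral_mono_of_nonneg (ae_of_all _ fun q => ?_) (hgi.div_const _)
          (ae_of_all _ fun q => ?_)
        · exact mul_nonneg (pow_nonneg (div_nonneg hρ.le (by positivity)) _) (hg0 _)
        · simp only [kern]
          rw [div_eq_inv_mul (g q.1), ← inv_pow]
          refine mul_le_mul_of_nonneg_right (pow_le_pow_left₀ (by positivity) ?_ _) (hg0 _)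
          calc ρ / (ρ ^ 2 + Γ.dist p.1 q.1 ^ 2) ≤ ρ / ρ ^ 2 :=
                div_le_div_of_nonneg_left hρ.le (by positivity)
                  (le_add_of_nonneg_right (sq_nonneg _))
            _ = ρ⁻¹ := by field_simp
      calc κ * g p.1 ^ 2 = g p.1 * (κ * g p.1) := by ring
        _ ≤ g p.1 * (I / ρ ^ (n - 1) + ∫ q, rad n ρ (Γ.dist p.1 q.1) * F q ∂D.μ) :=
          mul_le_mul_of_nonneg_left ((hp ρ hρ).trans (add_le_add hk' le_rfl)) (hg0 _)
        _ = _ := by ring
    have h2 := integral_mono_ae (hg2.const_mul κ) ((hgi.mul_const _).add hint) h1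
    simp only [Pi.add_apply] at h2
    rw [integral_const_mul, integral_add (hgi.mul_const _) hint, integral_mul_const] at h2
    calc κ * S ≤ I * (I / ρ ^ (n - 1)) + _ := h2
      _ ≤ _ := add_le_add (le_of_eq (by ring)) hle
  have hT0 : 0 ≤ T := integral_nonneg_of_ae (by
    filter_upwards [D.unit] with p hp using add_nonneg (tgsq_nonneg hG.metric g hp) (sq_nonneg _))
  have hF2 : ∫ p, F p ^ 2 ∂D.μ ≤ 2 * (h₀ ^ 2 + 1) * T := by
    rw [hTd, ← integral_const_mul]
    refine integral_mono_of_nonneg (ae_of_all _ fun p => sq_nonneg _)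
      ((hT.add hg2).const_mul _) ?_
    filter_upwards [D.unit] with p hp
    have ht := tgsq_nonneg hG.metric g hp
    have := Real.sq_sqrt ht
    simp only [hF]
    nlinarith [sq_nonneg (h₀ * g p.1 - Real.sqrt (tgsq G g p)), sq_nonneg (g p.1),
      mul_nonneg (sq_nonneg h₀) ht]
  have hS0 : 0 ≤ S := integral_nonneg fun p => sq_nonneg _
  set P := Real.sqrt (∫ p, F p ^ 2 ∂D.μ) with hP
  have hP2 : P ^ 2 ≤ 2 * (h₀ ^ 2 + 1) * T := by
    rw [hP, Real.sq_sqrt (integral_nonneg fun p => sq_nonneg _)]; exact hF2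
  have hQ : 0 ≤ I ^ 2 / ρ ^ (n - 1) := by positivity
  have hamgm : C * ρ * Real.sqrt S * P ≤ κ / 2 * S + C ^ 2 * ρ ^ 2 * P ^ 2 / (2 * κ) := by
    have h := Real.sq_sqrt hS0
    have h3 := sq_nonneg (κ * Real.sqrt S - C * ρ * P)
    have : C ^ 2 * ρ ^ 2 * P ^ 2 / (2 * κ) * (2 * κ) = C ^ 2 * ρ ^ 2 * P ^ 2 := by
      field_simp
    refine le_of_mul_le_mul_right ?_ (by positivity : (0 : ℝ) < 2 * κ)
    calc C * ρ * Real.sqrt S * P * (2 * κ) ≤
        κ ^ 2 * Real.sqrt S ^ 2 + C ^ 2 * ρ ^ 2 * P ^ 2 := by nlinarith [h3]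
      _ = κ / 2 * S * (2 * κ) + C ^ 2 * ρ ^ 2 * P ^ 2 := by rw [h]; ring
      _ = _ := by rw [add_mul, this]
  have h4 : κ / 2 * S ≤ I ^ 2 / ρ ^ (n - 1) + C ^ 2 * ρ ^ 2 * (2 * (h₀ ^ 2 + 1) * T) / (2 * κ) := by
    have : C ^ 2 * ρ ^ 2 * P ^ 2 / (2 * κ) ≤
        C ^ 2 * ρ ^ 2 * (2 * (h₀ ^ 2 + 1) * T) / (2 * κ) := by gcongr
    linarith
  have h5 : S ≤ 2 / κ * (I ^ 2 / ρ ^ (n - 1)) + 2 * C ^ 2 * (h₀ ^ 2 + 1) / κ ^ 2 * (ρ ^ 2 * T) := by
    have h6 := mul_le_mul_of_nonneg_left h4 (by positivity : (0 : ℝ) ≤ 2 / κ)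
    refine le_of_eq_of_le ?_ (h6.trans_eq ?_) <;> field_simp
  refine h5.trans ?_
  have a1 : 0 ≤ 2 / κ := by positivity
  have a2 : 0 ≤ 2 * C ^ 2 * (h₀ ^ 2 + 1) / κ ^ 2 := by positivity
  nlinarith [mul_nonneg a2 hQ, mul_nonneg a1 (mul_nonneg (sq_nonneg ρ) hT0)]

namespace Crude

variable {n : ℕ} {G : Coeff n}

/-- The truncation profile. -/
def step (s : ℝ) : ℝ := Real.smoothTransition (s - 1)

theorem contDiff_step : ContDiff ℝ 1 step :=
  Real.smoothTransition.contDiff.comp (contDiff_id.sub contDiff_const)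

theorem step_nonneg (s : ℝ) : 0 ≤ step s := Real.smoothTransition.nonneg _

theorem step_le_one (s : ℝ) : step s ≤ 1 := Real.smoothTransition.le_one _

theorem step_zero {s : ℝ} (h : s ≤ 1) : step s = 0 :=
  Real.smoothTransition.zero_of_nonpos (by linarith)

theorem step_one {s : ℝ} (h : 2 ≤ s) : step s = 1 :=
  Real.smoothTransition.one_of_one_le (by linarith)

theorem deriv_step_zero {s : ℝ} (h : s < 1 ∨ 2 < s) : deriv step s = 0 := by
  rcases h with h | h
  · rw [Filter.EventuallyEq.deriv_eq (f := fun _ => (0 : ℝ)) (eventually_of_mem (Iio_mem_nhds h)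
      fun t ht => step_zero (le_of_lt ht)), deriv_const]
  · rw [Filter.EventuallyEq.deriv_eq (f := fun _ => (1 : ℝ)) (eventually_of_mem (Ioi_mem_nhds h)
      fun t ht => step_one (le_of_lt ht)), deriv_const]

theorem deriv_step_bound : ∃ B : ℝ, ∀ s, deriv step s ^ 2 ≤ B := by
  obtain ⟨B, hB⟩ := (isCompact_Icc (a := (1 : ℝ)) (b := 2)).bddAbove_image
    ((contDiff_step.continuous_deriv le_rfl).pow 2).continuousOn
  refine ⟨max B 0, fun s => ?_⟩
  by_cases h : s ∈ Icc (1 : ℝ) 2
  · exact (hB (mem_image_of_mem _ h)).trans (le_max_left _ _)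
  · rw [deriv_step_zero]
    · simp
    · simp only [mem_Icc, not_and_or, not_le] at h
      exact h

/-- The truncation of `u` at the level `t`. -/
def trunc (t : ℝ) (u : E n → ℝ) (x : E n) : ℝ := t * step (u x / t)

theorem trunc_props (hG : IsMetric G) {u : E n → ℝ} (hu : ContDiff ℝ 1 u) (hs : HasCompactSupport u) {t : ℝ}
    (ht : 0 < t) : ContDiff ℝ 1 (trunc t u) ∧ HasCompactSupport (trunc t u) ∧
      (∀ x, 0 ≤ trunc t u x) ∧
      ∀ p : E n × E n, tgsq G (trunc t u) p = deriv step (u p.1 / t) ^ 2 * tgsq G u p := by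
  refine ⟨contDiff_const.mul (contDiff_step.comp (hu.div_const t)), ?_,
    fun x => mul_nonneg ht.le (step_nonneg _), fun p => ?_⟩
  · exact hs.comp_left (g := fun s => t * step (s / t)) (by simp [step_zero])
  · have hd : HasDerivAt (fun s => t * step (s / t)) (deriv step (u p.1 / t)) (u p.1) := by
      have h := (((contDiff_step.differentiable one_ne_zero) (u p.1 / t)).hasDerivAt.comp (u p.1)
        ((hasDerivAt_id (u p.1)).div_const t)).const_mul t
      refine h.congr_deriv ?_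
      field_simp
    rw [← hd.deriv]
    exact tgsq_comp hG (φ := fun s => t * step (s / t)) hd.differentiableAt
      ((hu.differentiable one_ne_zero) p.1)

theorem trunc_le {t s : ℝ} (ht : 0 < t) : t * step (s / t) ≤ if t < s then t else 0 := by
  split_ifs with h
  · exact mul_le_of_le_one_right ht.le (step_le_one _)
  · rw [step_zero ((div_le_one ht).2 (not_lt.1 h)), mul_zero]

theorem le_trunc {t s : ℝ} (ht : 0 < t) : (if 2 * t < s then t else 0) ≤ t * step (s / t) := by
  split_ifs with h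
  · rw [step_one ((le_div_iff₀ ht).2 h.le), mul_one]
  · exact mul_nonneg ht.le (step_nonneg _)

theorem sum_sq_le {t₀ : ℝ} (ht : 0 < t₀) (s : ℝ) : ∀ M : ℕ,
    (∑ j ∈ Finset.range M, if t₀ * 2 ^ j < s then (t₀ * 2 ^ j) ^ 2 else 0) ≤ (t₀ * 2 ^ M) ^ 2 / 3 ∧
      (∑ j ∈ Finset.range M, if t₀ * 2 ^ j < s then (t₀ * 2 ^ j) ^ 2 else 0) ≤ 4 / 3 * s ^ 2 := by
  intro M
  induction M with
  | zero => exact ⟨by simp; positivity, by simp; positivity⟩
  | succ M ih =>
    have hp : (t₀ * 2 ^ (M + 1)) ^ 2 = 4 * (t₀ * 2 ^ M) ^ 2 := by ring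
    rw [Finset.sum_range_succ, hp]
    by_cases h : t₀ * 2 ^ M < s
    · have h' : (t₀ * 2 ^ M) ^ 2 ≤ s ^ 2 := pow_le_pow_left₀ (by positivity) h.le 2
      rw [if_pos h]
      constructor <;> linarith [ih.1]
    · rw [if_neg h]
      constructor <;> linarith [ih.1, ih.2, sq_nonneg (t₀ * 2 ^ M)]

theorem sum_deriv_le {t₀ B : ℝ} (ht : 0 < t₀) (hB : ∀ s, deriv step s ^ 2 ≤ B) (s : ℝ) :
    ∀ M : ℕ, ∑ j ∈ Finset.range M, deriv step (s / (t₀ * 2 ^ j)) ^ 2 ≤ B := by
  intro M
  induction M with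
  | zero => simpa using (sq_nonneg _).trans (hB 0)
  | succ M ih =>
    rw [Finset.sum_range_succ]
    by_cases h : s < t₀ * 2 ^ M
    · rw [deriv_step_zero (s := s / (t₀ * 2 ^ M)) (Or.inl ((div_lt_one (by positivity)).2 h))]
      simpa using ih
    · have hz : ∀ j ∈ Finset.range M, deriv step (s / (t₀ * 2 ^ j)) ^ 2 = 0 := fun j hj => by
        have h2 : (2 : ℝ) ^ (j + 1) ≤ 2 ^ M :=
          pow_le_pow_right₀ one_le_two (Finset.mem_range.1 hj)
        by_cases he : s / (t₀ * 2 ^ j) = 2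
        · rw [he, show deriv step 2 = 0 from ?_]
          · simp
          · refine IsLocalMax.deriv_eq_zero (Eventually.of_forall fun t => ?_)
            exact (step_le_one t).trans_eq (step_one le_rfl).symm
        · rw [deriv_step_zero (Or.inr (lt_of_le_of_ne ?_ (Ne.symm he)))]
          · simp
          · rw [le_div_iff₀ (by positivity)]
            calc 2 * (t₀ * 2 ^ j) = t₀ * 2 ^ (j + 1) := by ring
              _ ≤ t₀ * 2 ^ M := mul_le_mul_of_nonneg_left h2 ht.le
              _ ≤ s := not_lt.1 h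
      rw [Finset.sum_eq_zero hz, zero_add]
      exact hB _

theorem min_rpow_le {t₀ q : ℝ} (ht : 0 < t₀) (hq : 0 ≤ q) {s : ℝ} (hs : 0 ≤ s) : ∀ M : ℕ,
    min s (t₀ * 2 ^ M) ^ q ≤ t₀ ^ q +
      ∑ j ∈ Finset.range M, if t₀ * 2 ^ j < s then (t₀ * 2 ^ (j + 1)) ^ q else 0 := by
  intro M
  induction M with
  | zero => simpa using Real.rpow_le_rpow (le_min hs ht.le) (min_le_right s t₀) hq
  | succ M ih =>
    rw [Finset.sum_range_succ]
    have h0 : 0 ≤ ∑ j ∈ Finset.range M, if t₀ * 2 ^ j < s then (t₀ * 2 ^ (j + 1)) ^ q else 0 :=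
      Finset.sum_nonneg fun j _ => by split_ifs <;> positivity
    by_cases h : t₀ * 2 ^ M < s
    · rw [if_pos h]
      have := Real.rpow_le_rpow (le_min hs (by positivity))
        (min_le_right s (t₀ * 2 ^ (M + 1))) hq
      linarith [Real.rpow_nonneg ht.le q]
    · rw [if_neg h, add_zero]
      have h' := not_lt.1 h
      have h2 : t₀ * (2 : ℝ) ^ M ≤ t₀ * 2 ^ (M + 1) :=
        mul_le_mul_of_nonneg_left (pow_le_pow_right₀ one_le_two M.le_succ) ht.le
      rw [min_eq_left (h'.trans h2)]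
      rwa [min_eq_left h'] at ih

end Crude

open Crude in
/-- The non-sharp Sobolev inequality. -/
theorem crudeStmt (hk : KernelStmt) (hs : SchurStmt) : CrudeStmt := by
  intro n G e Γ h₀ hn hG hC D hlam
  obtain ⟨A, hA, hnash⟩ := nash hk hs hn hG hC D
  obtain ⟨B, hB⟩ := deriv_step_bound
  have hB0 : 0 ≤ B := (sq_nonneg _).trans (hB 0)
  set m : ℝ := md n with hmd
  have hm3 : 3 ≤ m := by
    have : (4 : ℝ) ≤ n := by exact_mod_cast hn
    rw [hmd, md]; linarith
  have hmn : ((n - 1 : ℕ) : ℝ) = m := by rw [hmd, md, Nat.cast_sub (by omega), Nat.cast_one]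
  set q : ℝ := qe n with hqd
  have hq : 0 < q := by rw [hqd, qe, ← hmd]; exact div_pos (by linarith) (by linarith)
  have hexp : q - 2 - q * (2 / m) = 0 := by
    have : m - 2 ≠ 0 := by linarith
    have : m ≠ 0 := by linarith
    rw [hqd, qe, ← hmd]; field_simp; ring
  have hcc : 0 < cc n := by rw [cc, ← hmd]; exact div_pos (by linarith) (by linarith)
  set K : ℝ := 2 * 2 ^ q * A with hK
  set L : ℝ := 2 ^ q * A * K ^ (2 / m) with hL
  set C₁ : ℝ := B + 4 / 3 with hC₁
  have hK0 : 0 < K := by positivity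
  have hL0 : 0 < L := by positivity
  set ν := D.μ.real univ with hν
  have hν0 : 0 ≤ ν := measureReal_nonneg
  set β : ℝ := 1 / (2 * 2 ^ q) with hβ
  have hβ0 : 0 < β := by positivity
  -- the lower bound for `∫ |∇u|² + u²`
  refine ⟨min (cc n) (lam n e h₀) * (β ^ (1 - 2 / m) / (4 * L * C₁)),
    by positivity, fun u hu => ?_⟩
  set W := ∫ p, (tgsq G u p + u p.1 ^ 2) ∂D.μ with hW
  have hTu := integrable_tgsq D.toVarifold hG.metric hu.c1 hu.supp
  have hu2 : Integrable (fun p : E n × E n => u p.1 ^ 2) D.μ :=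
    D.integrable_fst hG.metric (f := fun x => u x ^ 2) (hu.c1.continuous.pow 2)
      (hu.supp.comp_left (g := fun t : ℝ => t ^ 2) (by simp))
  have hen : min (cc n) (lam n e h₀) * W ≤ energy D.μ G e h₀ u := by
    rw [hW, energy, ← integral_const_mul]
    refine integral_mono_ae ((hTu.add hu2).const_mul _)
      ((hTu.const_mul _).add (hu2.const_mul _)) ?_
    filter_upwards [D.unit] with p hp
    have := tgsq_nonneg hG.metric u hp
    rw [mul_add]
    gcongr
    · exact min_le_left _ _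
    · exact min_le_right _ _
  refine le_trans (mul_le_mul_of_nonneg_left ?_ (le_min hcc.le hlam.le)) hen
  -- levels
  obtain ⟨t₀, ht₀, htsmall⟩ : ∃ t₀ : ℝ, 0 < t₀ ∧ t₀ ^ q * ν ≤ min (1 / 2) (β / 4) := by
    refine ⟨(min (1 / 2) (β / 4) / (ν + 1)) ^ (1 / q), by positivity, ?_⟩
    rw [← Real.rpow_mul (by positivity), one_div_mul_cancel hq.ne', Real.rpow_one,
      div_mul_eq_mul_div,
      div_le_iff₀ (by positivity)]
    exact mul_le_mul_of_nonneg_left (by linarith) (by positivity)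
  obtain ⟨R, hR⟩ := hu.supp.exists_bound_of_continuous hu.c1.continuous
  obtain ⟨M, hM⟩ := exists_nat_ge (R / t₀)
  have htop : ∀ x, u x ≤ t₀ * 2 ^ M := fun x => by
    have h1 : (M : ℝ) ≤ 2 ^ M := by exact_mod_cast Nat.lt_two_pow_self.le
    have h2 := (div_le_iff₀ ht₀).1 (hM.trans h1)
    have := (le_abs_self _).trans (hR x)
    linarith
  set t : ℕ → ℝ := fun j => t₀ * 2 ^ j with ht
  have htp : ∀ j, 0 < t j := fun j => by positivity
  have hts : ∀ j, t (j + 1) = 2 * t j := fun j => by simp only [ht]; ring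
  set S : ℕ → Set (E n × E n) := fun j => {p | t j < u p.1} with hSd
  have hSm : ∀ j, MeasurableSet (S j) := fun j =>
    measurableSet_lt measurable_const (hu.c1.continuous.comp continuous_fst).measurable
  set a : ℕ → ℝ := fun j => D.μ.real (S j) with ha
  have hind : ∀ (j : ℕ) (c : ℝ), (∫ p, (if t j < u p.1 then c else 0) ∂D.μ) = c * a j := by
    intro j c
    have : (fun p : E n × E n => if t j < u p.1 then c else 0) = (S j).indicator fun _ => c := by
      funext p; simp [hSd, indicator_apply]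
    rw [this, integral_indicator_const _ (hSm j), smul_eq_mul, mul_comm]
  have hindi : ∀ (j : ℕ) (c : ℝ), Integrable (fun p => if t j < u p.1 then c else 0) D.μ := by
    intro j c
    have : (fun p : E n × E n => if t j < u p.1 then c else 0) = (S j).indicator fun _ => c := by
      funext p; simp [hSd, indicator_apply]
    rw [this]; exact (integrable_const c).indicator (hSm j)
  set w : ℕ → ℝ := fun j =>
    ∫ p, (tgsq G (trunc (t j) u) p + trunc (t j) u p.1 ^ 2) ∂D.μ with hw
  have hgint : ∀ j, Integrable (fun p => tgsq G (trunc (t j) u) p + trunc (t j) u p.1 ^ 2) D.μ :=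
    fun j => by
      obtain ⟨h1, h2, -, -⟩ := trunc_props hG.metric hu.c1 hu.supp (htp j)
      exact (integrable_tgsq D.toVarifold hG.metric h1 h2).add
        (D.integrable_fst hG.metric (f := fun x => trunc (t j) u x ^ 2) (h1.continuous.pow 2)
          (h2.comp_left (g := fun s : ℝ => s ^ 2) (by simp)))
  have hsumw : ∑ j ∈ Finset.range M, w j ≤ C₁ * W := by
    rw [hw, ← integral_finsetSum _ fun j _ => hgint j, hW, ← integral_const_mul]
    refine integral_mono_ae (integrable_finsetSum _ fun j _ => hgint j)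
      ((hTu.add hu2).const_mul _) ?_
    filter_upwards [D.unit] with p hp
    have hT := tgsq_nonneg hG.metric u hp
    have h1 : ∑ j ∈ Finset.range M, tgsq G (trunc (t j) u) p ≤ B * tgsq G u p := by
      rw [Finset.sum_congr rfl fun j _ => (trunc_props hG.metric hu.c1 hu.supp (htp j)).2.2.2 p,
        ← Finset.sum_mul]
      exact mul_le_mul_of_nonneg_right (sum_deriv_le ht₀ hB _ M) hT
    have h2 : ∑ j ∈ Finset.range M, trunc (t j) u p.1 ^ 2 ≤ 4 / 3 * u p.1 ^ 2 := by
      refine le_trans (Finset.sum_le_sum fun j _ => ?_) (sum_sq_le ht₀ (u p.1) M).2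
      have h := pow_le_pow_left₀ (mul_nonneg (htp j).le (step_nonneg _))
        (trunc_le (s := u p.1) (htp j)) 2
      simp only [trunc]
      refine h.trans (le_of_eq ?_)
      simp only [ht]
      split_ifs <;> simp
    simp only [Finset.sum_add_distrib, hC₁]
    nlinarith [mul_nonneg hB0 (sq_nonneg (u p.1))]
  have hw0 : ∀ j, 0 ≤ w j := fun j => integral_nonneg_of_ae (by
    filter_upwards [D.unit] with p hp using add_nonneg (tgsq_nonneg hG.metric _ hp) (sq_nonneg _))
  set b : ℕ → ℝ := fun j => t j ^ q * a j with hb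
  have hb0 : ∀ j, 0 ≤ b j := fun j => mul_nonneg (by positivity) measureReal_nonneg
  -- one step
  have hstep : ∀ j, b (j + 1) ≤ b j / 2 + L * b j ^ (2 / m) * w j := by
    intro j
    rcases (show 0 ≤ a j from measureReal_nonneg).eq_or_lt with h0 | h0
    · have : a (j + 1) ≤ a j := measureReal_mono fun p hp => by
        simp only [hSd, mem_ofPred_eq, hts] at hp ⊢
        linarith [htp j]
      have h1 : a (j + 1) = 0 := le_antisymm (this.trans h0.ge) measureReal_nonneg
      have : 0 ≤ L * b j ^ (2 / m) * w j :=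
        mul_nonneg (mul_nonneg hL0.le (Real.rpow_nonneg (hb0 j) _)) (hw0 j)
      simp only [hb, h1, mul_zero]
      linarith [hb0 j]
    obtain ⟨hg1, hg2, hg3, -⟩ := trunc_props hG.metric hu.c1 hu.supp (htp j)
    set ρ := (K * a j) ^ (1 / m) with hρ
    have hρ0 : 0 < ρ := by positivity
    have hρm : ρ ^ (n - 1) = K * a j := by
      rw [hρ, ← Real.rpow_natCast, hmn, ← Real.rpow_mul (by positivity),
        one_div_mul_cancel (by linarith), Real.rpow_one]
    have hρ2 : ρ ^ 2 = K ^ (2 / m) * a j ^ (2 / m) := by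
      rw [hρ, ← Real.rpow_natCast, ← Real.rpow_mul (by positivity),
        ← Real.mul_rpow hK0.le h0.le]
      norm_num
      ring_nf
    have hN := hnash _ hg1 hg2 hg3 ρ hρ0
    have hlow : t j ^ 2 * a (j + 1) ≤ ∫ p, trunc (t j) u p.1 ^ 2 ∂D.μ := by
      rw [← hind]
      refine integral_mono (hindi _ _) (D.integrable_fst hG.metric
        (f := fun x => trunc (t j) u x ^ 2)
        (hg1.continuous.pow 2) (hg2.comp_left (g := fun s : ℝ => s ^ 2) (by simp))) fun p => ?_
      have h := pow_le_pow_left₀ (by split_ifs <;> linarith [htp j])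
        (le_trunc (s := u p.1) (htp j)) 2
      refine le_of_eq_of_le ?_ h
      simp only [hts]
      split_ifs <;> simp
    have hup : (∫ p, trunc (t j) u p.1 ∂D.μ) ≤ t j * a j := by
      rw [← hind]
      exact integral_mono (D.integrable_fst hG.metric hg1.continuous hg2) (hindi _ _)
        fun p => trunc_le (htp j)
    have hI0 : 0 ≤ ∫ p, trunc (t j) u p.1 ∂D.μ := integral_nonneg fun p => hg3 _
    have hsq := pow_le_pow_left₀ hI0 hup 2
    have h1 : t j ^ 2 * a (j + 1) ≤
        A / K * (t j ^ 2 * a j) + A * K ^ (2 / m) * a j ^ (2 / m) * w j := by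
      refine hlow.trans (hN.trans ?_)
      rw [mul_add, hρ2, hρm]
      refine add_le_add ?_ (le_of_eq (by rw [hw]; ring))
      calc A * ((∫ p, trunc (t j) u p.1 ∂D.μ) ^ 2 / (K * a j)) ≤
          A * ((t j * a j) ^ 2 / (K * a j)) := by gcongr
        _ = _ := by field_simp
    have hpow : t j ^ (q - 2) * a j ^ (2 / m) = b j ^ (2 / m) := by
      rw [hb, Real.mul_rpow (by positivity) h0.le, ← Real.rpow_mul (htp j).le,
        show q - 2 = q * (2 / m) by linarith]
    have hq2 : t j ^ (q - 2) * t j ^ 2 = t j ^ q := by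
      rw [← Real.rpow_natCast (t j) 2, ← Real.rpow_add (htp j)]; norm_num
    have h2 := mul_le_mul_of_nonneg_left h1
      (by positivity : (0 : ℝ) ≤ 2 ^ q * t j ^ (q - 2))
    have e1 : 2 ^ q * t j ^ (q - 2) * (t j ^ 2 * a (j + 1)) = b (j + 1) := by
      simp only [hb, hts]
      rw [Real.mul_rpow (by norm_num) (htp j).le, ← hq2]; ring
    have e2 : 2 ^ q * t j ^ (q - 2) * (A / K * (t j ^ 2 * a j) +
        A * K ^ (2 / m) * a j ^ (2 / m) * w j) = b j / 2 + L * b j ^ (2 / m) * w j := by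
      rw [← hpow, hL]
      simp only [hb]
      rw [← hq2, hK]
      field_simp
    linarith [e1, e2]
  -- summing up
  set Bs := ∑ j ∈ Finset.range M, b j with hBs
  have hBs0 : 0 ≤ Bs := Finset.sum_nonneg fun j _ => hb0 j
  have hnorm : 1 ≤ t₀ ^ q * ν + 2 ^ q * Bs := by
    have hpt : ∀ p : E n × E n, u p.1 ^ q ≤ t₀ ^ q +
        ∑ j ∈ Finset.range M, if t j < u p.1 then t (j + 1) ^ q else 0 := fun p => by
      have := min_rpow_le ht₀ hq.le (hu.nonneg p.1) M
      rwa [min_eq_left (htop p.1)] at this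
    have hsi : Integrable (fun p : E n × E n => u p.1 ^ q) D.μ :=
      D.integrable_fst hG.metric (f := fun x => u x ^ q)
        (hu.c1.continuous.rpow_const fun _ => Or.inr hq.le)
        (hu.supp.comp_left (g := fun s : ℝ => s ^ q) (Real.zero_rpow hq.ne'))
    have hi := integral_mono hsi ((integrable_const (t₀ ^ q)).add
      (integrable_finsetSum _ fun j _ => hindi j (t (j + 1) ^ q))) hpt
    simp only [Pi.add_apply] at hi
    rw [hu.norm, integral_add (integrable_const _) (integrable_finsetSum _ fun j _ => hindi j _),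
      integral_finsetSum _ fun j _ => hindi j _, integral_const, smul_eq_mul, ← hν] at hi
    refine hi.trans (le_of_eq ?_)
    rw [mul_comm ν, hBs, Finset.mul_sum]
    congr 1
    refine Finset.sum_congr rfl fun j _ => ?_
    rw [hind]
    simp only [hb, hts]
    rw [Real.mul_rpow (by norm_num) (htp j).le]
    ring
  have hlowB : β ≤ Bs := by
    have h1 := htsmall.trans (min_le_left _ _)
    rw [hβ, div_le_iff₀ (by positivity)]
    linarith
  have hBs' : Bs ≤ b 0 + ∑ j ∈ Finset.range M, b (j + 1) := by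
    have := Finset.sum_range_succ' b M
    rw [Finset.sum_range_succ] at this
    linarith [hb0 M]
  have hb00 : b 0 ≤ β / 4 := by
    refine le_trans ?_ (htsmall.trans (min_le_right _ _))
    simp only [hb, ht, pow_zero, mul_one]
    exact mul_le_mul_of_nonneg_left (measureReal_mono (subset_univ _)) (by positivity)
  have hmain : Bs / 4 ≤ L * Bs ^ (2 / m) * (C₁ * W) := by
    have h1 : ∑ j ∈ Finset.range M, b (j + 1) ≤
        Bs / 2 + L * Bs ^ (2 / m) * (C₁ * W) := by
      refine (Finset.sum_le_sum fun j _ => hstep j).trans ?_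
      rw [Finset.sum_add_distrib, ← Finset.sum_div]
      refine add_le_add le_rfl (le_trans (Finset.sum_le_sum fun j hj => ?_)
        (le_trans (le_of_eq (Finset.mul_sum _ _ _).symm)
          (mul_le_mul_of_nonneg_left hsumw (by positivity))))
      refine mul_le_mul_of_nonneg_right (mul_le_mul_of_nonneg_left ?_ hL0.le) (hw0 j)
      exact Real.rpow_le_rpow (hb0 j) (Finset.single_le_sum (fun i _ => hb0 i) hj) (by positivity)
    linarith
  have hB1 : 0 < Bs := hβ0.trans_le hlowB
  have h2m : 0 ≤ 1 - 2 / m := by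
    have : 2 / m ≤ 1 := (div_le_one (by linarith)).2 (by linarith)
    linarith
  have hfin : β ^ (1 - 2 / m) ≤ 4 * L * C₁ * W := by
    refine (Real.rpow_le_rpow hβ0.le hlowB h2m).trans ?_
    rw [Real.rpow_sub hB1, Real.rpow_one, div_le_iff₀ (by positivity)]
    linarith [hmain]
  rw [div_le_iff₀ (by positivity)]
  linarith

end

end Vale.Agent.P219.CH.Full
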