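import Vale.Agent.P219.CH.Full.Statements
import Vale.Agent.P219.CH.Full.HalfSpace.Translate

/-!
P219: the half-space lemma. A set with two-sided density at `0`, whose derivative is close to a
constant vector measure there, blows up to a half space and has surface density at least one.
-/

namespace Vale.Agent.P219.CH.Full

open MeasureTheory Set Filter Topology Metric
open scoped ContDiff RealInnerProductSpace

noncomputable section

namespace HalfSpace

variable {n m : ℕ}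

theorem tendsto_mul_pos {k : ℝ} (hk : 0 < k) :
    Tendsto (fun r : ℝ => k * r) (𝓝[>] 0) (𝓝[>] 0) := by
  refine tendsto_nhdsWithin_iff.2 ⟨?_, ?_⟩
  · have h : Tendsto (fun r : ℝ => k * r) (𝓝 0) (𝓝 (k * 0)) :=
      (continuous_const.mul continuous_id).tendsto 0
    rw [mul_zero] at h
    exact h.mono_left nhdsWithin_le_nhds
  · filter_upwards [self_mem_nhdsWithin] with r hr using mul_pos hk hr

theorem devi_small {π : Measure (E (m + 1))} {ξ : E (m + 1) → E (m + 1)} {ξ₀ : E (m + 1)}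
    (hlim : Tendsto (fun r : ℝ => devi π ξ ξ₀ r / r ^ m) (𝓝[>] 0) (𝓝 0)) {k δ : ℝ}
    (hk : 0 < k) (hδ : 0 < δ) : ∀ᶠ r in 𝓝[>] (0 : ℝ), devi π ξ ξ₀ (k * r) ≤ δ * r ^ m := by
  have h1 := (hlim.comp (tendsto_mul_pos hk)).eventually_le_const
    (show (0 : ℝ) < δ / k ^ m by positivity)
  filter_upwards [h1, self_mem_nhdsWithin] with r hr (hr0 : 0 < r)
  simp only [Function.comp_apply] at hr
  rw [div_le_div_iff₀ (by positivity) (by positivity), mul_pow] at hr
  have hk' : (0 : ℝ) < k ^ m := pow_pos hk m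
  nlinarith

/-- Two integrals over sets agreeing outside a bad set. -/
theorem diff_le {S H Bad : Set (E n)} (hS : MeasurableSet S) (hH : MeasurableSet H)
    (hB : MeasurableSet Bad) (hBfin : volume Bad ≠ ⊤) {f : E n → ℝ} (hf : Integrable f) {C : ℝ}
    (hC : 0 ≤ C) (hfC : ∀ x, |f x| ≤ C) (hgood : ∀ x, x ∉ Bad → (x ∈ H ↔ x ∈ S) ∨ f x = 0) :
    (∫ x in H, f x) - (∫ x in S, f x) ≤ C * volume.real Bad := by
  classical
  rw [← integral_indicator hH, ← integral_indicator hS,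
    ← integral_sub (hf.indicator hH) (hf.indicator hS)]
  calc ∫ x, H.indicator f x - S.indicator f x ≤ ∫ x, Bad.indicator (fun _ => C) x := by
        refine integral_mono ((hf.indicator hH).sub (hf.indicator hS))
          ((integrableOn_const hBfin).integrable_indicator hB) fun x => ?_
        have hb := abs_le.1 (hfC x)
        by_cases hbad : x ∈ Bad
        · rw [indicator_of_mem hbad, indicator_apply, indicator_apply]
          split_ifs <;> linarith
        · rw [indicator_of_notMem hbad, indicator_apply, indicator_apply]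
          rcases hgood x hbad with h | h
          · simp [h]
          · simp [h]
    _ = C * volume.real Bad := by
        rw [integral_indicator hB, setIntegral_const]; simp [mul_comm]

/-- A test of the vector measure against a unit vector. -/
theorem test_upper {π : Measure (E n)} [IsLocallyFiniteMeasure π] {ξ : E n → E n} {ξ₀ : E n}
    (hξ : LocallyIntegrable ξ π) {φ : E n → ℝ} (hφ : Continuous φ) (hc : HasCompactSupport φ)
    {r : ℝ} (hsupp : ∀ x, r < ‖x‖ → φ x = 0) (hmem : ∀ x, φ x ∈ Icc (0 : ℝ) 1) {e : E n}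
    (he : ‖e‖ = 1) (hξe : ⟪ξ₀, e⟫ = ‖ξ₀‖) :
    ∫ x, φ x * ⟪ξ x, e⟫ ∂π ≤
      ‖ξ₀‖ * π.real (closedBall (0 : E n) r) + devi π ξ ξ₀ r := by
  have h1 : IntegrableOn (fun _ => ‖ξ₀‖) (closedBall (0 : E n) r) π :=
    integrableOn_const (isCompact_closedBall (0 : E n) r).measure_lt_top.ne
  have h2 := integrableOn_dev (ξ₀ := ξ₀) hξ r
  have h12 : IntegrableOn (fun x => ‖ξ₀‖ + ‖ξ x - ξ₀‖) (closedBall (0 : E n) r) π := h1.add h2
  calc ∫ x, φ x * ⟪ξ x, e⟫ ∂π
      ≤ ∫ x, (closedBall (0 : E n) r).indicator (fun x => ‖ξ₀‖ + ‖ξ x - ξ₀‖) x ∂π := by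
        refine integral_mono (integrable_test_inner hφ hc hξ e)
          (h12.integrable_indicator measurableSet_closedBall) fun x => ?_
        by_cases hx : x ∈ closedBall (0 : E n) r
        · rw [indicator_of_mem hx]
          have h : ⟪ξ x, e⟫ ≤ ‖ξ₀‖ + ‖ξ x - ξ₀‖ := by
            have h := (abs_le.1 (abs_real_inner_le_norm (ξ x - ξ₀) e)).2
            rw [inner_sub_left, hξe, he, mul_one] at h
            linarith
          exact (mul_le_mul_of_nonneg_left h (hmem x).1).trans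
            (mul_le_of_le_one_left (by positivity) (hmem x).2)
        · rw [indicator_of_notMem hx, hsupp x (by simpa using hx)]
          simp
    _ = _ := by
        rw [integral_indicator measurableSet_closedBall, integral_add h1 h2, setIntegral_const,
          smul_eq_mul, mul_comm]
        rfl

/-- Where the set differs from the half space `⟪x, e⟫ < 0`. -/
def badSet (S : Set (E n)) (e : E n) (r u : ℝ) : Set (E n) :=
  ((closedBall (0 : E n) r ∩ {x | ⟪x, e⟫ ≤ -u}) \ S) ∪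
    ((closedBall (0 : E n) r ∩ {x | u ≤ ⟪x, e⟫}) ∩ S) ∪
      (closedBall (0 : E n) r ∩ {x | |⟪x, e⟫| ≤ u})

theorem badSet_subset (S : Set (E n)) (e : E n) (r u : ℝ) : badSet S e r u ⊆ closedBall 0 r :=
  union_subset (union_subset (sdiff_subset.trans inter_subset_left)
    (inter_subset_left.trans inter_subset_left)) inter_subset_left

theorem measurableSet_badSet {S : Set (E n)} (hS : MeasurableSet S) (e : E n) (r u : ℝ) :
    MeasurableSet (badSet S e r u) := by
  have hi : Measurable fun x : E n => ⟪x, e⟫ :=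
    (continuous_id.inner continuous_const).measurable
  exact (((measurableSet_closedBall.inter (measurableSet_le hi measurable_const)).diff hS).union
    ((measurableSet_closedBall.inter (measurableSet_le measurable_const hi)).inter hS)).union
      (measurableSet_closedBall.inter (measurableSet_le hi.abs measurable_const))

theorem badSet_volume_ne_top (S : Set (E n)) (e : E n) (r u : ℝ) :
    volume (badSet S e r u) ≠ ⊤ :=
  ((measure_mono (badSet_subset S e r u)).trans_lt measure_closedBall_lt_top).ne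

/-- The constant of the pair bound. -/
def pairK (m : ℕ) : ℝ := 2 ^ (m + 1) * omega (m + 1) * 2

theorem pairK_nonneg (m : ℕ) : 0 ≤ pairK m := by
  have := omega_nonneg (m + 1)
  unfold pairK
  positivity

theorem pair_scale {π : Measure (E (m + 1))} {ξ : E (m + 1) → E (m + 1)} {ξ₀ : E (m + 1)}
    {r δ : ℝ} (hr : 0 < r) (h : devi π ξ ξ₀ (4 * r) ≤ δ * r ^ m) :
    (2 * r) ^ (m + 1) * omega (m + 1) * (2 * r * devi π ξ ξ₀ (4 * r)) ≤
      pairK m * δ * (r ^ (m + 1) * r ^ (m + 1)) := by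
  have hω := omega_nonneg (m + 1)
  calc (2 * r) ^ (m + 1) * omega (m + 1) * (2 * r * devi π ξ ξ₀ (4 * r))
      ≤ (2 * r) ^ (m + 1) * omega (m + 1) * (2 * r * (δ * r ^ m)) := by gcongr
    _ = pairK m * δ * (r ^ (m + 1) * r ^ (m + 1)) := by
        rw [pairK, mul_pow, pow_succ r m]; ring

theorem ne_zero {S : Set (E (m + 1))} (hS : MeasurableSet S) {π : Measure (E (m + 1))}
    [IsLocallyFiniteMeasure π] {ξ : E (m + 1) → E (m + 1)} (hξ : LocallyIntegrable ξ π)
    (hder : HasDer S π ξ) {ξ₀ : E (m + 1)}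
    (hlim : Tendsto (fun r : ℝ => devi π ξ ξ₀ r / r ^ m) (𝓝[>] 0) (𝓝 0)) {c : ℝ} (hc : 0 < c)
    (hdens : ∀ᶠ r in 𝓝[>] (0 : ℝ),
      c * r ^ (m + 1) ≤ volume.real (closedBall (0 : E (m + 1)) r ∩ S) ∧
      c * r ^ (m + 1) ≤ volume.real (closedBall (0 : E (m + 1)) r \ S)) : ξ₀ ≠ 0 := by
  intro h0
  have hK := pairK_nonneg m
  obtain ⟨δ, hδ, hδK⟩ : ∃ δ, 0 < δ ∧ pairK m * δ < c * c := by
    refine ⟨c ^ 2 / (2 * (pairK m + 1)), by positivity, ?_⟩
    rw [mul_div_assoc', div_lt_iff₀ (by positivity)]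
    nlinarith
  obtain ⟨r, hr, ⟨hin, hout⟩, (hr0 : 0 < r)⟩ :=
    ((devi_small hlim (k := 4) (δ := δ) four_pos hδ).and
      (hdens.and self_mem_nhdsWithin)).exists
  have h := (pair_bound (ξ₀ := ξ₀) hS hder hξ hr0 measurableSet_closedBall measurableSet_closedBall
    subset_rfl subset_rfl (fun x _ y _ => by simp [h0])).trans (pair_scale hr0 hr)
  have h1 : (c * r ^ (m + 1)) * (c * r ^ (m + 1)) ≤ pairK m * δ * (r ^ (m + 1) * r ^ (m + 1)) :=
    (mul_le_mul hout hin (by positivity) measureReal_nonneg).trans h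
  have h3 : 0 < r ^ (m + 1) * r ^ (m + 1) := by positivity
  nlinarith

theorem bad_le {S : Set (E (m + 1))} (hS : MeasurableSet S) {π : Measure (E (m + 1))}
    [IsLocallyFiniteMeasure π] {ξ : E (m + 1) → E (m + 1)} (hξ : LocallyIntegrable ξ π)
    (hder : HasDer S π ξ) {ξ₀ e : E (m + 1)} (he : ‖e‖ = 1) (hξe : ξ₀ = ‖ξ₀‖ • e)
    {r s c δ : ℝ} (hr : 0 < r) (hs : 0 < s) (hs1 : s ≤ 1) (hc : 0 < c)
    (hdev : devi π ξ ξ₀ (4 * r) ≤ δ * r ^ m)
    (hin : c * (s * r) ^ (m + 1) ≤ volume.real (closedBall (0 : E (m + 1)) (s * r) ∩ S))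
    (hout : c * (s * r) ^ (m + 1) ≤ volume.real (closedBall (0 : E (m + 1)) (s * r) \ S)) :
    volume.real (badSet S e r (s * r)) ≤
      (2 * (pairK m * δ / (c * s ^ (m + 1))) + 2 * s * omega m) * r ^ (m + 1) := by
  have hBS : closedBall (0 : E (m + 1)) (s * r) ⊆ closedBall 0 r :=
    closedBall_subset_closedBall (mul_le_of_le_one_left hr.le hs1)
  have hinle : ∀ x ∈ closedBall (0 : E (m + 1)) (s * r), |⟪x, e⟫| ≤ s * r := fun x hx => by
    refine (abs_real_inner_le_norm x e).trans ?_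
    rw [he, mul_one]
    simpa using hx
  have hi : Measurable fun x : E (m + 1) => ⟪x, e⟫ :=
    (continuous_id.inner continuous_const).measurable
  have hnorm : 0 ≤ ‖ξ₀‖ := norm_nonneg _
  have hlo := (pair_bound (ξ₀ := ξ₀) hS hder hξ hr
    (measurableSet_closedBall.inter (measurableSet_le hi measurable_const))
    measurableSet_closedBall inter_subset_left hBS (fun x hx y hy => by
      rw [hξe, real_inner_smul_right, inner_sub_left]
      have h1 : ⟪x, e⟫ ≤ -(s * r) := hx.2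
      exact mul_nonneg hnorm (by linarith [(abs_le.1 (hinle y hy)).1]))).trans (pair_scale hr hdev)
  have hhi := (pair_bound (ξ₀ := ξ₀) hS hder hξ hr measurableSet_closedBall
    (measurableSet_closedBall.inter (measurableSet_le measurable_const hi)) hBS inter_subset_left
    (fun x hx y hy => by
      rw [hξe, real_inner_smul_right, inner_sub_left]
      have h1 : s * r ≤ ⟪y, e⟫ := hy.2
      exact mul_nonneg hnorm (by linarith [(abs_le.1 (hinle x hx)).2]))).trans (pair_scale hr hdev)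
  have hbs : c * (s * r) ^ (m + 1) = c * s ^ (m + 1) * r ^ (m + 1) := by rw [mul_pow]; ring
  rw [hbs] at hin hout
  have hcs : 0 < c * s ^ (m + 1) := by positivity
  have hR : (0 : ℝ) < r ^ (m + 1) := by positivity
  have hdel : ∀ a b : ℝ, 0 ≤ a → c * s ^ (m + 1) * r ^ (m + 1) ≤ b →
      a * b ≤ pairK m * δ * (r ^ (m + 1) * r ^ (m + 1)) →
      a ≤ pairK m * δ / (c * s ^ (m + 1)) * r ^ (m + 1) := by
    intro a b ha hb hab
    rw [div_mul_eq_mul_div, le_div_iff₀ hcs]
    refine le_of_mul_le_mul_right ?_ hR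
    calc a * (c * s ^ (m + 1)) * r ^ (m + 1) = a * (c * s ^ (m + 1) * r ^ (m + 1)) := by ring
      _ ≤ a * b := mul_le_mul_of_nonneg_left hb ha
      _ ≤ _ := hab
      _ = _ := by ring
  have h1 := hdel _ _ measureReal_nonneg hin hlo
  have h2 := hdel _ _ measureReal_nonneg hout (by rw [mul_comm]; exact hhi)
  have h3 := slab_le he hr.le (show 0 ≤ s * r by positivity)
  have e3 : 2 * (s * r) * (r ^ m * omega m) = 2 * s * omega m * r ^ (m + 1) := by ring
  rw [e3] at h3
  have h4 := measureReal_union_le (μ := volume)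
    ((closedBall (0 : E (m + 1)) r ∩ {x | ⟪x, e⟫ ≤ -(s * r)}) \ S)
    ((closedBall (0 : E (m + 1)) r ∩ {x | s * r ≤ ⟪x, e⟫}) ∩ S)
  refine (measureReal_union_le _ _).trans ?_
  linarith

theorem scale_test {S : Set (E (m + 1))} (hS : MeasurableSet S) {π : Measure (E (m + 1))}
    [IsLocallyFiniteMeasure π] {ξ : E (m + 1) → E (m + 1)} (hξ : LocallyIntegrable ξ π)
    (hder : HasDer S π ξ) {ξ₀ e : E (m + 1)} (he : ‖e‖ = 1) (hξe : ⟪ξ₀, e⟫ = ‖ξ₀‖)
    (χ : ContDiffBump (0 : E (m + 1))) (hout : χ.rOut = 1) {M : ℝ}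
    (hM : ∀ x, ‖fderiv ℝ χ x‖ ≤ M) {r u : ℝ} (hr : 0 < r) (hu : 0 ≤ u) :
    (χ.rIn * r) ^ m * omega m ≤ ‖ξ₀‖ * π.real (closedBall (0 : E (m + 1)) r) +
      devi π ξ ξ₀ r + M / r * volume.real (badSet S e r u) := by
  set φ : E (m + 1) → ℝ := fun x => χ (r⁻¹ • x) with hφ
  have hχd : ContDiff ℝ 1 χ := χ.contDiff
  have hφd : ContDiff ℝ 1 φ := hχd.comp (contDiff_const_smul r⁻¹)
  have hφs : ∀ x, r < ‖x‖ → φ x = 0 := fun x hx => by
    refine χ.zero_of_le_dist ?_
    rw [hout, dist_zero_right, norm_smul, norm_inv, Real.norm_eq_abs, abs_of_pos hr,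
      le_inv_mul_iff₀ hr, mul_one]
    exact hx.le
  have hφc : HasCompactSupport φ :=
    HasCompactSupport.intro (isCompact_closedBall 0 r) fun x hx => hφs x (by simpa using hx)
  have hφ1 : ∀ x ∈ closedBall (0 : E (m + 1)) (χ.rIn * r), φ x = 1 := fun x hx => by
    refine χ.one_of_mem_closedBall ?_
    rw [mem_closedBall_zero_iff] at hx ⊢
    rw [norm_smul, norm_inv, Real.norm_eq_abs, abs_of_pos hr, inv_mul_le_iff₀ hr]
    linarith
  have hM0 : 0 ≤ M := (norm_nonneg _).trans (hM 0)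
  have hdb : ∀ x, |fderiv ℝ φ x e| ≤ M / r := by
    intro x
    have h1 : HasFDerivAt φ ((fderiv ℝ χ (r⁻¹ • x)).comp
        (r⁻¹ • ContinuousLinearMap.id ℝ (E (m + 1)))) x :=
      (hχd.differentiable one_ne_zero _).hasFDerivAt.comp x ((hasFDerivAt_id x).const_smul r⁻¹)
    rw [h1.fderiv]
    show |fderiv ℝ χ (r⁻¹ • x) (r⁻¹ • e)| ≤ M / r
    rw [map_smul, smul_eq_mul, abs_mul, abs_of_pos (inv_pos.2 hr), ← div_eq_inv_mul]
    refine div_le_div_of_nonneg_right ?_ hr.le
    calc |fderiv ℝ χ (r⁻¹ • x) e| ≤ ‖fderiv ℝ χ (r⁻¹ • x)‖ * ‖e‖ :=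
          (fderiv ℝ χ (r⁻¹ • x)).le_opNorm e
      _ ≤ M := by rw [he, mul_one]; exact hM _
  have hzero : ∀ x, x ∉ closedBall (0 : E (m + 1)) r → fderiv ℝ φ x e = 0 := by
    intro x hx
    have h2 : φ =ᶠ[𝓝 x] fun _ => 0 :=
      eventually_of_mem (isClosed_closedBall.isOpen_compl.mem_nhds hx)
        fun z hz => hφs z (by simpa using hz)
    rw [h2.fderiv_eq, fderiv_const_apply]
    rfl
  have hi : Measurable fun x : E (m + 1) => ⟪x, e⟫ :=
    (continuous_id.inner continuous_const).measurable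
  have hdi : Integrable fun x => fderiv ℝ φ x e :=
    (((hφd.continuous_fderiv one_ne_zero).clm_apply
      continuous_const)).integrable_of_hasCompactSupport (hφc.fderiv_apply ℝ e)
  have hlower := half_lower he hφd hφc (fun x => χ.nonneg)
    (show 0 ≤ χ.rIn * r from mul_nonneg χ.rIn_pos.le hr.le) hφ1
  have hdiff := diff_le (f := fun x => fderiv ℝ φ x e) hS
    (measurableSet_lt hi (measurable_const (a := (0 : ℝ))))
    (measurableSet_badSet hS e r u) (badSet_volume_ne_top S e r u) hdi (div_nonneg hM0 hr.le) hdb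
    (fun x hx => by
      by_cases hball : x ∈ closedBall (0 : E (m + 1)) r
      · refine Or.inl ?_
        have n3 : ¬ |⟪x, e⟫| ≤ u := fun h => hx (Or.inr ⟨hball, h⟩)
        rw [abs_le, not_and_or, not_le, not_le] at n3
        rcases n3 with h | h
        · have hxS : x ∈ S := by
            by_contra hxS
            exact hx (Or.inl (Or.inl ⟨⟨hball, h.le⟩, hxS⟩))
          exact ⟨fun _ => hxS, fun _ => lt_of_lt_of_le h (neg_nonpos.2 hu)⟩
        · have hxS : x ∉ S := fun hxS => hx (Or.inl (Or.inr ⟨⟨hball, h.le⟩, hxS⟩))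
          exact ⟨fun hxH => absurd (show ⟪x, e⟫ < 0 from hxH) (by linarith),
            fun hS' => absurd hS' hxS⟩
      · exact Or.inr (hzero x hball))
  have hup : ∫ x in S, fderiv ℝ φ x e ≤
      ‖ξ₀‖ * π.real (closedBall (0 : E (m + 1)) r) + devi π ξ ξ₀ r := by
    rw [hder φ hφd hφc e]
    exact test_upper hξ hφd.continuous hφc hφs (fun x => ⟨χ.nonneg, χ.le_one⟩) he hξe
  linarith

theorem main {S : Set (E (m + 1))} (hS : MeasurableSet S) {π : Measure (E (m + 1))}
    [IsLocallyFiniteMeasure π] {ξ : E (m + 1) → E (m + 1)} (hξ : LocallyIntegrable ξ π)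
    (hder : HasDer S π ξ) (ξ₀ : E (m + 1))
    (hlim : Tendsto (fun r : ℝ => devi π ξ ξ₀ r / r ^ m) (𝓝[>] 0) (𝓝 0)) {c : ℝ} (hc : 0 < c)
    (hdens : ∀ᶠ r in 𝓝[>] (0 : ℝ),
      c * r ^ (m + 1) ≤ volume.real (closedBall (0 : E (m + 1)) r ∩ S) ∧
      c * r ^ (m + 1) ≤ volume.real (closedBall (0 : E (m + 1)) r \ S))
    (θ : ℝ) (hθ : θ < 1) : ∀ᶠ r in 𝓝[>] (0 : ℝ),
      θ * omega m * r ^ m ≤ ‖ξ₀‖ * π.real (closedBall (0 : E (m + 1)) r) := by
  have hξ0 := ne_zero hS hξ hder hlim hc hdens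
  have hnorm : 0 < ‖ξ₀‖ := norm_pos_iff.2 hξ0
  obtain ⟨e, he1, hξe⟩ : ∃ e : E (m + 1), ‖e‖ = 1 ∧ ξ₀ = ‖ξ₀‖ • e :=
    ⟨‖ξ₀‖⁻¹ • ξ₀, norm_smul_inv_norm (𝕜 := ℝ) hξ0,
      by rw [smul_smul, mul_inv_cancel₀ hnorm.ne', one_smul]⟩
  have hξinner : ⟪ξ₀, e⟫ = ‖ξ₀‖ := by
    conv_lhs => rw [hξe]
    rw [real_inner_smul_left, real_inner_self_eq_norm_sq, he1, one_pow, mul_one]
  have hω : 0 < omega m :=
    ENNReal.toReal_pos (measure_ball_pos volume (0 : E m) one_pos).ne' measure_ball_lt_top.ne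
  obtain ⟨t, htlo, ht1, htθ⟩ : ∃ t : ℝ, 0 < t ∧ t < 1 ∧ θ < t ^ m := by
    have h : ∀ᶠ t : ℝ in 𝓝[<] 1, θ < t ^ m :=
      ((continuous_pow m).tendsto 1 |>.mono_left nhdsWithin_le_nhds).eventually
        (lt_mem_nhds (by simpa using hθ))
    obtain ⟨t, h1, h2⟩ := (h.and (Ioo_mem_nhdsLT zero_lt_one)).exists
    exact ⟨t, h2.1, h2.2, h1⟩
  obtain ⟨χ, hrin, hrout⟩ : ∃ χ : ContDiffBump (0 : E (m + 1)), χ.rIn = t ∧ χ.rOut = 1 :=
    ⟨⟨t, 1, htlo, ht1⟩, rfl, rfl⟩
  obtain ⟨M, hM⟩ : ∃ M, ∀ x, ‖fderiv ℝ χ x‖ ≤ M :=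
    ((show ContDiff ℝ 1 χ from χ.contDiff).continuous_fderiv
      one_ne_zero).bounded_above_of_compact_support (χ.hasCompactSupport.fderiv ℝ)
  have hM0 : 0 ≤ M := (norm_nonneg _).trans (hM 0)
  obtain ⟨a, ha, hθa⟩ : ∃ a, 0 < a ∧ θ * omega m + a = t ^ m * omega m :=
    ⟨(t ^ m - θ) * omega m, mul_pos (by linarith) hω, by ring⟩
  obtain ⟨s, hs0, hs1, hsM⟩ : ∃ s, 0 < s ∧ s ≤ 1 ∧ M * (2 * s * omega m) ≤ a / 4 := by
    refine ⟨min 1 (a / (8 * (M + 1) * omega m)), lt_min one_pos (by positivity),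
      min_le_left _ _, ?_⟩
    have h1 := min_le_right 1 (a / (8 * (M + 1) * omega m))
    rw [le_div_iff₀ (by positivity)] at h1
    have h0 : 0 ≤ min 1 (a / (8 * (M + 1) * omega m)) := le_min zero_le_one (by positivity)
    linarith [mul_nonneg h0 hω.le]
  have hcs : 0 < c * s ^ (m + 1) := by positivity
  obtain ⟨δ, hδ, hδa, hδM⟩ : ∃ δ, 0 < δ ∧ δ ≤ a / 4 ∧
      M * (2 * (pairK m * δ / (c * s ^ (m + 1)))) ≤ a / 4 := by
    have hK := pairK_nonneg m
    refine ⟨min (a / 4) (a * (c * s ^ (m + 1)) / (8 * (M + 1) * (pairK m + 1))),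
      lt_min (by positivity) (by positivity), min_le_left _ _, ?_⟩
    have h2 := min_le_right (a / 4) (a * (c * s ^ (m + 1)) / (8 * (M + 1) * (pairK m + 1)))
    have h3 : 0 ≤ min (a / 4) (a * (c * s ^ (m + 1)) / (8 * (M + 1) * (pairK m + 1))) :=
      le_min (by positivity) (by positivity)
    generalize min (a / 4) (a * (c * s ^ (m + 1)) / (8 * (M + 1) * (pairK m + 1))) = δ at h2 h3 ⊢
    rw [le_div_iff₀ (by positivity)] at h2
    rw [← mul_div_assoc, ← mul_div_assoc, div_le_iff₀ hcs]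
    linarith [mul_nonneg h3 hM0, mul_nonneg h3 hK]
  filter_upwards [devi_small hlim (k := 4) four_pos hδ, devi_small hlim (k := 1) one_pos hδ,
    (tendsto_mul_pos hs0).eventually hdens, self_mem_nhdsWithin]
    with r hr4 hr1 hrs (hr : 0 < r)
  rw [one_mul] at hr1
  have h := scale_test hS hξ hder he1 hξinner χ hrout hM hr (show 0 ≤ s * r by positivity)
  rw [hrin, mul_pow] at h
  have hb := bad_le hS hξ hder he1 hξe hr hs0 hs1 hc hr4 hrs.1 hrs.2
  have hpow : 0 ≤ r ^ m := by positivity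
  have h1 : M / r * volume.real (badSet S e r (s * r)) ≤ (a / 2) * r ^ m := by
    refine (mul_le_mul_of_nonneg_left hb (div_nonneg hM0 hr.le)).trans ?_
    have e2 : M / r * ((2 * (pairK m * δ / (c * s ^ (m + 1))) + 2 * s * omega m) * r ^ (m + 1)) =
        (M * (2 * (pairK m * δ / (c * s ^ (m + 1)))) + M * (2 * s * omega m)) * r ^ m := by
      rw [pow_succ r m]
      field_simp
    rw [e2]
    exact mul_le_mul_of_nonneg_right (by linarith) hpow
  have h2 : δ * r ^ m ≤ a / 4 * r ^ m := mul_le_mul_of_nonneg_right hδa hpow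
  have h3 : θ * omega m * r ^ m + a * r ^ m = t ^ m * r ^ m * omega m := by
    rw [← add_mul, hθa]; ring
  linarith [mul_nonneg ha.le hpow]

end HalfSpace

/-- The half-space lemma. -/
theorem halfSpaceStmt : HalfSpaceStmt := by
  intro n hn g hg h01 π hπ ξ hξ hid ξ₀ hlim hdens θ hθ
  obtain ⟨m, rfl⟩ : ∃ m, n = m + 1 := ⟨n - 1, by omega⟩
  set S : Set (E (m + 1)) := g ⁻¹' {1} with hSdef
  have hS : MeasurableSet S := hg (measurableSet_singleton 1)
  have hgS : ∀ᵐ x, g x = S.indicator (fun _ => (1 : ℝ)) x := by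
    filter_upwards [h01] with x hx
    rcases hx with h | h
    · have : x ∉ S := by simp [hSdef, h]
      rw [indicator_of_notMem this, h]
    · have : x ∈ S := by simp [hSdef, h]
      rw [indicator_of_mem this, h]
  have hder : HalfSpace.HasDer S π ξ := by
    intro φ hφ hφc w
    rw [← hid φ hφ hφc w, ← integral_indicator hS]
    refine integral_congr_ae ?_
    filter_upwards [hgS] with x hx
    rw [hx]
    by_cases h : x ∈ S <;> simp [h]
  obtain ⟨c, hc, hd⟩ := hdens
  simp only [Nat.add_sub_cancel] at hlim ⊢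
  refine HalfSpace.main hS hξ hder ξ₀ hlim hc (hd.mono fun r hr => ?_) θ hθ
  have hb : MeasurableSet (closedBall (0 : E (m + 1)) r) := measurableSet_closedBall
  refine ⟨hr.1.trans (le_of_eq ?_), hr.2.trans (le_of_eq ?_)⟩
  · rw [setIntegral_congr_ae hb (hgS.mono fun x hx _ => hx), setIntegral_indicator hS,
      setIntegral_const]
    simp
  · have e : ∀ᵐ x, x ∈ closedBall (0 : E (m + 1)) r →
        1 - g x = Sᶜ.indicator (fun _ => (1 : ℝ)) x := by
      filter_upwards [hgS] with x hx _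
      by_cases h : x ∈ S <;> simp [hx, h]
    rw [setIntegral_congr_ae hb e, setIntegral_indicator hS.compl, setIntegral_const, sdiff_eq]
    simp

end

end Vale.Agent.P219.CH.Full
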