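import Vale.Agent.P219.CH.Full.Density.Field
import Vale.Agent.P219.CH.Full.Density.Log
import Vale.Agent.P219.CH.Full.HalfSpace

/-!
P219: surface density at least one. At Lebesgue points of the normal field a linear change of
variables reduces to the half-space lemma.
-/

namespace Vale.Agent.P219.CH.Full

open MeasureTheory Set Filter Topology Metric
open scoped ContDiff RealInnerProductSpace

noncomputable section

namespace Density

variable {n : ℕ}

/-- The affine coordinates at `y`. -/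
def chartAt (S : E n ≃L[ℝ] E n) (y : E n) : E n ≃ₜ E n :=
  (Homeomorph.subRight y).trans S.toHomeomorph

theorem chartAt_apply (S : E n ≃L[ℝ] E n) (y z : E n) : chartAt S y z = S (z - y) := rfl

theorem chartAt_symm (S : E n ≃L[ℝ] E n) (y z : E n) :
    (chartAt S y).symm z = S.symm z + y := rfl

theorem map_volume (S : E n ≃L[ℝ] E n) (y : E n) :
    (volume : Measure (E n)).map (chartAt S y) =
      ENNReal.ofReal |(LinearMap.det (S : E n →ₗ[ℝ] E n))⁻¹| • volume := by
  have hdet : LinearMap.det (S : E n →ₗ[ℝ] E n) ≠ 0 := (LinearEquiv.isUnit_det' S.toLinearEquiv).ne_zero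
  have h : (chartAt S y : E n → E n) = (fun u => (S : E n →ₗ[ℝ] E n) u) ∘ fun z => z - y := rfl
  have hm : Measurable fun u => (S : E n →ₗ[ℝ] E n) u := S.continuous.measurable
  rw [h, ← Measure.map_map hm (measurable_sub_const y),
    (measurePreserving_sub_right volume y).map_eq, Measure.map_linearMap_addHaar_eq_smul_addHaar
      volume hdet]

theorem integral_chart (S : E n ≃L[ℝ] E n) (y : E n) (F : E n → ℝ) :
    ∫ z, F (chartAt S y z) = |(LinearMap.det (S : E n →ₗ[ℝ] E n))⁻¹| * ∫ x, F x := by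
  rw [← (chartAt S y).measurableEmbedding.integral_map, map_volume, integral_smul_measure,
    ENNReal.toReal_ofReal (abs_nonneg _), smul_eq_mul]

theorem setIntegral_chart (S : E n ≃L[ℝ] E n) (y : E n) (F : E n → ℝ) (A : Set (E n)) :
    ∫ z in chartAt S y ⁻¹' A, F (chartAt S y z) =
      |(LinearMap.det (S : E n →ₗ[ℝ] E n))⁻¹| * ∫ x in A, F x := by
  rw [← (chartAt S y).measurableEmbedding.setIntegral_map, map_volume, Measure.restrict_smul,
    integral_smul_measure, ENNReal.toReal_ofReal (abs_nonneg _), smul_eq_mul]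

section chart

variable {G : Coeff n} (S : E n ≃L[ℝ] E n) (y : E n)

/-- The pulled back density of the vector measure. -/
def pull (G : Coeff n) (S : E n ≃L[ℝ] E n) (y : E n) (μ : Measure (E n × E n)) [IsFiniteMeasure μ]
    (x : E n) : E n :=
  dens G y • ContinuousLinearMap.adjoint (S.symm : E n →L[ℝ] E n)
    (field G μ ((chartAt S y).symm x))

theorem det_inv (hdet : |LinearMap.det (S : E n →ₗ[ℝ] E n)| = dens G y) :
    |(LinearMap.det (S : E n →ₗ[ℝ] E n))⁻¹| = (dens G y)⁻¹ := by
  rw [abs_inv, hdet]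

theorem inner_pull (μ : Measure (E n × E n)) [IsFiniteMeasure μ] (z w : E n) :
    ⟪pull G S y μ (chartAt S y z), w⟫ = dens G y * ⟪field G μ z, S.symm w⟫ := by
  rw [pull, Homeomorph.symm_apply_apply, real_inner_smul_left,
    ContinuousLinearMap.adjoint_inner_left]
  rfl

theorem norm_pull_sub (μ : Measure (E n × E n)) [IsFiniteMeasure μ] (z : E n) :
    ‖pull G S y μ (chartAt S y z) - pull G S y μ (chartAt S y y)‖ ≤
      ‖dens G y • ContinuousLinearMap.adjoint (S.symm : E n →L[ℝ] E n)‖ *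
        ‖field G μ z - field G μ y‖ := by
  simp only [pull, Homeomorph.symm_apply_apply]
  rw [← smul_sub, ← map_sub]
  exact (dens G y • ContinuousLinearMap.adjoint (S.symm : E n →L[ℝ] E n)).le_opNorm _

theorem locallyIntegrable_pull (hG : IsMetric G) {μ : Measure (E n × E n)} [IsFiniteMeasure μ]
    (hu : ∀ᵐ p ∂μ, G p.1 p.2 p.2 = 1) :
    LocallyIntegrable (pull G S y μ) (μ.fst.map (chartAt S y)) := by
  rw [locallyIntegrable_iff]
  intro K hK
  have h1 : IsCompact (chartAt S y ⁻¹' K) := (chartAt S y).isCompact_preimage.2 hK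
  rw [(chartAt S y).measurableEmbedding.integrableOn_map_iff]
  have h := ((dens G y • ContinuousLinearMap.adjoint (S.symm : E n →L[ℝ] E n))).integrable_comp
    ((locallyIntegrable_field hG hu).integrableOn_isCompact h1)
  refine h.congr (Eventually.of_forall fun z => ?_)
  simp [pull]

/-- The derivative identity in the chart. -/
theorem identity_chart (hflux : FluxStmt) (hG : IsMetric G) {f : ℕ → E n → ℝ}
    (hf : ∀ k, Cls (f k)) (P : Pre G f)
    (hdet : |LinearMap.det (S : E n →ₗ[ℝ] E n)| = dens G y) {φ : E n → ℝ} (hφ : ContDiff ℝ 1 φ)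
    (hφc : HasCompactSupport φ) (w : E n) :
    ∫ x, P.g ((chartAt S y).symm x) * fderiv ℝ φ x w =
      ∫ x, φ x * ⟪pull G S y P.μ x, w⟫ ∂(P.μ.fst.map (chartAt S y)) := by
  have hψd : ContDiff ℝ 1 (φ ∘ chartAt S y) :=
    hφ.comp (S.contDiff.comp (contDiff_id.sub contDiff_const))
  have hder : ∀ z, fderiv ℝ (φ ∘ chartAt S y) z (S.symm w) = fderiv ℝ φ (chartAt S y z) w := by
    intro z
    have h1 : HasFDerivAt (chartAt S y) (S : E n →L[ℝ] E n) z :=
      (S : E n →L[ℝ] E n).hasFDerivAt.comp z ((hasFDerivAt_id z).sub_const y)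
    rw [((hφ.differentiable one_ne_zero _).hasFDerivAt.comp z h1).fderiv]
    simp
  have h1 := identity hflux hG hf P hψd (hφc.comp_homeomorph (chartAt S y)) (S.symm w)
  simp only [hder] at h1
  have h2 := integral_chart S y fun x => P.g ((chartAt S y).symm x) * fderiv ℝ φ x w
  simp only [Homeomorph.symm_apply_apply] at h2
  rw [det_inv S y hdet, h1] at h2
  have hd := hG.dens_pos y
  calc ∫ x, P.g ((chartAt S y).symm x) * fderiv ℝ φ x w
      = dens G y * ∫ z, (φ ∘ chartAt S y) z * ⟪field G P.μ z, S.symm w⟫ ∂P.μ.fst := by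
        rw [h2, ← mul_assoc, mul_inv_cancel₀ hd.ne', one_mul]
    _ = _ := by
        rw [(chartAt S y).measurableEmbedding.integral_map, ← integral_const_mul]
        refine integral_congr_ae (Eventually.of_forall fun z => ?_)
        simp only [inner_pull, Function.comp_apply]
        ring

theorem preimage_subset_ball (r : ℝ) :
    chartAt S y ⁻¹' closedBall 0 r ⊆
      closedBall y ((‖(S.symm : E n →L[ℝ] E n)‖ + 1) * r) := fun z hz => by
  rw [mem_preimage, mem_closedBall_zero_iff, chartAt_apply] at hz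
  rw [mem_closedBall, dist_eq_norm]
  have e : z - y = (S.symm : E n →L[ℝ] E n) (S (z - y)) := (S.symm_apply_apply _).symm
  rw [e]
  exact ((S.symm : E n →L[ℝ] E n).le_opNorm _).trans
    (mul_le_mul (le_add_of_nonneg_right zero_le_one) hz (norm_nonneg _) (by positivity))

theorem ball_subset_preimage (r : ℝ) :
    closedBall y ((‖(S : E n →L[ℝ] E n)‖ + 1)⁻¹ * r) ⊆ chartAt S y ⁻¹' closedBall 0 r :=
  fun z hz => by
  rw [mem_closedBall, dist_eq_norm] at hz
  rw [mem_preimage, mem_closedBall_zero_iff, chartAt_apply]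
  calc ‖S (z - y)‖ ≤ (‖(S : E n →L[ℝ] E n)‖ + 1) * ((‖(S : E n →L[ℝ] E n)‖ + 1)⁻¹ * r) :=
        ((S : E n →L[ℝ] E n).le_opNorm _).trans
          (mul_le_mul (le_add_of_nonneg_right zero_le_one) hz (norm_nonneg _) (by positivity))
    _ = r := by rw [← mul_assoc, mul_inv_cancel₀ (by positivity), one_mul]

/-- Lower volume bounds pass to the chart. -/
theorem chart_mass (hG : IsMetric G) (hdet : |LinearMap.det (S : E n →ₗ[ℝ] E n)| = dens G y)
    {u : E n → ℝ} (hu : ∀ x, u x ∈ Icc (0 : ℝ) 1) (hum : Measurable u) (r : ℝ) :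
    dens G y * (∫ x in closedBall y ((‖(S : E n →L[ℝ] E n)‖ + 1)⁻¹ * r), u x) ≤
      ∫ x in closedBall (0 : E n) r, u ((chartAt S y).symm x) := by
  have h := setIntegral_chart S y (fun x => u ((chartAt S y).symm x)) (closedBall (0 : E n) r)
  simp only [Homeomorph.symm_apply_apply] at h
  rw [det_inv S y hdet] at h
  have hfin : volume (chartAt S y ⁻¹' closedBall (0 : E n) r) ≠ ⊤ :=
    ((chartAt S y).isCompact_preimage.2 (isCompact_closedBall _ _)).measure_lt_top.ne
  have hint : IntegrableOn u (chartAt S y ⁻¹' closedBall (0 : E n) r) :=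
    Measure.integrableOn_of_bounded (M := 1) hfin hum.aestronglyMeasurable
      (Eventually.of_forall fun x => by
        rw [Real.norm_eq_abs, abs_of_nonneg (hu x).1]; exact (hu x).2)
  have h2 := setIntegral_mono_set hint (Eventually.of_forall fun x => (hu x).1)
    (ball_subset_preimage S y r).eventuallyLE
  rw [h] at h2
  have hd := hG.dens_pos y
  calc _ ≤ dens G y * ((dens G y)⁻¹ *
        ∫ x in closedBall (0 : E n) r, u ((chartAt S y).symm x)) :=
        mul_le_mul_of_nonneg_left h2 hd.le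
    _ = _ := by rw [← mul_assoc, mul_inv_cancel₀ hd.ne', one_mul]

theorem zero_one_chart (hG : IsMetric G) (hdet : |LinearMap.det (S : E n →ₗ[ℝ] E n)| = dens G y)
    {g : E n → ℝ} (h : ∀ᵐ x, g x = 0 ∨ g x = 1) :
    ∀ᵐ x, g ((chartAt S y).symm x) = 0 ∨ g ((chartAt S y).symm x) = 1 := by
  have hd := hG.dens_pos y
  have h1 : (volume : Measure (E n)) =
      ENNReal.ofReal (dens G y) • Measure.map (chartAt S y) volume := by
    rw [map_volume, det_inv S y hdet, smul_smul, ← ENNReal.ofReal_mul hd.le,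
      mul_inv_cancel₀ hd.ne', ENNReal.ofReal_one, one_smul]
  rw [h1]
  refine Measure.smul_absolutelyContinuous.ae_le ?_
  show ∀ᵐ x ∂Measure.map (chartAt S y) volume, _
  rw [(chartAt S y).measurableEmbedding.ae_map_iff]
  simpa using h

/-- Lebesgue points with upper growth give the vanishing deviation in the chart. -/
theorem devi_chart (Γ : Geo G) (hS : ∀ u, gnorm G y u = ‖S u‖) (hG : IsMetric G) {m : ℕ} {C : ℝ}
    {μ : Measure (E n × E n)} [IsFiniteMeasure μ] (hu : ∀ᵐ p ∂μ, G p.1 p.2 p.2 = 1)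
    (hC : ∀ r, 0 < r → μ.fst.real {z | Γ.dist y z ≤ r} ≤ C * r ^ m)
    (hy : Tendsto (fun r : ℝ => ⨍ z in closedBall y r, ‖field G μ z - field G μ y‖ ∂μ.fst)
      (𝓝[>] 0) (𝓝 0)) :
    Tendsto (fun r : ℝ => (∫ x in closedBall (0 : E n) r,
      ‖pull G S y μ x - pull G S y μ (chartAt S y y)‖ ∂(μ.fst.map (chartAt S y))) / r ^ m)
        (𝓝[>] 0) (𝓝 0) := by
  obtain ⟨a, ha⟩ : ∃ a, a = ‖(S : E n →L[ℝ] E n)‖ + 1 := ⟨_, rfl⟩
  obtain ⟨b, hb⟩ : ∃ b, b = ‖(S.symm : E n →L[ℝ] E n)‖ + 1 := ⟨_, rfl⟩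
  obtain ⟨K, hK⟩ : ∃ K, K = ‖dens G y • ContinuousLinearMap.adjoint (S.symm : E n →L[ℝ] E n)‖ :=
    ⟨_, rfl⟩
  have hb0 : 0 < b := by rw [hb]; positivity
  have ha0 : 0 < a := by rw [ha]; positivity
  have hK0 : 0 ≤ K := by rw [hK]; positivity
  obtain ⟨ρ, hρ, hρball⟩ := Metric.eventually_nhds_iff.1 (dist_close Γ hS (y := y) one_pos)
  have hmaj := (hy.comp (HalfSpace.tendsto_mul_pos hb0)).const_mul (K * (C * (2 * a * b) ^ m))
  rw [mul_zero] at hmaj
  have hsmall : ∀ᶠ r in 𝓝[>] (0 : ℝ), b * r < ρ :=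
    ((HalfSpace.tendsto_mul_pos hb0).mono_right nhdsWithin_le_nhds).eventually (gt_mem_nhds hρ)
  refine squeeze_zero' (eventually_nhdsWithin_of_forall fun r (hr : 0 < r) =>
    div_nonneg (integral_nonneg fun _ => norm_nonneg _) (pow_nonneg hr.le m)) ?_ hmaj
  filter_upwards [hsmall, self_mem_nhdsWithin] with r hbr (hr : 0 < r)
  rw [div_le_iff₀ (pow_pos hr m), Function.comp_apply]
  have hbc : IsCompact (closedBall y (b * r)) := isCompact_closedBall _ _
  have hint : IntegrableOn (fun z => ‖field G μ z - field G μ y‖) (closedBall y (b * r)) μ.fst :=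
    (((locallyIntegrable_field hG hu).integrableOn_isCompact hbc).sub
      (integrableOn_const hbc.measure_lt_top.ne)).norm
  have hπ : μ.fst.real (closedBall y (b * r)) ≤ C * (2 * a * b * r) ^ m := by
    have hsub : closedBall y (b * r) ⊆ {z | Γ.dist y z ≤ 2 * a * b * r} := fun z hz => by
      rw [mem_closedBall] at hz
      refine (hρball (lt_of_le_of_lt hz hbr)).trans ?_
      rw [dist_eq_norm] at hz
      calc (1 + 1) * ‖S (z - y)‖ ≤ (1 + 1) * (a * (b * r)) := by
            refine mul_le_mul_of_nonneg_left ?_ (by norm_num)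
            refine ((S : E n →L[ℝ] E n).le_opNorm _).trans ?_
            exact mul_le_mul (by rw [ha]; linarith) hz (norm_nonneg _) ha0.le
        _ = 2 * a * b * r := by ring
    exact (measureReal_mono hsub).trans (hC _ (by positivity))
  have hmul : ∫ z in closedBall y (b * r), ‖field G μ z - field G μ y‖ ∂μ.fst =
      μ.fst.real (closedBall y (b * r)) *
        ⨍ z in closedBall y (b * r), ‖field G μ z - field G μ y‖ ∂μ.fst := by
    rw [setAverage_eq, smul_eq_mul, ← mul_assoc]
    rcases eq_or_ne (μ.fst.real (closedBall y (b * r))) 0 with h0 | h0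
    · rw [h0]
      simp [setIntegral_measure_zero _ ((measureReal_eq_zero_iff hbc.measure_lt_top.ne).1 h0)]
    · rw [mul_inv_cancel₀ h0, one_mul]
  have hsub : chartAt S y ⁻¹' closedBall 0 r ⊆ closedBall y (b * r) := by
    rw [hb]; exact preimage_subset_ball S y r
  calc ∫ x in closedBall (0 : E n) r, ‖pull G S y μ x - pull G S y μ (chartAt S y y)‖
        ∂(μ.fst.map (chartAt S y))
      = ∫ z in chartAt S y ⁻¹' closedBall 0 r,
          ‖pull G S y μ (chartAt S y z) - pull G S y μ (chartAt S y y)‖ ∂μ.fst :=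
        (chartAt S y).measurableEmbedding.setIntegral_map _ _
    _ ≤ ∫ z in chartAt S y ⁻¹' closedBall 0 r, K * ‖field G μ z - field G μ y‖ ∂μ.fst :=
        integral_mono_of_nonneg (Eventually.of_forall fun z => norm_nonneg _)
          ((hint.mono_set hsub).const_mul _)
          (Eventually.of_forall fun z => by rw [hK]; exact norm_pull_sub S y μ z)
    _ ≤ ∫ z in closedBall y (b * r), K * ‖field G μ z - field G μ y‖ ∂μ.fst :=
        setIntegral_mono_set (hint.const_mul _)
          (Eventually.of_forall fun z => mul_nonneg hK0 (norm_nonneg _)) hsub.eventuallyLE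
    _ = K * (μ.fst.real (closedBall y (b * r)) *
          ⨍ z in closedBall y (b * r), ‖field G μ z - field G μ y‖ ∂μ.fst) := by
        rw [integral_const_mul, hmul]
    _ ≤ K * (C * (2 * a * b * r) ^ m *
          ⨍ z in closedBall y (b * r), ‖field G μ z - field G μ y‖ ∂μ.fst) :=
        mul_le_mul_of_nonneg_left
          (mul_le_mul_of_nonneg_right hπ (integral_nonneg fun _ => norm_nonneg _)) hK0
    _ = _ := by rw [mul_pow]; ring

end chart

end Density

open Density in
/-- Surface density at least one. -/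
theorem densStmt (hflux : FluxStmt) : DensStmt := by
  intro n G Γ hn hG f hf P h01 hgrow hvol
  obtain ⟨C, hC⟩ := hgrow
  obtain ⟨m, rfl⟩ : ∃ m, n = m + 1 := ⟨n - 1, by omega⟩
  simp only [Nat.add_sub_cancel] at hC ⊢
  have hdistc : ∀ y : E (m + 1), Continuous fun z => Γ.dist y z := fun y =>
    (Core.Mini.continuous_dist Γ hG).comp (continuous_const.prodMk continuous_id)
  have hreal : ∀ y r, P.μ.fst.real {z | Γ.dist y z ≤ r} = P.μ.real {p | Γ.dist y p.1 ≤ r} :=
    fun y r => by
      rw [measureReal_def, measureReal_def,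
        Measure.fst_apply (measurableSet_le (hdistc y).measurable measurable_const)]
      rfl
  have hξloc : LocallyIntegrable (field G P.μ) P.μ.fst := locallyIntegrable_field hG P.unit
  have hleb := (Besicovitch.vitaliFamily P.μ.fst).ae_tendsto_average_norm_sub hξloc
  have hvol2 := Measure.ae_ae_of_ae_compProd (μ := P.μ.fst) (κ := P.μ.condKernel) (by
    rw [P.μ.disintegrate P.μ.condKernel]; exact hvol)
  have key : ∀ᵐ y ∂P.μ.fst, ∀ θ < 1, ∀ᶠ r in 𝓝[>] (0 : ℝ),
      θ * omega m * r ^ m ≤ P.μ.fst.real {z | Γ.dist y z ≤ r} := by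
    filter_upwards [hleb, hvol2, ae_unit hG P.unit] with y hy hv hunit θ hθ
    obtain ⟨N₀, hN₀⟩ := hv.exists
    obtain ⟨c, hc, hcev⟩ : ∃ c : ℝ, 0 < c ∧ ∀ᶠ r in 𝓝[>] (0 : ℝ),
        c * r ^ (m + 1) ≤ ∫ x in closedBall y r, P.g x ∧
        c * r ^ (m + 1) ≤ ∫ x in closedBall y r, (1 - P.g x) := hN₀
    have hd := hG.dens_pos y
    obtain ⟨S, hS, hdet⟩ := exists_equiv hG y
    have hlim := devi_chart S y Γ hS hG P.unit (m := m) (C := C)
      (fun r hr => (hreal y r).trans_le (hC y r hr))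
      (hy.comp (Besicovitch.tendsto_filterAt P.μ.fst y))
    obtain ⟨ξ₀, hξ₀⟩ : ∃ ξ₀, ξ₀ = pull G S y P.μ (chartAt S y y) := ⟨_, rfl⟩
    rw [← hξ₀] at hlim
    have hle : ‖ξ₀‖ ≤ 1 := by
      have h := inner_field_le hG hunit (S.symm ξ₀)
      rw [hS, S.apply_symm_apply, ← inner_pull, ← hξ₀, real_inner_self_eq_norm_sq] at h
      nlinarith [norm_nonneg ξ₀]
    have ha0 : 0 < (‖(S : E (m + 1) →L[ℝ] E (m + 1))‖ + 1)⁻¹ := by positivity
    have hdens' : ∃ c' : ℝ, 0 < c' ∧ ∀ᶠ r in 𝓝[>] (0 : ℝ),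
        c' * r ^ (m + 1) ≤
          ∫ x in closedBall (0 : E (m + 1)) r, P.g ((chartAt S y).symm x) ∧
        c' * r ^ (m + 1) ≤
          ∫ x in closedBall (0 : E (m + 1)) r, (1 - P.g ((chartAt S y).symm x)) := by
      refine ⟨dens G y * c * ((‖(S : E (m + 1) →L[ℝ] E (m + 1))‖ + 1)⁻¹) ^ (m + 1),
        by positivity, ?_⟩
      filter_upwards [(HalfSpace.tendsto_mul_pos ha0).eventually hcev] with r hr
      rw [mul_assoc (dens G y * c), ← mul_pow, mul_assoc (dens G y)]
      exact ⟨(mul_le_mul_of_nonneg_left hr.1 hd.le).trans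
          (chart_mass S y hG hdet P.g_mem P.g_meas r),
        (mul_le_mul_of_nonneg_left hr.2 hd.le).trans (chart_mass S y hG hdet
          (u := fun x => 1 - P.g x)
          (fun x => ⟨by linarith [(P.g_mem x).2], by linarith [(P.g_mem x).1]⟩)
          (measurable_const.sub P.g_meas) r)⟩
    have hπfin : IsFiniteMeasure (P.μ.fst.map (chartAt S y)) := inferInstance
    have hhalf := halfSpaceStmt (m + 1) (by omega) (fun x => P.g ((chartAt S y).symm x))
      (P.g_meas.comp (chartAt S y).symm.measurable) (zero_one_chart S y hG hdet h01)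
      (P.μ.fst.map (chartAt S y)) inferInstance (pull G S y P.μ)
      (locallyIntegrable_pull S y hG P.unit)
      (fun φ hφ hφc w => identity_chart S y hflux hG hf P hdet hφ hφc w) ξ₀
      (by simpa using hlim) hdens'
    simp only [Nat.add_sub_cancel] at hhalf
    obtain ⟨t, ht0, ht1, htθ⟩ : ∃ t : ℝ, 0 < t ∧ t < 1 ∧ θ < (1 + θ) / 2 * t ^ m := by
      have h : ∀ᶠ t : ℝ in 𝓝[<] 1, θ < (1 + θ) / 2 * t ^ m :=
        (((continuous_const.mul (continuous_pow m)).tendsto 1).mono_left
          nhdsWithin_le_nhds).eventually (lt_mem_nhds (by simp only [Pi.mul_apply, one_pow, mul_one]; linarith))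
      obtain ⟨t, h1, h2⟩ := (h.and (Ioo_mem_nhdsLT zero_lt_one)).exists
      exact ⟨t, h2.1, h2.2, h1⟩
    have hδ : 0 < 1 / t - 1 := by rw [sub_pos, lt_div_iff₀ ht0]; linarith
    obtain ⟨ρ', hρ', hball'⟩ := Metric.eventually_nhds_iff.1 (dist_close Γ hS (y := y) hδ)
    have hb0 : 0 < ‖(S.symm : E (m + 1) →L[ℝ] E (m + 1))‖ + 1 := by positivity
    have hsmall : ∀ᶠ r in 𝓝[>] (0 : ℝ),
        (‖(S.symm : E (m + 1) →L[ℝ] E (m + 1))‖ + 1) * (t * r) < ρ' :=
      (((HalfSpace.tendsto_mul_pos hb0).comp (HalfSpace.tendsto_mul_pos ht0)).mono_right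
        nhdsWithin_le_nhds).eventually (gt_mem_nhds hρ')
    filter_upwards [(HalfSpace.tendsto_mul_pos ht0).eventually (hhalf ((1 + θ) / 2) (by linarith)),
      hsmall, self_mem_nhdsWithin] with r hr hsm (hr0 : 0 < r)
    have hω : 0 ≤ omega m := HalfSpace.omega_nonneg m
    have hsub : chartAt S y ⁻¹' closedBall 0 (t * r) ⊆ {z | Γ.dist y z ≤ r} := fun z hz => by
      have hz' := preimage_subset_ball S y _ hz
      rw [mem_closedBall] at hz'
      have h := hball' (lt_of_le_of_lt hz' hsm)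
      rw [mem_preimage, mem_closedBall_zero_iff, chartAt_apply] at hz
      refine h.trans ?_
      rw [show (1 : ℝ) + (1 / t - 1) = t⁻¹ by ring]
      calc t⁻¹ * ‖S (z - y)‖ ≤ t⁻¹ * (t * r) := mul_le_mul_of_nonneg_left hz (inv_pos.2 ht0).le
        _ = r := by rw [← mul_assoc, inv_mul_cancel₀ ht0.ne', one_mul]
    calc θ * omega m * r ^ m ≤ (1 + θ) / 2 * t ^ m * (omega m * r ^ m) := by
          rw [mul_assoc]
          exact mul_le_mul_of_nonneg_right htθ.le (by positivity)
      _ = (1 + θ) / 2 * omega m * (t * r) ^ m := by rw [mul_pow]; ring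
      _ ≤ ‖ξ₀‖ * (P.μ.fst.map (chartAt S y)).real (closedBall (0 : E (m + 1)) (t * r)) := hr
      _ ≤ (P.μ.fst.map (chartAt S y)).real (closedBall (0 : E (m + 1)) (t * r)) :=
          mul_le_of_le_one_left measureReal_nonneg hle
      _ = P.μ.fst.real (chartAt S y ⁻¹' closedBall (0 : E (m + 1)) (t * r)) := by
          rw [measureReal_def, measureReal_def,
            Measure.map_apply (chartAt S y).measurable measurableSet_closedBall]
      _ ≤ _ := measureReal_mono hsub
  filter_upwards [ae_of_ae_map measurable_fst.aemeasurable key] with p hp θ hθ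
  exact (hp θ hθ).mono fun r hr => hr.trans (hreal p.1 r).le

end

end Vale.Agent.P219.CH.Full
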