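import Vale.Agent.P219.CH.Full.Limit.ZeroOne
import Vale.Agent.P219.CH.Full.Limit.Ne

/-!
P219, full inequality: the limit module.
-/
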