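import Vale.Agent.P219.CH.Full.Defs

/-!
P219, the full inequality: frozen statements of the modules.
-/

namespace Vale.Agent.P219.CH.Full

open MeasureTheory Filter Topology Set Metric
open scoped ContDiff RealInnerProductSpace

noncomputable section

/-! ### Geometry and model -/

/-- Comparison with curvature at most `-e`. -/
def CompStmt : Prop := ∀ (n : ℕ) (G : Coeff n) (e : ℝ), IsCHe G e → ∀ Γ : Geo G, Comp Γ e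

/-- The total mass of the conformal factor of stereographic projection. -/
def ConstStmt : Prop := ∀ m : ℕ, 1 ≤ m →
  ∫ x : E m, (2 / (1 + ‖x‖ ^ 2)) ^ m = sphA (m + 1)

/-- The model profile. -/
def ProfStmt : Prop := ∀ (n : ℕ) (e : ℝ), 2 ≤ n → 0 ≤ e →
  Continuous (profE n e) ∧ Monotone (profE n e) ∧ (∀ V ≤ 0, profE n e V = 0) ∧
  (∀ r, 0 ≤ r → radM n e (volM n e r) = r) ∧
  ∀ V, 0 < V → ∃ r, 0 < r ∧ volM n e r = V ∧ profE n e V = areaM n e r ∧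
    HasDerivAt (profE n e) (md n * cs e r / sn e r) V

variable {n : ℕ}

/-! ### The core: unit-bundle measures with bounded mean curvature -/

/-- Upper growth at all scales. -/
def GrowthStmt : Prop := ∀ (n : ℕ) (G : Coeff n) (e : ℝ) (Γ : Geo G) (h₀ : ℝ),
  2 ≤ n → IsCHe G e → Comp Γ e → ∀ D : Varifold G h₀,
    ∃ C : ℝ, ∀ (y : E n) (r : ℝ), 0 < r →
      D.μ.real {p | Γ.dist y p.1 ≤ r} ≤ C * r ^ (n - 1)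

/-- The monotonicity formula with the spherical kernel. -/
def KernelStmt : Prop := ∀ (n : ℕ) (G : Coeff n) (e : ℝ) (Γ : Geo G) (h₀ : ℝ),
  3 ≤ n → IsCHe G e → Comp Γ e → ∀ (D : Datum Γ h₀) (g : E n → ℝ), ContDiff ℝ 1 g →
    HasCompactSupport g → (∀ x, 0 ≤ g x) → ∀ᵐ p ∂D.μ, ∀ ρ : ℝ, 0 < ρ →
      sphA n / 2 ^ (n - 1) * g p.1 ≤
        (∫ q, kern n ρ (Γ.dist p.1 q.1) * g q.1 ∂D.μ) +
          ∫ q, rad n ρ (Γ.dist p.1 q.1) * (h₀ * g q.1 + Real.sqrt (tgsq G g q)) ∂D.μ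

/-- Schur's test for the potential and the tail of the kernel. -/
def SchurStmt : Prop := ∀ (n : ℕ) (G : Coeff n) (e : ℝ) (Γ : Geo G) (h₀ : ℝ),
  3 ≤ n → IsCHe G e → Comp Γ e → ∀ D : Varifold G h₀, ∃ C : ℝ, 0 ≤ C ∧
    (∀ (ρ : ℝ), 0 < ρ → ∀ (f g : E n × E n → ℝ) (K : Set (E n)), IsCompact K → Continuous f →
      Continuous g → (∀ p, 0 ≤ f p) → (∀ p, 0 ≤ g p) → (∀ p, p.1 ∉ K → f p = 0) →
      (∀ p, p.1 ∉ K → g p = 0) →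
      Integrable (fun p => f p * ∫ q, rad n ρ (Γ.dist p.1 q.1) * g q ∂D.μ) D.μ ∧
        ∫ p, f p * (∫ q, rad n ρ (Γ.dist p.1 q.1) * g q ∂D.μ) ∂D.μ ≤
          C * ρ * Real.sqrt (∫ p, f p ^ 2 ∂D.μ) * Real.sqrt (∫ p, g p ^ 2 ∂D.μ)) ∧
    (∀ (ρ R : ℝ), 0 < ρ → 0 < R → ∀ x : E n,
      ∫ q in {q | R < Γ.dist x q.1}, kern n ρ (Γ.dist x q.1) ∂D.μ ≤ C * (ρ / R) ^ (n - 1)) ∧
    ∀ (ρ : ℝ), 0 < ρ → ∀ x : E n, ∫ q, kern n ρ (Γ.dist x q.1) ∂D.μ ≤ C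

/-- The potential is integrable against functions supported over compact sets. -/
def RadIntStmt : Prop := ∀ (n : ℕ) (G : Coeff n) (e : ℝ) (Γ : Geo G) (h₀ : ℝ),
  3 ≤ n → IsCHe G e → Comp Γ e → ∀ (D : Varifold G h₀) (x : E n) (ρ : ℝ), 0 < ρ →
    ∀ (g : E n × E n → ℝ) (K : Set (E n)), IsCompact K → Continuous g →
      (∀ p, p.1 ∉ K → g p = 0) →
      Integrable (fun q => rad n ρ (Γ.dist x q.1) * g q) D.μ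

/-- The non-sharp Sobolev inequality. -/
def CrudeStmt : Prop := ∀ (n : ℕ) (G : Coeff n) (e : ℝ) (Γ : Geo G) (h₀ : ℝ),
  4 ≤ n → IsCHe G e → Comp Γ e → ∀ D : Datum Γ h₀, 0 < lam n e h₀ →
    ∃ c : ℝ, 0 < c ∧ ∀ u, Adm D.μ u → c ≤ energy D.μ G e h₀ u

/-- Pointwise facts about the comparison map. -/
def SphereStmt : Prop := ∀ (n : ℕ) (G : Coeff n) (e : ℝ) (Γ : Geo G),
  2 ≤ n → IsCHe G e → Comp Γ e → ∀ (z : E n) (a : ℝ), 0 < a → e * a < 1 →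
    (∀ p, ContDiff ℝ 1 (sph Γ e z a p)) ∧ ContDiff ℝ 1 (wgt Γ e z a) ∧
    (∀ y, 0 < wgt Γ e z a y ∧ wgt Γ e z a y ≤ kk e a / a) ∧
    (∀ y, SphUnit G z (omg Γ e z a y)) ∧
    (∀ p, SphUnit G z p → ∀ y, |sph Γ e z a p y| ≤ 1) ∧
    (∀ p, SphUnit G z p → ∀ q : E n × E n, G q.1 q.2 q.2 = 1 →
      tgsq G (sph Γ e z a p) q ≤ wgt Γ e z a q.1 ^ 2 * (1 - sph Γ e z a p q.1 ^ 2)) ∧
    (∀ p₀, SphUnit G z p₀ → ∃ P : Fin (n + 1) → E n × ℝ, P 0 = p₀ ∧ (∀ i, SphUnit G z (P i)) ∧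
      (∀ y, ∑ i, sph Γ e z a (P i) y ^ 2 = 1) ∧
      ∀ q : E n × E n, G q.1 q.2 q.2 = 1 →
        ∑ i, tgsq G (sph Γ e z a (P i)) q ≤ md n * wgt Γ e z a q.1 ^ 2) ∧
    (∀ q : E n × E n, G q.1 q.2 q.2 = 1 →
      tgsq G (wgt Γ e z a) q ≤ 4 / a * wgt Γ e z a q.1 ^ 2) ∧
    (∀ x y, wgt Γ e z a x * Real.exp (-(2 * Γ.dist x y / Real.sqrt a)) ≤ wgt Γ e z a y) ∧
    ∀ x y, 2 - 2 * sph Γ e z a (omg Γ e z a x) y ≤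
      (wgt Γ e z a x * Real.exp (2 * Γ.dist x y / Real.sqrt a) * Γ.dist x y) ^ 2

/-- Centring. -/
def CenterStmt : Prop := ∀ (n : ℕ) (G : Coeff n) (e : ℝ) (Γ : Geo G) (h₀ : ℝ),
  4 ≤ n → IsCHe G e → Comp Γ e → ∀ (D : Varifold G h₀) (u : E n → ℝ), Adm D.μ u →
    ∃ z a, Balanced Γ e D.μ u z a

/-- The inequality of Barta with its slacks. -/
def BartaStmt : Prop := ∀ (n : ℕ) (G : Coeff n) (e : ℝ) (Γ : Geo G) (h₀ : ℝ),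
  4 ≤ n → IsCHe G e → Comp Γ e → ∀ (D : Varifold G h₀) (u : E n → ℝ), ContDiff ℝ 1 u →
    HasCompactSupport u → ∀ (z : E n) (a : ℝ), 0 < a → e * a < 1 →
    cc n * gap Γ e D.μ z a u + md n * (md n - 1) * ∫ p, wgt Γ e z a p.1 ^ 2 * u p.1 ^ 2 ∂D.μ +
      (md n - 1) / md n * ∫ p, u p.1 ^ 2 * ((h₀ ^ 2 - D.h p.1 ^ 2) +
        (D.h p.1 * psi Γ e z a p.1 - md n * fderiv ℝ (phi Γ e z) p.1 p.2) ^ 2 /
          psi Γ e z a p.1 ^ 2) ∂D.μ ≤ energy D.μ G e h₀ u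

/-- The Euler equation and the second variation at almost minimisers. -/
def AlmostStmt : Prop := ∀ (n : ℕ) (G : Coeff n) (e : ℝ) (Γ : Geo G) (h₀ : ℝ),
  4 ≤ n → IsCHe G e → Comp Γ e → ∀ D : Varifold G h₀, 0 < lam n e h₀ →
  ∀ τ B : ℝ, 0 < τ → 0 < B → ∃ η : ℝ, 0 < η ∧ ∀ u z a, Adm D.μ u →
    energy D.μ G e h₀ u ≤ Yinf D.μ G e h₀ + η → Balanced Γ e D.μ u z a →
    gap Γ e D.μ z a u ≤ τ ∧
    |Yinf D.μ G e h₀ - md n * (md n - 1) * ∫ p, wgt Γ e z a p.1 ^ 2 * u p.1 ^ 2 ∂D.μ| ≤ τ ∧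
    ∀ ζ : E n → ℝ, ContDiff ℝ 1 ζ → (∀ x, |ζ x| ≤ 1) →
      ∫ p, u p.1 ^ 2 * tgsq G ζ p ∂D.μ ≤ B →
      |Yinf D.μ G e h₀ * (∫ p, ζ p.1 * u p.1 ^ qe n ∂D.μ) -
          md n * (md n - 1) * ∫ p, wgt Γ e z a p.1 ^ 2 * u p.1 ^ 2 * ζ p.1 ∂D.μ| ≤ τ ∧
      ∀ p₀, SphUnit G z p₀ →
        |(md n - 1) * (∫ p, u p.1 ^ 2 * tgp G (sph Γ e z a p₀) ζ p ∂D.μ) -
            Yinf D.μ G e h₀ * ∫ p, sph Γ e z a p₀ p.1 * ζ p.1 * u p.1 ^ qe n ∂D.μ| ≤ τ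

/-- Monotonicity on the sphere. -/
def PoissonStmt : Prop := ∀ (n : ℕ) (G : Coeff n) (e : ℝ) (Γ : Geo G) (h₀ : ℝ),
  4 ≤ n → IsCHe G e → Comp Γ e → ∀ D : Varifold G h₀, 0 < lam n e h₀ →
  0 < Yinf D.μ G e h₀ → ∀ τ l : ℝ, 0 < τ → 0 ≤ l → l < 1 → ∃ η : ℝ, 0 < η ∧
    ∀ u z a, Adm D.μ u → energy D.μ G e h₀ u ≤ Yinf D.μ G e h₀ + η → Balanced Γ e D.μ u z a →
    ∀ p₀, SphUnit G z p₀ →
      ∫ p, ((1 - l ^ 2) / (1 + l ^ 2 - 2 * l * sph Γ e z a p₀ p.1)) ^ (n - 1) *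
        u p.1 ^ qe n ∂D.μ ≤ 1 + τ

/-- The sharp Sobolev inequality. -/
def CoreStmt : Prop := ∀ (n : ℕ) (G : Coeff n) (e : ℝ) (Γ : Geo G) (h₀ : ℝ),
  4 ≤ n → IsCHe G e → Comp Γ e → ∀ D : Datum Γ h₀, 0 < lam n e h₀ →
    YS n ≤ Yinf D.μ G e h₀

/-- The area bound. -/
def AreaStmt : Prop := ∀ (n : ℕ) (G : Coeff n) (e : ℝ) (Γ : Geo G) (h₀ : ℝ),
  4 ≤ n → IsCHe G e → Comp Γ e → ∀ D : Datum Γ h₀, 0 < lam n e h₀ →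
    YS n ≤ lam n e h₀ * D.μ.real univ ^ (2 / md n)

/-- Equality in the area bound. -/
def RigidCoreStmt : Prop := ∀ (n : ℕ) (G : Coeff n) (e : ℝ) (Γ : Geo G) (h₀ : ℝ),
  4 ≤ n → IsCHe G e → Comp Γ e → ∀ D : Datum Γ h₀, 0 < lam n e h₀ →
    ∀ K : Set (E n), IsCompact K → (∀ᵐ p ∂D.μ, p.1 ∈ K) →
    lam n e h₀ * D.μ.real univ ^ (2 / md n) ≤ YS n →
    ∃ z a, 0 < a ∧ e * a < 1 ∧
      ∫ p, wgt Γ e z a p.1 ∂D.μ = D.μ.real univ * ((1 - e * a) / kk e a) ∧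
      ∀ᵐ p ∂D.μ, |D.h p.1| = h₀ ∧ tgsq G (phi Γ e z) p = 0 ∧
        D.h p.1 * psi Γ e z a p.1 = md n * fderiv ℝ (phi Γ e z) p.1 p.2

/-! ### From almost minimisers to the datum -/

/-- Weak limits exist. -/
def PreStmt : Prop := ∀ (n : ℕ) (G : Coeff n), IsMetric G → ∀ f : ℕ → E n → ℝ,
  (∀ k, Cls (f k)) → (∃ B, ∀ k, tvar G (f k) ≤ B) → Nonempty (Pre G f)

/-- The normal measure is the derivative of the limit. -/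
def FluxStmt : Prop := ∀ (n : ℕ) (G : Coeff n), IsMetric G → ∀ f : ℕ → E n → ℝ,
  (∀ k, Cls (f k)) → ∀ P : Pre G f, ∀ Z : E n → E n, ContDiff ℝ 1 Z → HasCompactSupport Z →
    ∫ x, P.g x * divg G Z x ∂vol G = ∫ p, G p.1 (Z p.1) p.2 ∂P.μ

/-- Almost minimisers of a negative deficit. -/
def ExistsStmt : Prop := ∀ (n : ℕ) (G : Coeff n) (e : ℝ), 2 ≤ n → 0 ≤ e → IsMetric G →
  ∀ η : E n → ℝ, Cls η → ∀ δ : ℝ, 0 < δ →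
    (¬∃ L : ℝ, 0 ≤ L ∧ ∀ f : E n → ℝ, Cls f →
      profE n e (wmass G η f) ≤ tvar G f + L * midv G f + δ) →
    ∃ f : ℕ → E n → ℝ, Nonempty (Almost G e η f) ∧
      ∀ k, tvar G (f k) ≤ profE n e (wmass G η (f k)) - δ

/-- The first variation of the limit. -/
def FirstStmt : Prop := ∀ (n : ℕ) (G : Coeff n) (e : ℝ), 2 ≤ n → 0 ≤ e → IsMetric G →
  ∀ η : E n → ℝ, Cls η → ∀ f : ℕ → E n → ℝ, Almost G e η f → ∀ P : Pre G f, ∀ h₁ : ℝ,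
    0 < wmass G η P.g → HasDerivAt (profE n e) h₁ (wmass G η P.g) →
    ∀ X : E n → E n, ContDiff ℝ 1 X → HasCompactSupport X →
      ∫ p, divT G X p ∂P.μ = ∫ p, h₁ * η p.1 * G p.1 (X p.1) p.2 ∂P.μ

/-- The limit takes the values zero and one. -/
def ZeroOneStmt : Prop := ∀ (n : ℕ) (G : Coeff n), 2 ≤ n → IsMetric G →
  ∀ f : ℕ → E n → ℝ, (∀ k, Cls (f k)) →
  Tendsto (fun k => midv G (f k)) atTop (𝓝 0) → ∀ P : Pre G f,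
    ∀ᵐ x : E n, P.g x = 0 ∨ P.g x = 1

/-- The limit measure is not zero. -/
def NeStmt : Prop := ∀ (n : ℕ) (G : Coeff n) (e : ℝ) (Γ : Geo G),
  3 ≤ n → IsCHe G e → Comp Γ e → ∀ f : ℕ → E n → ℝ, (∀ k, Cls (f k)) → ∀ P : Pre G f,
    ∀ η : E n → ℝ, Cls η → 0 < wmass G η P.g → P.μ ≠ 0

/-- Both sides of the limit have volume density. -/
def VolDensStmt : Prop := ∀ (n : ℕ) (G : Coeff n) (e : ℝ), 2 ≤ n → 0 ≤ e → IsMetric G →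
  ∀ η : E n → ℝ, Cls η → ∀ f : ℕ → E n → ℝ, Almost G e η f → ∀ P : Pre G f, ∀ h₁ : ℝ,
    0 < wmass G η P.g → HasDerivAt (profE n e) h₁ (wmass G η P.g) →
    ∀ᵐ p ∂P.μ, ∃ c : ℝ, 0 < c ∧ ∀ᶠ r in 𝓝[>] (0 : ℝ),
      c * r ^ n ≤ ∫ x in closedBall p.1 r, P.g x ∧
      c * r ^ n ≤ ∫ x in closedBall p.1 r, (1 - P.g x)

/-- The half-space lemma in Euclidean space. -/
def HalfSpaceStmt : Prop := ∀ (n : ℕ), 2 ≤ n → ∀ (g : E n → ℝ), Measurable g →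
  (∀ᵐ x, g x = 0 ∨ g x = 1) → ∀ (π : Measure (E n)), IsLocallyFiniteMeasure π →
  ∀ (ξ : E n → E n), LocallyIntegrable ξ π →
  (∀ φ : E n → ℝ, ContDiff ℝ 1 φ → HasCompactSupport φ → ∀ w : E n,
    ∫ x, g x * fderiv ℝ φ x w = ∫ x, φ x * ⟪ξ x, w⟫ ∂π) →
  ∀ ξ₀ : E n,
  Tendsto (fun r : ℝ => (∫ x in closedBall (0 : E n) r, ‖ξ x - ξ₀‖ ∂π) / r ^ (n - 1))
    (𝓝[>] 0) (𝓝 0) →
  (∃ c : ℝ, 0 < c ∧ ∀ᶠ r in 𝓝[>] (0 : ℝ),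
    c * r ^ n ≤ ∫ x in closedBall (0 : E n) r, g x ∧
    c * r ^ n ≤ ∫ x in closedBall (0 : E n) r, (1 - g x)) →
  ∀ θ < 1, ∀ᶠ r in 𝓝[>] (0 : ℝ),
    θ * omega (n - 1) * r ^ (n - 1) ≤ ‖ξ₀‖ * π.real (closedBall (0 : E n) r)

/-- Surface density at least one. -/
def DensStmt : Prop := ∀ (n : ℕ) (G : Coeff n) (Γ : Geo G), 2 ≤ n → IsMetric G →
  ∀ f : ℕ → E n → ℝ, (∀ k, Cls (f k)) → ∀ P : Pre G f,
  (∀ᵐ x : E n, P.g x = 0 ∨ P.g x = 1) →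
  (∃ C : ℝ, ∀ (y : E n) (r : ℝ), 0 < r →
    P.μ.real {p | Γ.dist y p.1 ≤ r} ≤ C * r ^ (n - 1)) →
  (∀ᵐ p ∂P.μ, ∃ c : ℝ, 0 < c ∧ ∀ᶠ r in 𝓝[>] (0 : ℝ),
    c * r ^ n ≤ ∫ x in closedBall p.1 r, P.g x ∧
    c * r ^ n ≤ ∫ x in closedBall p.1 r, (1 - P.g x)) →
  ∀ᵐ p ∂P.μ, ∀ θ < 1, ∀ᶠ r in 𝓝[>] (0 : ℝ),
    θ * omega (n - 1) * r ^ (n - 1) ≤ P.μ.real {p' | Γ.dist p.1 p'.1 ≤ r}

/-! ### Conclusions -/

/-- The smooth inequality. -/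
def GlobalStmt : Prop := ∀ (n : ℕ) (G : Coeff n) (e : ℝ),
  4 ≤ n → IsCHe G e → GlobalIneq G e

/-- From the smooth inequality to Minkowski content. -/
def MinkStmt : Prop := ∀ (n : ℕ) (G : Coeff n) (e : ℝ), 2 ≤ n → IsCHe G e → GlobalIneq G e →
  ∀ S : Set (E n), MeasurableSet S → Bornology.IsBounded S → 0 < vol G S →
    ∀ c < profE n e (vol G S).toReal, ∀ᶠ ε in 𝓝[>] (0 : ℝ),
      ENNReal.ofReal ((vol G S).toReal + ε * c) ≤ vol G (nbhd G S ε)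

/-- Equality is attained only by balls of the space form. -/
def RigidStmt : Prop := ∀ (n : ℕ) (G : Coeff n) (e : ℝ), 4 ≤ n → IsCHe G e →
  ∀ S : Set (E n), MeasurableSet S → Bornology.IsBounded S → 0 < vol G S →
    (∀ c, profE n e (vol G S).toReal < c → ∃ᶠ ε in 𝓝[>] (0 : ℝ),
      vol G (nbhd G S ε) ≤ ENNReal.ofReal ((vol G S).toReal + ε * c)) →
    ∃ (Φ : E n → E n) (R : ℝ), 0 < R ∧ ContDiff ℝ 1 Φ ∧ InjOn Φ (ball 0 R) ∧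
      volM n e R = (vol G S).toReal ∧ S =ᵐ[vol G] Φ '' ball 0 R ∧
      (∀ v ∈ ball (0 : E n) R, ∀ a,
        G (Φ v) (fderiv ℝ Φ v a) (fderiv ℝ Φ v a) = modelSq e v a) ∧
      (IsOpen S → interior (closure S) = S → S = Φ '' ball 0 R)

end

end Vale.Agent.P219.CH.Full
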