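import Vale.Agent.P219.CH.Full.Minimiser.Exists
import Vale.Agent.P219.CH.Full.Minimiser.First
import Vale.Agent.P219.CH.Full.Minimiser.VolDens

/-!
P219, the minimiser module.

* `Minimiser.existsStmt : ProfStmt → ExistsStmt`.
* `Minimiser.firstStmt : ProfStmt → FluxStmt → FirstStmt`.
* `Minimiser.volDensStmt : VolDensStmt`.
-/
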