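import Vale.Agent.P219.CH.Full.Statements
import Vale.Agent.P219.CH.Full.Model.SphereInt
import Vale.Agent.P219.CH.Full.Model.Profile

/-!
P219, the full inequality: the model constants and profile (`ConstStmt`, `ProfStmt`).
-/

namespace Vale.Agent.P219.CH.Full

noncomputable section

theorem constStmt : ConstStmt := fun _ hm => integral_stereographic_sphA hm

theorem profStmt : ProfStmt := by
  intro n e hn he
  refine ⟨continuous_profE hn he, profE_mono hn he, fun V hV => profE_of_nonpos hn hV,
    fun r hr => radM_volM hn he hr, fun V hV => ⟨radM n e V, radM_pos hn he hV,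
      volM_radM hn he hV.le, rfl, ?_⟩⟩
  refine ((hasStrictDerivAt_profE hn he hV).hasDerivAt).congr_deriv ?_
  rw [meanH, md, mul_div_assoc]

end

end Vale.Agent.P219.CH.Full
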