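import Vale.Agent.P219.CH.Full.Rigid.Seq
import Vale.Agent.P219.CH.Full.Rigid.Level
import Vale.Agent.P219.CH.Full.Rigid.Equal

/-!
P219, the full inequality: equality is attained only by balls of the space form.
-/

namespace Vale.Agent.P219.CH.Full

open MeasureTheory Filter Topology Set Metric
open scoped ContDiff RealInnerProductSpace

noncomputable section

/-- Equality is attained only by balls of the space form. -/
theorem rigidStmt (hcomp : CompStmt) (hprof : ProfStmt) (hglob : GlobalStmt) (hpre : PreStmt)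
    (hflux : FluxStmt) (hfirst : FirstStmt) (hgrow : GrowthStmt) (hvd : VolDensStmt)
    (hdens : DensStmt) (hne : NeStmt) (hcore : RigidCoreStmt) : RigidStmt := by
  intro n G e hn hCH S hSm hSb hS hC
  have hG := hCH.metric
  have he := hCH.nonneg
  obtain ⟨Γ⟩ := geoStmt n G (Rigid.isCH_of_isCHe hCH)
  have C := hcomp n G e hCH Γ
  obtain ⟨r₀, μ, z, a, hfin, hr₀, hvolr, ha, hea, hμ, hbal, hae, hfl⟩ :=
    Rigid.exists_equality (fun Γ' => hcomp n G e hCH Γ') hprof hglob hpre hflux hfirst hgrow hvd
      hdens hne hcore hn hCH hSm hSb hS hC Γ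
  obtain ⟨L, hL⟩ := Rigid.exists_frame hG z
  set k := cs e r₀ / sn e r₀ with hk_def
  have hsn := Rigid.sn_pos he hr₀
  have hk : 0 < k := div_pos (Real.cosh_pos _) hsn
  have hks : k ^ 2 * sn e r₀ ^ 2 = 1 + e * sn e r₀ ^ 2 := by
    rw [hk_def, div_pow, div_mul_cancel₀ _ (pow_ne_zero _ hsn.ne')]
    linarith [Rigid.cs_sq he hr₀.le]
  have hke : e < k ^ 2 :=
    lt_of_mul_lt_mul_right (by linarith : e * sn e r₀ ^ 2 < k ^ 2 * sn e r₀ ^ 2) (sq_nonneg _)
  obtain ⟨r, hr, hphi, hSeq, hquad⟩ :=
    Rigid.exists_level hL hG hSm hSb hfl (by omega) he C hS hμ hk hke ha hae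
  set b := phiR e (r ^ 2) with hb_def
  have hb : 0 < b := by
    have h := Rigid.half_le_phiR he (sq_nonneg r)
    linarith [pow_pos hr 2]
  -- the balance fixes the radius
  have hM : 0 < μ.real univ :=
    ENNReal.toReal_pos (Measure.measure_univ_ne_zero.2 hμ) (measure_ne_top _ _)
  have hbal' : kk e a / (b + a) = (1 - e * a) / kk e a := by
    rw [integral_congr_ae (g := fun _ => kk e a / (b + a)) (by
      filter_upwards [hphi] with p hp
      simp [wgt, psi, hp]), integral_const, smul_eq_mul] at hbal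
    exact mul_left_cancel₀ hM.ne' hbal
  have hrad := Rigid.radius_eq he ha hea hb hks hquad hbal'
  have hrr : r = r₀ := by
    have h0 := Rigid.phiR_sn he hr₀.le
    have h1 : 0 ≤ phiR e (r₀ ^ 2) := Rigid.phiR_nonneg he (sq_nonneg r₀)
    have heq : b = phiR e (r₀ ^ 2) := by
      have h2 : (b - phiR e (r₀ ^ 2)) * (2 + e * (b + phiR e (r₀ ^ 2))) = 0 := by
        linear_combination hrad - h0
      rcases mul_eq_zero.1 h2 with h | h
      · linarith
      · exfalso; linarith [mul_nonneg he (add_nonneg hb.le h1)]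
    exact (sq_eq_sq₀ hr.le hr₀.le).1
      ((Rigid.strictMonoOn_phiR he).injOn (sq_nonneg r) (sq_nonneg r₀) heq)
  subst hrr
  -- normal coordinates
  refine ⟨Rigid.expL Γ z L, r, hr, Rigid.contDiff_expL Γ z L,
    (Rigid.injective_expL Γ z L).injOn, hvolr, hSeq, fun v hv w => ?_, fun hSo hreg => ?_⟩
  · refine Rigid.pullback_eq hL (by omega) hG he C hr.le ?_ v hv w
    rw [← measure_congr hSeq, hvolr]
  · set U := Rigid.expL Γ z L '' ball 0 r with hU_def
    have hUo : IsOpen U := (Rigid.expH Γ z L).isOpenMap _ isOpen_ball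
    have hcl : ∀ A B : Set (E n), IsOpen A → A =ᵐ[vol G] B → A ⊆ closure B := by
      intro A B hA hAB x hx
      by_contra hxB
      have hsub : A \ closure B ⊆ A \ B := sdiff_subset_sdiff_right subset_closure
      have h0 : vol G (A \ closure B) = 0 := measure_mono_null hsub (ae_eq_set.1 hAB).1
      exact ((hA.sdiff isClosed_closure).measure_pos volume ⟨x, hx, hxB⟩).ne'
        ((Rigid.vol_eq_zero_iff hG).1 h0)
    have hclos : closure S = closure U :=
      subset_antisymm (closure_minimal (hcl S U hSo hSeq) isClosed_closure)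
        (closure_minimal (hcl U S hUo hSeq.symm) isClosed_closure)
    rw [← hreg, hclos, hU_def, ← Rigid.expH_coe, ← Homeomorph.image_closure,
      ← Homeomorph.image_interior, closure_ball (0 : E n) hr.ne', interior_closedBall _ hr.ne']

end

end Vale.Agent.P219.CH.Full
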