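import Vale.Agent.P219.CH.Full.Statements
import Vale.Agent.P219.CH.Full.Tools
import Vale.Agent.P219.CH.Full.Area
import Vale.Agent.P219.CH.Full.Minimiser.Basic
import Vale.Agent.P219.CH.Full.Model.Series
import Vale.Agent.P219.CH.Core.Field.Point
import Vale.Agent.P219.CH.Core.MinTools

/-!
P219: the area bound of Li and Yau for surfaces in three-dimensional spaces with `Sec ≤ -e`.

With `X = χ gradPhi / ψ` in the first variation, `χ → 1` gives
`∫ w² + (h₀² - h²)/4 + (h ψ - 2σ)²/(4ψ²) ≤ (h₀²/4 - e) A`, and for `a → 0` at a point of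
density one the first term alone tends to at least `4π`.
-/

namespace Vale.Agent.P219.CH.Full

open MeasureTheory Filter Topology Set
open scoped ContDiff RealInnerProductSpace

noncomputable section

namespace Three

/-- The layer cake bound for the conformal weight. -/
theorem layer_le {α : Type*} [MeasurableSpace α] {μ : Measure α} [IsFiniteMeasure μ] {f : α → ℝ}
    (hf : Measurable f) (hf0 : ∀ x, 0 ≤ f x) {κ s₀ : ℝ} (hκ : 0 ≤ κ) (hs₀ : 0 < s₀)
    (h : ∀ s, 0 < s → s ≤ s₀ → κ * s ≤ μ.real {x | f x ≤ s}) {a k : ℝ} (ha : 0 < a) (hk : 0 < k) :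
    κ * (k ^ 2 / a) * (s₀ / (a + s₀)) ^ 2 ≤ ∫ x, k ^ 2 / (f x + a) ^ 2 ∂μ := by
  set g : α → ℝ := fun x => k ^ 2 / (f x + a) ^ 2 with hg
  have hgm : Measurable g := measurable_const.div ((hf.add_const a).pow_const 2)
  have hg0 : ∀ x, 0 ≤ g x := fun x => by positivity
  have hgi : Integrable g μ := by
    refine Integrable.of_bound hgm.aestronglyMeasurable (k ^ 2 / a ^ 2) (ae_of_all _ fun x => ?_)
    rw [Real.norm_of_nonneg (hg0 x)]
    refine div_le_div_of_nonneg_left (sq_nonneg k) (by positivity) (pow_le_pow_left₀ ha.le ?_ 2)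
    linarith [hf0 x]
  set u₁ := k / (a + s₀) with hu₁
  set u₂ := k / a with hu₂
  have hu10 : 0 < u₁ := by positivity
  have hu20 : 0 < u₂ := by positivity
  have hu : u₁ ≤ u₂ := div_le_div_of_nonneg_left hk.le ha (by linarith)
  have hsq : ∀ t ∈ Icc (u₁ ^ 2) (u₂ ^ 2), 0 < t ∧ u₁ ≤ Real.sqrt t ∧ Real.sqrt t ≤ u₂ :=
    fun t ht => ⟨(pow_pos hu10 2).trans_le ht.1,
      by rw [← Real.sqrt_sq hu10.le]; exact Real.sqrt_le_sqrt ht.1,
      by rw [← Real.sqrt_sq hu20.le]; exact Real.sqrt_le_sqrt ht.2⟩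
  have hs : ∀ t ∈ Icc (u₁ ^ 2) (u₂ ^ 2), 0 ≤ k / Real.sqrt t - a ∧ k / Real.sqrt t - a ≤ s₀ := by
    intro t ht
    obtain ⟨ht0, h1, h2⟩ := hsq t ht
    have hst := Real.sqrt_pos.2 ht0
    rw [hu₂, le_div_iff₀ ha] at h2
    rw [hu₁, div_le_iff₀ (by positivity)] at h1
    rw [sub_nonneg, sub_le_iff_le_add, le_div_iff₀ hst, div_le_iff₀ hst]
    constructor <;> linarith
  have hm : ∀ t ∈ Icc (u₁ ^ 2) (u₂ ^ 2),
      ENNReal.ofReal (κ * (k / Real.sqrt t - a)) ≤ μ {x | t ≤ g x} := by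
    intro t ht
    obtain ⟨hs1, hs2⟩ := hs t ht
    obtain ⟨ht0, -, -⟩ := hsq t ht
    rcases hs1.eq_or_lt with h0 | hpos
    · simp [← h0]
    refine le_trans (ENNReal.ofReal_le_ofReal (h _ hpos hs2)) ?_
    rw [ofReal_measureReal]
    refine measure_mono fun x (hx : f x ≤ k / Real.sqrt t - a) => ?_
    have h0 : 0 < f x + a := by linarith [hf0 x]
    have h1 : (f x + a) * Real.sqrt t ≤ k := (le_div_iff₀ (Real.sqrt_pos.2 ht0)).1 (by linarith)
    have h2 := pow_le_pow_left₀ (by positivity) h1 2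
    rw [mul_pow, Real.sq_sqrt ht0.le] at h2
    show t ≤ k ^ 2 / (f x + a) ^ 2
    exact (le_div_iff₀ (pow_pos h0 2)).2 (by linarith)
  have hc : ContinuousOn (fun t => κ * (k / Real.sqrt t - a)) (Icc (u₁ ^ 2) (u₂ ^ 2)) :=
    continuousOn_const.mul ((continuousOn_const.div Real.continuous_sqrt.continuousOn
      fun t ht => (Real.sqrt_pos.2 (hsq t ht).1).ne').sub continuousOn_const)
  have hci := hc.integrableOn_Icc (μ := (volume : Measure ℝ))
  have hsub : u₁ ^ 2 ≤ u₂ ^ 2 := pow_le_pow_left₀ hu10.le hu 2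
  have hlow : ENNReal.ofReal (∫ t in Icc (u₁ ^ 2) (u₂ ^ 2), κ * (k / Real.sqrt t - a)) ≤
      ENNReal.ofReal (∫ x, g x ∂μ) := by
    rw [ofReal_integral_eq_lintegral_ofReal hci
        ((ae_restrict_iff' measurableSet_Icc).2 (ae_of_all _ fun t ht =>
          mul_nonneg hκ (hs t ht).1)),
      ofReal_integral_eq_lintegral_ofReal hgi (ae_of_all _ hg0),
      lintegral_eq_lintegral_meas_le μ (ae_of_all _ hg0) hgm.aemeasurable]
    calc _ ≤ ∫⁻ t in Icc (u₁ ^ 2) (u₂ ^ 2), μ {x | t ≤ g x} :=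
          setLIntegral_mono' measurableSet_Icc hm
      _ ≤ _ := lintegral_mono_set fun t ht => (hsq t ht).1
  have hval : ∫ t in Icc (u₁ ^ 2) (u₂ ^ 2), κ * (k / Real.sqrt t - a) =
      κ * (k ^ 2 / a) * (s₀ / (a + s₀)) ^ 2 := by
    rw [integral_Icc_eq_integral_Ioc, ← intervalIntegral.integral_of_le hsub,
      intervalIntegral.integral_eq_sub_of_hasDerivAt
        (f := fun t => κ * (2 * k * Real.sqrt t - a * t))]
    · rw [Real.sqrt_sq hu10.le, Real.sqrt_sq hu20.le, hu₁, hu₂]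
      field_simp
      ring
    · intro t ht
      rw [uIcc_of_le hsub] at ht
      have ht0 := (hsq t ht).1
      refine ((((Real.hasDerivAt_sqrt ht0.ne').const_mul (2 * k)).sub
        ((hasDerivAt_id t).const_mul a)).const_mul κ).congr_deriv ?_
      field_simp
    · exact hc.intervalIntegrable_of_Icc hsub
  rwa [hval, ENNReal.ofReal_le_ofReal_iff (integral_nonneg hg0)] at hlow

theorem four_omega_two : 4 * omega 2 = sphA 3 := by
  have h2 : omega 2 = Real.pi := by
    simp [omega, ENNReal.toReal_ofReal Real.pi_pos.le]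
  have h3 : omega 3 = Real.pi * 4 / 3 := by
    simp [omega]
    positivity
  rw [sphA, h2, h3]
  push_cast
  ring

variable {G : Coeff 3} {e h₀ : ℝ} {Γ : Geo G}

theorem md_three : md 3 = 2 := by norm_num [md]

/-- `(h₀² - 4 e) / 4`. -/
theorem lam_three : lam 3 e h₀ / 2 = h₀ ^ 2 / 4 - e := by
  rw [lam, md_three]
  ring

/-- The integrand of the bound. -/
def slack (Γ : Geo G) (e : ℝ) (D : Varifold G h₀) (z : E 3) (a : ℝ) (p : E 3 × E 3) : ℝ :=
  wgt Γ e z a p.1 ^ 2 + (h₀ ^ 2 - D.h p.1 ^ 2) / 4 +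
    (D.h p.1 * psi Γ e z a p.1 - 2 * fderiv ℝ (phi Γ e z) p.1 p.2) ^ 2 /
      (4 * psi Γ e z a p.1 ^ 2)

variable (hG : IsCHe G e) (hC : Comp Γ e)
include hG hC

/-- The tangential gradient of `φ`. -/
theorem sigma_sq_le (z : E 3) {p : E 3 × E 3} (hp : G p.1 p.2 p.2 = 1) :
    fderiv ℝ (phi Γ e z) p.1 p.2 ^ 2 ≤ 2 * phi Γ e z p.1 + e * phi Γ e z p.1 ^ 2 := by
  have h := hG.metric.cauchy p.1 (gradPhi Γ e z p.1) p.2
  rw [show gnorm G p.1 p.2 = 1 by rw [gnorm, hp, Real.sqrt_one], mul_one] at h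
  have h2 := pow_le_pow_left₀ (abs_nonneg _) h 2
  rwa [sq_abs, hG.metric.gnorm_sq, hC.grad_sq, ← hC.fderiv_right] at h2

/-- The divergence along the plane orthogonal to `p.2` of a multiple of `gradPhi`. -/
theorem divT_radial (z : E 3) {F : ℝ → ℝ} (hF : ContDiff ℝ 1 F) {p : E 3 × E 3}
    (hp : G p.1 p.2 p.2 = 1) (hF0 : 0 ≤ F (phi Γ e z p.1)) :
    2 * (1 + e * phi Γ e z p.1) * F (phi Γ e z p.1) +
        deriv F (phi Γ e z p.1) * (2 * phi Γ e z p.1 + e * phi Γ e z p.1 ^ 2 -
          fderiv ℝ (phi Γ e z) p.1 p.2 ^ 2) ≤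
      divT G (fun y => F (phi Γ e z y) • gradPhi Γ e z y) p := by
  set y := p.1
  set ν := p.2
  set φ := phi Γ e z y with hφ
  have hη : ContDiff ℝ 1 fun x => F (phi Γ e z x) := hF.comp (Area.contDiff_phi hC z)
  have hgp : ContDiff ℝ 1 (gradPhi Γ e z) := hC.grad_c1.comp (contDiff_const.prodMk contDiff_id)
  have hd : fderiv ℝ (fun x => F (phi Γ e z x)) y = deriv F φ • fderiv ℝ (phi Γ e z) y :=
    ((hF.differentiable one_ne_zero φ).hasDerivAt.comp_hasFDerivAt y
      ((Area.contDiff_phi hC z).differentiable one_ne_zero y).hasFDerivAt).fderiv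
  have hcv : covd G (fun x => F (phi Γ e z x) • gradPhi Γ e z x) y ν =
      F φ • covd G (gradPhi Γ e z) y ν +
        (deriv F φ * fderiv ℝ (phi Γ e z) y ν) • gradPhi Γ e z y := by
    simp only [covd, fderiv_fun_smul (hη.differentiable one_ne_zero y)
      (hgp.differentiable one_ne_zero y), hd, add_apply, smul_apply,
      ContinuousLinearMap.smulRight_apply, smul_eq_mul, chr_smul_right, smul_add, ← hφ]
    abel
  have hc : 0 < 1 + e * φ :=
    add_pos_of_pos_of_nonneg one_pos (mul_nonneg hG.nonneg (hC.phi_nonneg z y))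
  have hL := Core.Field.le_trace_sub (G y) (hG.metric.symm y) (hG.metric.pos y)
    ((1 + e * φ)⁻¹ • Core.Field.covdL G (gradPhi Γ e z) y) (fun w => by
      simp only [LinearMap.smul_apply, Core.Field.covdL_apply, map_smul, smul_apply, smul_eq_mul]
      rw [le_inv_mul_iff₀ hc]
      exact hC.hess z y w) (Or.inr hp)
  simp only [map_smul, LinearMap.smul_apply, smul_apply, smul_eq_mul,
    ← Core.Field.divg_eq_trace, Core.Field.covdL_apply, hp, ← mul_sub] at hL
  rw [le_inv_mul_iff₀ hc] at hL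
  norm_num at hL
  show _ ≤ divg G _ y - G y (covd G _ y ν) ν
  simp only [Minimiser.divg_smul hη hgp, hd, hcv, map_add, map_smul, add_apply, smul_apply,
    smul_eq_mul, ← hC.fderiv_right, ← hφ]
  rw [hC.fderiv_right z y (gradPhi Γ e z y), hC.grad_sq, ← hφ]
  linear_combination mul_le_mul_of_nonneg_left hL hF0

/-- The bound of Li and Yau before the limit `a → 0`, with its slacks. -/
theorem slack_le (D : Varifold G h₀) (z : E 3) {a : ℝ} (ha : 0 < a) (hea : e * a < 1) :
    Integrable (slack Γ e D z a) D.μ ∧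
      ∫ p, slack Γ e D z a p ∂D.μ ≤ lam 3 e h₀ / 2 * D.μ.real univ := by
  have he := hG.nonneg
  obtain ⟨hk, hk2⟩ := Concentration.kk_sq ha hea
  have hψ : ∀ y, 0 < psi Γ e z a y := Concentration.psi_pos hC ha
  have hφc := Area.contDiff_phi hC z
  have hψc : Continuous fun p : E 3 × E 3 => psi Γ e z a p.1 :=
    ((hφc.add contDiff_const).continuous).comp continuous_fst
  have hσc : Continuous fun p : E 3 × E 3 => fderiv ℝ (phi Γ e z) p.1 p.2 :=
    ((hφc.continuous_fderiv one_ne_zero).comp continuous_fst).clm_apply continuous_snd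
  have hhc : Continuous fun p : E 3 × E 3 => D.h p.1 := D.h_cont.comp continuous_fst
  have hSc : Continuous (slack Γ e D z a) := by
    refine (((continuous_const.div hψc fun p => (hψ p.1).ne').pow 2).add
      ((continuous_const.sub (hhc.pow 2)).div_const 4)).add ?_
    exact (((hhc.mul hψc).sub (continuous_const.mul hσc)).pow 2).div
      (continuous_const.mul (hψc.pow 2)) fun p => by have := hψ p.1; positivity
  set M := (kk e a / a) ^ 2 + h₀ ^ 2 + 2 * (2 / a + e) with hM
  have hh : ∀ x, D.h x ^ 2 ≤ h₀ ^ 2 := fun x =>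
    sq_le_sq' (abs_le.1 (D.h_le x)).1 (abs_le.1 (D.h_le x)).2
  have hS0 : ∀ p, 0 ≤ slack Γ e D z a p := fun p =>
    add_nonneg (add_nonneg (sq_nonneg _) (div_nonneg (sub_nonneg.2 (hh _)) (by norm_num)))
      (by positivity)
  have hSM : ∀ᵐ p ∂D.μ, ‖slack Γ e D z a p‖ ≤ M := by
    filter_upwards [D.unit] with p hp
    rw [Real.norm_of_nonneg (hS0 p)]
    have hσ := sigma_sq_le hG hC z hp
    have hφ := hC.phi_nonneg z p.1
    have hy : psi Γ e z a p.1 = phi Γ e z p.1 + a := rfl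
    have h1 : wgt Γ e z a p.1 ^ 2 ≤ (kk e a / a) ^ 2 :=
      pow_le_pow_left₀ (div_pos hk (hψ _)).le
        (div_le_div_of_nonneg_left hk.le ha (le_add_of_nonneg_left hφ)) 2
    have h2 : 2 * phi Γ e z p.1 + e * phi Γ e z p.1 ^ 2 ≤
        (2 / a + e) * psi Γ e z a p.1 ^ 2 := by
      rw [hy, add_mul]
      refine add_le_add ?_ (mul_le_mul_of_nonneg_left (pow_le_pow_left₀ hφ (by linarith) 2) he)
      rw [div_mul_eq_mul_div, le_div_iff₀ ha]
      nlinarith [sq_nonneg (phi Γ e z p.1)]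
    have h3 : (D.h p.1 * psi Γ e z a p.1 - 2 * fderiv ℝ (phi Γ e z) p.1 p.2) ^ 2 /
        (4 * psi Γ e z a p.1 ^ 2) ≤ h₀ ^ 2 / 2 + 2 * (2 / a + e) := by
      rw [div_le_iff₀ (by have := hψ p.1; positivity)]
      nlinarith [mul_le_mul_of_nonneg_right (hh p.1) (sq_nonneg (psi Γ e z a p.1)),
        sq_nonneg (D.h p.1 * psi Γ e z a p.1 + 2 * fderiv ℝ (phi Γ e z) p.1 p.2)]
    simp only [slack, hM]
    linarith [sq_nonneg (D.h p.1), sq_nonneg h₀]
  have hSi : Integrable (slack Γ e D z a) D.μ :=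
    Integrable.of_bound hSc.aestronglyMeasurable M hSM
  refine ⟨hSi, ?_⟩
  obtain ⟨B, hB, hBd⟩ := Concentration.exists_deriv_bound Area.contDiff_down (a := 1) (b := 2)
    fun x hx => Area.deriv_down hx
  set Λ := lam 3 e h₀ / 2 with hΛ
  let R : ℕ → E 3 × E 3 → ℝ := fun k p =>
    Area.down (phi Γ e z p.1 / (k + 1)) * (slack Γ e D z a p - Λ) +
      deriv Area.down (phi Γ e z p.1 / (k + 1)) / (k + 1) *
        ((2 * phi Γ e z p.1 + e * phi Γ e z p.1 ^ 2 - fderiv ℝ (phi Γ e z) p.1 p.2 ^ 2) /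
          psi Γ e z a p.1)
  have hRc : ∀ k, Continuous (R k) := fun k => by
    have hq : Continuous fun p : E 3 × E 3 => phi Γ e z p.1 / ((k : ℝ) + 1) :=
      (hφc.continuous.comp continuous_fst).div_const _
    have hp := hφc.continuous.comp (continuous_fst (X := E 3) (Y := E 3))
    exact ((Area.contDiff_down.continuous.comp hq).mul (hSc.sub continuous_const)).add
      ((((Area.contDiff_down.continuous_deriv le_rfl).comp hq).div_const _).mul
        ((((continuous_const.mul hp).add (continuous_const.mul (hp.pow 2))).sub (hσc.pow 2)).div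
          hψc fun p => (hψ p.1).ne'))
  have hRb : ∀ k, ∀ᵐ p ∂D.μ, ‖R k p‖ ≤ M + |Λ| + B * (2 + 2 * e) := fun k => by
    filter_upwards [D.unit, hSM] with p hp hS
    set j : ℝ := (k : ℝ) + 1
    have hj : 1 ≤ j := le_add_of_nonneg_left k.cast_nonneg
    have hT := sub_nonneg.2 (sigma_sq_le hG hC z hp)
    set T := 2 * phi Γ e z p.1 + e * phi Γ e z p.1 ^ 2 - fderiv ℝ (phi Γ e z) p.1 p.2 ^ 2 with hTd
    refine (norm_add_le _ _).trans (add_le_add ?_ ?_)
    · rw [norm_mul, Real.norm_of_nonneg (Area.down_mem _).1]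
      exact (mul_le_of_le_one_left (norm_nonneg _) (Area.down_mem _).2).trans
        ((norm_sub_le _ _).trans (add_le_add hS le_rfl))
    · rcases lt_or_ge 2 (phi Γ e z p.1 / j) with h | h
      · rw [Area.deriv_down (Or.inr h)]
        simpa using mul_nonneg hB.le (by linarith : (0 : ℝ) ≤ 2 + 2 * e)
      have hT2 : T / psi Γ e z a p.1 ≤ j * (2 + 2 * e) := by
        have hφ := hC.phi_nonneg z p.1
        rw [div_le_iff₀ (hψ _)]
        rw [div_le_iff₀ (by linarith)] at h
        calc T ≤ phi Γ e z p.1 * (2 + e * phi Γ e z p.1) := by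
              rw [hTd]; nlinarith [sq_nonneg (fderiv ℝ (phi Γ e z) p.1 p.2)]
          _ ≤ psi Γ e z a p.1 * (j * (2 + 2 * e)) := by
              refine mul_le_mul (le_add_of_nonneg_right ha.le) ?_ (by positivity) (hψ _).le
              nlinarith [mul_le_mul_of_nonneg_left h he]
          _ = _ := mul_comm _ _
      rw [norm_mul, norm_div, Real.norm_of_nonneg (by linarith : (0 : ℝ) ≤ j),
        Real.norm_of_nonneg (div_nonneg hT (hψ _).le)]
      calc ‖deriv Area.down (phi Γ e z p.1 / j)‖ / j * (T / psi Γ e z a p.1)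
          ≤ B / j * (j * (2 + 2 * e)) := by
            refine mul_le_mul ?_ hT2 (div_nonneg hT (hψ _).le) (by positivity)
            exact div_le_div_of_nonneg_right (hBd _).1 (by linarith)
        _ = B * (2 + 2 * e) := by field_simp
  have hRle : ∀ k, ∫ p, R k p ∂D.μ ≤ 0 := fun k => by
    set j : ℝ := (k : ℝ) + 1
    have hj : 0 < j := by positivity
    -- a total `C¹` extension of `s ↦ down (s / j) / (s + a)`, `s ≥ 0`
    let G₀ : ℝ → ℝ := fun s => Area.down (s / j) * Concentration.up (-a / 2) (-a / 4) s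
    have hG₀ : ContDiff ℝ 1 G₀ :=
      (Area.contDiff_down.comp (contDiff_id.div_const _)).mul (Concentration.contDiff_up _ _)
    let F : ℝ → ℝ := fun s => G₀ s / (s + a)
    have hFc : ContDiff ℝ 1 F := by
      refine contDiff_iff_contDiffAt.2 fun s => ?_
      rcases eq_or_ne (s + a) 0 with hs | hs
      · refine (contDiffAt_const (c := (0 : ℝ))).congr_of_eventuallyEq ?_
        filter_upwards [eventually_lt_nhds (show s < -a / 2 by linarith)] with t ht
        simp [F, G₀, Concentration.up_eq_zero (show -a / 2 < -a / 4 by linarith) ht.le]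
      · exact hG₀.contDiffAt.div (contDiffAt_id.add contDiffAt_const) hs
    have hev : ∀ φ : ℝ, 0 ≤ φ → F =ᶠ[𝓝 φ] fun s => Area.down (s / j) / (s + a) := fun φ hφ => by
      filter_upwards [eventually_gt_nhds (show -a / 4 < φ by linarith)] with t ht
      simp [F, G₀, Concentration.up_eq_one (show -a / 2 < -a / 4 by linarith) ht.le]
    have hFv : ∀ φ : ℝ, 0 ≤ φ → F φ = Area.down (φ / j) / (φ + a) ∧
        deriv F φ = deriv Area.down (φ / j) / j / (φ + a) -
          Area.down (φ / j) / (φ + a) ^ 2 := fun φ hφ => by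
      refine ⟨(hev φ hφ).eq_of_nhds, ?_⟩
      have hd : HasDerivAt (fun s => Area.down (s / j)) (deriv Area.down (φ / j) / j) φ := by
        have h := ((Area.contDiff_down.differentiable one_ne_zero) (φ / j)).hasDerivAt.comp φ
          ((hasDerivAt_id φ).div_const j)
        exact h.congr_deriv (by ring)
      rw [(hev φ hφ).deriv_eq, (hd.fun_div ((hasDerivAt_id' φ).add_const a)
        (by linarith)).deriv]
      have : φ + a ≠ 0 := by linarith
      field_simp
    let X : E 3 → E 3 := fun y => F (phi Γ e z y) • gradPhi Γ e z y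
    have hX : ContDiff ℝ 1 X :=
      (hFc.comp hφc).smul (hC.grad_c1.comp (contDiff_const.prodMk contDiff_id))
    have hXs : HasCompactSupport X := by
      refine HasCompactSupport.intro
        (Core.Mini.isCompact_gball Γ hG.metric z (Real.sqrt (4 * j))) fun y hy => ?_
      simp only [Core.gball, mem_ofPred_eq, not_le] at hy
      have h1 : 4 * j < sqd Γ z y := by
        have := Real.lt_sq_of_sqrt_lt hy
        rwa [Geo.dist, gnorm, Real.sq_sqrt (hG.metric.nonneg z _)] at this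
      have h2 : 2 * j ≤ phi Γ e z y := by
        have := half_le_phiR (x := sqd Γ z y) he (hG.metric.nonneg z _)
        simp only [phi]
        linarith
      show F _ • _ = 0
      rw [(hFv _ (hC.phi_nonneg z y)).1, Area.down_zero ((le_div_iff₀ hj).2 h2), zero_div,
        zero_smul]
    have hi1 : Integrable (divT G X) D.μ :=
      D.integrable_of_supp hG.metric (Minimiser.continuous_divT hG.metric hX) hXs fun p hp => by
        simp [divT, Minimiser.divg_eq_zero hp, Minimiser.covd_eq_zero hp]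
    have hi2 : Integrable (fun p => D.h p.1 * G p.1 (X p.1) p.2) D.μ :=
      D.integrable_of_supp hG.metric
        (hhc.mul (((hG.metric.smooth.continuous.comp continuous_fst).clm_apply
          (hX.continuous.comp continuous_fst)).clm_apply continuous_snd)) hXs fun p hp => by
        simp [image_eq_zero_of_notMem_tsupport hp]
    calc ∫ p, R k p ∂D.μ ≤ ∫ p, (divT G X p - D.h p.1 * G p.1 (X p.1) p.2) ∂D.μ := by
          refine integral_mono_ae (Integrable.of_bound (hRc k).aestronglyMeasurable _ (hRb k))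
            (hi1.sub hi2) ?_
          filter_upwards [D.unit] with p hp
          set φ := phi Γ e z p.1 with hφd
          have hφ : 0 ≤ φ := hC.phi_nonneg z p.1
          obtain ⟨hF1, hF2⟩ := hFv φ hφ
          have hd := divT_radial hG hC z hFc hp
            (by rw [← hφd, hF1]; exact div_nonneg (Area.down_mem _).1 (by linarith))
          simp only [← hφd] at hd
          simp only [X, map_smul, smul_apply, smul_eq_mul, ← hC.fderiv_right, ← hφd, R]
          refine le_trans (le_of_eq ?_) (sub_le_sub_right hd _)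
          have hy : φ + a ≠ 0 := by linarith
          simp only [hF1, hF2, slack, hΛ, lam_three, wgt, psi, ← hφd, div_pow, hk2]
          field_simp
          ring
      _ = 0 := by rw [integral_sub hi1 hi2, D.first X hX hXs, sub_self]
  have hlim : Tendsto (fun k => ∫ p, R k p ∂D.μ) atTop
      (𝓝 (∫ p, (slack Γ e D z a p - Λ) ∂D.μ)) := by
    refine tendsto_integral_of_dominated_convergence (fun _ => M + |Λ| + B * (2 + 2 * e))
      (fun k => (hRc k).aestronglyMeasurable) (integrable_const _) hRb (ae_of_all _ fun p => ?_)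
    obtain ⟨K, hK⟩ := exists_nat_gt (phi Γ e z p.1)
    refine tendsto_const_nhds.congr' ?_
    filter_upwards [eventually_ge_atTop K] with k hk
    have h1 : phi Γ e z p.1 / ((k : ℝ) + 1) < 1 := by
      rw [div_lt_one (by positivity)]
      have : (K : ℝ) ≤ k := by exact_mod_cast hk
      linarith
    simp [R, Area.down_one h1.le, Area.deriv_down (Or.inl h1)]
  have h := le_of_tendsto' hlim hRle
  rw [integral_sub hSi (integrable_const _), integral_const, smul_eq_mul, sub_nonpos] at h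
  linarith

/-- Concentration of the weight at a point of density one. -/
theorem concentration (D : Datum Γ h₀) : ∃ z : E 3, ∀ θ ∈ Ioo (0 : ℝ) 1, ∃ s₀ : ℝ, 0 < s₀ ∧
    ∀ a, 0 < a → e * a < 1 → 2 * θ ^ 2 * omega 2 * (2 - e * a) * (s₀ / (a + s₀)) ^ 2 ≤
      ∫ p, wgt Γ e z a p.1 ^ 2 ∂D.μ := by
  have hne : (ae D.μ).NeBot := ae_neBot.2 D.ne_zero
  obtain ⟨⟨z, N⟩, hz⟩ := D.dens.exists
  refine ⟨z, fun θ ⟨hθ0, hθ1⟩ => ?_⟩
  have hev : ∀ᶠ ρ in 𝓝 (0 : ℝ), sd (e * ρ / 4) ^ 2 < θ⁻¹ := by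
    have hc : Continuous fun ρ => sd (e * ρ / 4) ^ 2 :=
      (contDiff_sd.continuous.comp (by fun_prop)).pow 2
    exact hc.continuousAt.eventually (eventually_lt_nhds (by
      simpa [sd_zero] using (one_lt_inv₀ hθ0).2 hθ1))
  have hev2 : ∀ᶠ r in 𝓝[>] (0 : ℝ), ∀ x ∈ Icc (0 : ℝ) (r ^ 2), sd (e * x / 4) ^ 2 < θ⁻¹ := by
    obtain ⟨δ, hδ, hδs⟩ := Metric.eventually_nhds_iff.1 hev
    filter_upwards [Ioo_mem_nhdsGT (Real.sqrt_pos.2 hδ)] with r hr x hx
    refine hδs ?_
    rw [Real.dist_0_eq_abs, abs_of_nonneg hx.1]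
    exact hx.2.trans_lt (by
      rw [← Real.sq_sqrt hδ.le]; exact pow_lt_pow_left₀ hr.2 hr.1.le two_ne_zero)
  obtain ⟨δ, hδ, hδs⟩ := mem_nhdsGT_iff_exists_Ioc_subset.1 ((hz θ hθ1).and hev2)
  refine ⟨δ ^ 2 / (2 * θ), by have := mem_Ioi.1 hδ; positivity, fun a ha hea => ?_⟩
  have hδ0 : 0 < δ := hδ
  obtain ⟨hk, hk2⟩ := Concentration.kk_sq ha hea
  have hω := Core.Mini.omega_pos 2
  have h := layer_le (μ := D.μ) (f := fun p : E 3 × E 3 => phi Γ e z p.1)
    ((Area.contDiff_phi hC z).continuous.comp continuous_fst).measurable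
    (fun p => hC.phi_nonneg z p.1) (κ := 2 * θ ^ 2 * omega 2) (s₀ := δ ^ 2 / (2 * θ))
    (by positivity) (by positivity) (fun s hs hs' => ?_) ha hk
  · simp only [wgt, psi, div_pow]
    refine le_of_eq_of_le ?_ h
    rw [hk2]
    field_simp
  rw [le_div_iff₀ (by positivity)] at hs'
  have hr : Real.sqrt (2 * θ * s) ∈ Ioc (0 : ℝ) δ :=
    ⟨Real.sqrt_pos.2 (by positivity), Real.sqrt_le_iff.2 ⟨hδ0.le, by linarith⟩⟩
  obtain ⟨hd, hsd⟩ := hδs hr
  rw [Real.sq_sqrt (by positivity)] at hd hsd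
  refine le_trans (le_of_eq (by ring)) (hd.trans (measureReal_mono fun p hp => ?_))
  show phi Γ e z p.1 ≤ s
  have h0 : 0 ≤ sqd Γ z p.1 := hG.metric.nonneg z _
  have h1 : sqd Γ z p.1 ≤ 2 * θ * s := by
    have := pow_le_pow_left₀ (Real.sqrt_nonneg _) (show Γ.dist z p.1 ≤ _ from hp) 2
    rw [Real.sq_sqrt (by positivity : 0 ≤ 2 * θ * s)] at this
    exact (Real.sq_sqrt h0).symm.trans_le this
  calc phi Γ e z p.1 ≤ 2 * θ * s / 2 * θ⁻¹ :=
        mul_le_mul (by linarith) (hsd _ ⟨h0, h1⟩).le (sq_nonneg _) (by positivity)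
    _ = s := by field_simp

end Three

open Three in
/-- The area bound in dimension three, `(h₀²/4 - e) A ≥ 4π`. -/
theorem areaThree (G : Coeff 3) (e : ℝ) (Γ : Geo G) (h₀ : ℝ) (hG : IsCHe G e) (hC : Comp Γ e)
    (D : Datum Γ h₀) : YS 3 ≤ lam 3 e h₀ * D.μ.real univ ^ (2 / md 3) := by
  obtain ⟨z, hz⟩ := concentration hG hC D
  set A := D.μ.real univ
  have hmain : ∀ θ ∈ Ioo (0 : ℝ) 1, 4 * θ ^ 2 * omega 2 ≤ lam 3 e h₀ / 2 * A := by
    intro θ hθ
    obtain ⟨s₀, hs₀, hs⟩ := hz θ hθ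
    have hlim : Tendsto (fun a : ℝ => 2 * θ ^ 2 * omega 2 * (2 - e * a) * (s₀ / (a + s₀)) ^ 2)
        (𝓝[>] 0) (𝓝 (4 * θ ^ 2 * omega 2)) := by
      have h : ContinuousAt (fun a : ℝ =>
          2 * θ ^ 2 * omega 2 * (2 - e * a) * (s₀ / (a + s₀)) ^ 2) 0 :=
        (by fun_prop : Continuous fun a : ℝ => 2 * θ ^ 2 * omega 2 * (2 - e * a)).continuousAt.mul
          ((continuousAt_const.div (continuousAt_id.add continuousAt_const)
            (by simp [hs₀.ne'])).pow 2)
      refine tendsto_nhdsWithin_of_tendsto_nhds ?_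
      convert h.tendsto using 2
      simp [hs₀.ne']
      ring
    have hsmall : ∀ᶠ a : ℝ in 𝓝[>] 0, e * a < 1 :=
      ((continuous_const.mul continuous_id).tendsto' 0 0 (by simp)).eventually
        (eventually_lt_nhds one_pos) |>.filter_mono nhdsWithin_le_nhds
    refine le_of_tendsto hlim ?_
    filter_upwards [self_mem_nhdsWithin, hsmall] with a (ha : 0 < a) hea
    obtain ⟨hi, hle⟩ := slack_le hG hC D.toVarifold z ha hea
    refine (hs a ha hea).trans (le_trans ?_ hle)
    refine integral_mono_of_nonneg (ae_of_all _ fun p => sq_nonneg _) hi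
      (ae_of_all _ fun p => ?_)
    have hh : D.h p.1 ^ 2 ≤ h₀ ^ 2 :=
      sq_le_sq' (abs_le.1 (D.h_le p.1)).1 (abs_le.1 (D.h_le p.1)).2
    simp only [slack]
    refine le_add_of_le_of_nonneg (le_add_of_nonneg_right (by linarith)) ?_
    positivity
  have h4 : 4 * omega 2 ≤ lam 3 e h₀ / 2 * A := by
    refine le_of_tendsto (f := fun θ : ℝ => 4 * θ ^ 2 * omega 2) (x := 𝓝[<] 1) ?_ ?_
    · exact tendsto_nhdsWithin_of_tendsto_nhds
        ((by fun_prop : Continuous fun θ : ℝ => 4 * θ ^ 2 * omega 2).tendsto' 1 _ (by ring))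
    · filter_upwards [Ioo_mem_nhdsLT one_pos] with θ hθ using hmain θ hθ
  rw [YS, md_three, show (2 : ℝ) / 2 = 1 by norm_num, Real.rpow_one, Real.rpow_one,
    ← four_omega_two]
  linarith

end

end Vale.Agent.P219.CH.Full
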