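import Vale.Agent.P219.CH.Full.Global
import Vale.Agent.P219.CH.Full.Three

/-!
P219, the full inequality in dimension three: `GlobalIneq` from the module statements and
`areaThree`.
-/

namespace Vale.Agent.P219.CH.Full

noncomputable section

/-- The smooth inequality in dimension three. -/
theorem globalThree (hComp : CompStmt) (hProf : ProfStmt) (hGrowth : GrowthStmt) (hPre : PreStmt)
    (hExists : ExistsStmt) (hFirst : FirstStmt) (hZero : ZeroOneStmt) (hNe : NeStmt)
    (hVol : VolDensStmt) (hDens : DensStmt) (G : Coeff 3) (e : ℝ) (hCH : IsCHe G e) :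
    GlobalIneq G e :=
  globalIneq_of_area hComp hProf hGrowth hPre hExists hFirst hZero hNe hVol hDens le_rfl hCH
    fun Γ h₀ hC D _ => areaThree G e Γ h₀ hCH hC D

end

end Vale.Agent.P219.CH.Full
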