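import Vale.Agent.P219.CH.Full.Final
import Vale.Agent.P219.CH.Full.Area
import Vale.Agent.P219.CH.Full.Comparison
import Vale.Agent.P219.CH.Full.Concentration
import Vale.Agent.P219.CH.Full.Crude
import Vale.Agent.P219.CH.Full.Density
import Vale.Agent.P219.CH.Full.Limit
import Vale.Agent.P219.CH.Full.Minimiser
import Vale.Agent.P219.CH.Full.Mono.GrowthStmt
import Vale.Agent.P219.CH.Full.Mono.KernelStmt
import Vale.Agent.P219.CH.Full.Rigid
import Vale.Agent.P219.CH.Full.ThreeGlobal

/-!
P219, full inequality: the wiring of the modules.
-/

namespace Vale.Agent.P219.CH.Coord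

open MeasureTheory Filter Topology Set Bornology
open scoped ContDiff

noncomputable section

open Full in
/-- The global inequality, the three dimensional one and rigidity from the modules. -/
theorem wired (hRad : RadIntStmt) (hSchur : SchurStmt) (hSphere : SphereStmt)
    (hCenter : CenterStmt) (hBarta : BartaStmt) (hAlmost : AlmostStmt) (hPoisson : PoissonStmt) :
    GlobalStmt ∧ (∀ (G : Coeff 3) (e : ℝ), IsCHe G e → GlobalIneq G e) ∧ RigidStmt := by
  have hker := kernelStmt_of hRad
  have hcore := coreStmt hker hSchur hRad hSphere (crudeStmt hker hSchur) hCenter hAlmost hPoisson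
  have hfirst := Minimiser.firstStmt profStmt Limit.fluxStmt
  have hdens := densStmt Limit.fluxStmt
  have hglob := globalStmt compStmt profStmt growthStmt Limit.preStmt
    (Minimiser.existsStmt profStmt) hfirst Limit.zeroOneStmt Limit.neStmt Minimiser.volDensStmt
    hdens (areaStmt hcore)
  exact ⟨hglob, globalThree compStmt profStmt growthStmt Limit.preStmt
    (Minimiser.existsStmt profStmt) hfirst Limit.zeroOneStmt Limit.neStmt Minimiser.volDensStmt
    hdens, rigidStmt compStmt profStmt hglob Limit.preStmt Limit.fluxStmt hfirst growthStmt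
    Minimiser.volDensStmt hdens Limit.neStmt (rigidCoreStmt hcore hBarta hAlmost hCenter)⟩

end

end Vale.Agent.P219.CH.Coord
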