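import Vale.Agent.P219.CH.CoordNbhd

/-!
P219, full inequality in coordinates: the curvature bound and the space form of curvature `κ ≤ 0`
through the classical formulas. Only definitions: these are what the hand-in statement uses.
-/

namespace Vale.Agent.P219.CH.Coord

open MeasureTheory
open scoped RealInnerProductSpace

noncomputable section

variable {n : ℕ}

/-- The inner product of two tangent vectors at `x`. -/
def gram (g : Pt n → Fin n → Fin n → ℝ) (x : Pt n) (u v : Fin n → ℝ) : ℝ :=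
  ∑ i, ∑ j, g x i j * u i * v j

/-- Sectional curvature at most `κ`. -/
def SecAtMost (g : Pt n → Fin n → Fin n → ℝ) (κ : ℝ) : Prop :=
  ∀ x u v, secNum g x u v ≤ κ * (gram g x u u * gram g x v v - gram g x u v ^ 2)

/-- `r` for `κ = 0`, `sinh (b r) / b` with `b = √(-κ)` for `κ < 0`. -/
def snK (κ r : ℝ) : ℝ := if κ = 0 then r else Real.sinh (Real.sqrt (-κ) * r) / Real.sqrt (-κ)

/-- Boundary area of a ball of radius `r` of the space form. -/
def areaK (n : ℕ) (κ r : ℝ) : ℝ := n * ballVol n * snK κ r ^ (n - 1)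

/-- Volume of a ball of radius `r` of the space form. -/
def volK (n : ℕ) (κ r : ℝ) : ℝ := ∫ t in (0 : ℝ)..r, areaK n κ t

/-- The squared length `dr² + snK(r)² |dθ|²` of the tangent vector `a` at `v` of the space form in
geodesic polar coordinates: `r = ‖v‖`, `dr = ⟪v, a⟫ / r` and `r² |dθ|² = ‖a‖² - dr²`. -/
def ballForm (κ : ℝ) (v a : Pt n) : ℝ :=
  if v = 0 then ‖a‖ ^ 2
  else (⟪v, a⟫ / ‖v‖) ^ 2 + (snK κ ‖v‖ / ‖v‖) ^ 2 * (‖a‖ ^ 2 - (⟪v, a⟫ / ‖v‖) ^ 2)

end

end Vale.Agent.P219.CH.Coord
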