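import Vale.Agent.P219.CH.Full.Statements
import Vale.Agent.P219.CH.Minkowski

/-!
P219, full inequality: from the smooth inequality to lower Minkowski content (`MinkStmt`) and to the
relaxed perimeter.
-/

namespace Vale.Agent.P219.CH.Full

open MeasureTheory Filter Topology Metric Set
open scoped ContDiff

noncomputable section

set_option maxSynthPendingDepth 3

variable {n : ℕ} {G : Coeff n} {e : ℝ}

/-- A cutoff equal to one on a given bounded set. -/
theorem exists_cls_one {K : Set (E n)} (hK : Bornology.IsBounded K) :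
    ∃ η : E n → ℝ, Cls η ∧ ∀ x ∈ K, η x = 1 := by
  obtain ⟨R, hR⟩ := hK.subset_closedBall (0 : E n)
  let φ : ContDiffBump (0 : E n) := ⟨max R 1, max R 1 + 1, by positivity, lt_add_one _⟩
  exact ⟨φ, ⟨φ.contDiff, φ.hasCompactSupport, fun x => ⟨φ.nonneg, φ.le_one⟩⟩, fun x hx =>
    φ.one_of_mem_closedBall (closedBall_subset_closedBall (le_max_left _ _) (hR hx))⟩

theorem wmass_eq_integral {η f : E n → ℝ} (h : ∀ x ∈ tsupport f, η x = 1) :
    wmass G η f = ∫ x, f x ∂vol G := by
  refine integral_congr_ae (Eventually.of_forall fun x => ?_)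
  by_cases hx : x ∈ tsupport f
  · simp [h x hx]
  · simp [image_eq_zero_of_notMem_tsupport hx]

open Minkowski in
/-- The smooth inequality gives the inequality for lower Minkowski content. -/
theorem minkStmt (hP : ProfStmt) : MinkStmt := by
  intro n G e hn hCH hglob S hSm hSb hS0 c hc
  have hG := hCH.metric
  have := finite_compacts hG
  obtain ⟨R, hR⟩ := hSb.subset_closedBall (0 : E n)
  have hSne : S.Nonempty := nonempty_of_measure_ne_zero hS0.ne'
  have hSfin : vol G S ≠ ⊤ :=
    measure_ne_top_of_subset hR (isCompact_closedBall (0 : E n) R).measure_ne_top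
  obtain ⟨m, hm0, hm⟩ := exists_lower hG (isCompact_closedBall (0 : E n) (R + 1))
  set V := (vol G S).toReal with hV
  set δ := (profE n e V - c) / 4 with hδ
  have hδ0 : 0 < δ := by rw [hδ]; linarith
  obtain ⟨η, hη, hη1⟩ := exists_cls_one (n := n) (K := closedBall 0 (R + 2)) isBounded_closedBall
  obtain ⟨L, hL0, hL⟩ := hglob η hη δ hδ0
  have hε₀ : 0 < min m (δ / (L * |c| + 1)) := lt_min hm0 (by positivity)
  filter_upwards [Ioo_mem_nhdsGT hε₀] with ε hε
  by_contra hcon
  push Not at hcon
  obtain ⟨hεm, hεδ⟩ := lt_min_iff.1 hε.2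
  have hsub : S ⊆ nbhd G S ε := fun x hx =>
    (mem_nbhd_iff hSne).2 ((cdist_of_mem hx).trans_lt hε.1)
  have hNtop : vol G (nbhd G S ε) ≠ ⊤ := hcon.ne_top
  have hlt : (vol G (nbhd G S ε)).toReal < V + ε * c :=
    ENNReal.lt_ofReal_iff_toReal_lt hNtop |>.1 hcon
  have hle : V ≤ (vol G (nbhd G S ε)).toReal := ENNReal.toReal_mono hNtop (measure_mono hsub)
  have hεc : 0 < ε * c := by linarith
  have hc0 : 0 < c := pos_of_mul_pos_right hεc hε.1.le
  have hvol : vol G (nbhd G S ε \ S) < ENNReal.ofReal (ε * c) := by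
    rw [measure_sdiff hsub hSm.nullMeasurableSet hSfin,
      ENNReal.lt_ofReal_iff_toReal_lt (ENNReal.sub_ne_top hNtop),
      ENNReal.toReal_sub_of_le (measure_mono hsub) hNtop]
    linarith
  set θ := min (1 / 2) (δ / (4 * c + 1)) with hθ
  have hθ0 : 0 < θ := lt_min (by norm_num) (by positivity)
  have hθ1 : θ ≤ 1 / 2 := min_le_left _ _
  obtain ⟨g, hgs, hsupp, hg01, hmass, htv, hmid⟩ :=
    exists_test hG hSne hR hm hSm hε.1 hεm hθ0 (by linarith) hvol
  have hgc : Cls g := ⟨hgs.of_le (by simp),
    HasCompactSupport.of_support_subset_isCompact (isCompact_closedBall (0 : E n) (R + 2))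
      ((subset_tsupport g).trans hsupp), hg01⟩
  have hmain := hL g hgc
  rw [wmass_eq_integral fun x hx => hη1 x (hsupp hx)] at hmain
  have hmono : profE n e V ≤ profE n e (∫ x, g x ∂vol G) := (hP n e hn hCH.nonneg).2.1 hmass
  have h1 : (1 + θ) * c / (1 - θ) ≤ c + δ := by
    have h4 : θ * (4 * c + 1) ≤ δ :=
      (le_div_iff₀ (by linarith)).1 (min_le_right _ _)
    rw [div_le_iff₀ (by linarith)]
    nlinarith [mul_nonneg hθ0.le hδ0.le, mul_le_mul_of_nonneg_left hθ1 hδ0.le]
  have h2 : L * ∫ x, g x * (1 - g x) ∂vol G ≤ δ := by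
    refine (mul_le_mul_of_nonneg_left hmid hL0).trans ?_
    have h3 := (lt_div_iff₀ (by positivity)).1 hεδ
    nlinarith [le_abs_self c, mul_le_mul_of_nonneg_left (le_abs_self c) (mul_nonneg hL0 hε.1.le),
      hε.1]
  simp only [midv] at hmain
  linarith

/-- The smooth inequality gives the inequality for the relaxed perimeter. -/
theorem perimeter_of_globalIneq (hP : ProfStmt) (hn : 2 ≤ n) (hCH : IsCHe G e)
    (hglob : GlobalIneq G e) {K S : Set (E n)} (hK : IsCompact K) (hSm : MeasurableSet S)
    (hSK : S ⊆ K) {f : ℕ → E n → ℝ} (hf : ∀ k, ContDiff ℝ 1 (f k))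
    (hs : ∀ k, tsupport (f k) ⊆ K) (h01 : ∀ k x, f k x ∈ Icc (0 : ℝ) 1)
    (hlim : Tendsto (fun k => ∫ x, |f k x - S.indicator 1 x| ∂vol G) atTop (𝓝 0))
    {c : ℝ} (hc : c < profE n e (vol G S).toReal) : ∀ᶠ k in atTop, c < tvar G (f k) := by
  have := Minkowski.finite_compacts hCH.metric
  set V := (vol G S).toReal with hV
  set δ := (profE n e V - c) / 4 with hδ
  have hδ0 : 0 < δ := by rw [hδ]; linarith
  obtain ⟨η, hη, hη1⟩ := exists_cls_one hK.isBounded
  obtain ⟨L, -, hL⟩ := hglob η hη δ hδ0
  have hi : ∀ k, Integrable (f k) (vol G) := fun k => (hf k).continuous.integrable_of_hasCompactSupport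
    (HasCompactSupport.of_support_subset_isCompact hK ((subset_tsupport _).trans (hs k)))
  have hI : Integrable (S.indicator (1 : E n → ℝ)) (vol G) :=
    (integrable_indicator_iff hSm).2
      (integrableOn_const (C := (1 : ℝ)) (measure_ne_top_of_subset hSK hK.measure_ne_top))
  have habs : ∀ k, Integrable (fun x => |f k x - S.indicator 1 x|) (vol G) := fun k =>
    ((hi k).sub hI).abs
  have hVi : ∫ x, S.indicator 1 x ∂vol G = V := by
    rw [integral_indicator_one hSm, measureReal_def]
  have hvol : Tendsto (fun k => ∫ x, f k x ∂vol G) atTop (𝓝 V) := by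
    rw [tendsto_iff_norm_sub_tendsto_zero]
    refine squeeze_zero (fun _ => norm_nonneg _) (fun k => ?_) hlim
    rw [← hVi, ← integral_sub (hi k) hI]
    exact norm_integral_le_integral_norm _
  have hprof : Tendsto (fun k => profE n e (∫ x, f k x ∂vol G)) atTop (𝓝 (profE n e V)) :=
    ((hP n e hn hCH.nonneg).1.tendsto V).comp hvol
  have hpen : Tendsto (fun k => L * midv G (f k)) atTop (𝓝 0) := by
    rw [show (0 : ℝ) = L * 0 by ring]
    refine (squeeze_zero (fun k => integral_nonneg fun x => ?_) (fun k => ?_) hlim).const_mul L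
    · exact mul_nonneg (h01 k x).1 (by linarith [(h01 k x).2])
    · refine integral_mono_of_nonneg (Eventually.of_forall fun x => ?_) (habs k)
        (Eventually.of_forall fun x => ?_)
      · exact mul_nonneg (h01 k x).1 (by linarith [(h01 k x).2])
      · have h0 := (h01 k x).1
        have h1 := (h01 k x).2
        by_cases hx : x ∈ S
        · simp only [indicator_of_mem hx, Pi.one_apply]
          rw [abs_of_nonpos (by linarith)]; nlinarith
        · simp only [indicator_of_notMem hx, sub_zero]
          rw [abs_of_nonneg h0]; nlinarith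
  filter_upwards [hprof.eventually_const_lt (show profE n e V - δ < _ by linarith),
    hpen.eventually_lt_const hδ0] with k h1 h2
  have hk := hL (f k) ⟨hf k,
    HasCompactSupport.of_support_subset_isCompact hK ((subset_tsupport _).trans (hs k)), h01 k⟩
  rw [wmass_eq_integral fun x hx => hη1 x (hs k hx)] at hk
  linarith

end

end Vale.Agent.P219.CH.Full
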