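import Vale.Agent.P219.CH.Full.Coord
import Vale.Agent.P219.CH.Full.Mink
import Vale.Agent.P219.CH.CoordMinkowski

/-!
P219, full inequality: the modules in coordinates.
-/

namespace Vale.Agent.P219.CH.Coord

open MeasureTheory Filter Topology Set Metric
open scoped ContDiff RealInnerProductSpace

noncomputable section

set_option maxSynthPendingDepth 3

variable {n : ℕ} {g : E n → Fin n → Fin n → ℝ} {κ : ℝ}

lemma gram_eq (g : E n → Fin n → Fin n → ℝ) (x u v : E n) :
    gram g x (fun i => u i) (fun i => v i) = toCoeff g x u v :=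
  (toCoeff_apply g x u v).symm

lemma cartanHadamard_of_sec (hm : Metric g) (hc : Complete g) (hκ : κ ≤ 0)
    (hs : SecAtMost g κ) : CartanHadamard g := by
  refine ⟨hm, hc, fun x u v => (hs x u v).trans ?_⟩
  have hG := isMetric hm
  have h := abs_le.1 (hG.cauchy x (WithLp.toLp 2 u) (WithLp.toLp 2 v))
  have hu := hG.gnorm_sq x (WithLp.toLp 2 u)
  have hv := hG.gnorm_sq x (WithLp.toLp 2 v)
  rw [← gram_eq] at h hu hv
  have h2 : gram g x u v ^ 2 ≤ gram g x u u * gram g x v v := by
    change gnorm (toCoeff g) x (WithLp.toLp 2 u) ^ 2 = gram g x u u at hu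
    change gnorm (toCoeff g) x (WithLp.toLp 2 v) ^ 2 = gram g x v v at hv
    rw [← hu, ← hv, ← mul_pow]
    exact sq_le_sq' h.1 h.2
  exact mul_nonpos_of_nonpos_of_nonneg hκ (by linarith)

lemma isCHe (hm : Metric g) (hc : Complete g) (hκ : κ ≤ 0) (hs : SecAtMost g κ) :
    Full.IsCHe (toCoeff g) (-κ) where
  metric := isMetric hm
  complete := (isCH (cartanHadamard_of_sec hm hc hκ hs)).complete
  sec x u v := by
    rw [sec_eq hm, ← gram_eq, ← gram_eq, ← gram_eq, neg_neg]
    exact hs x _ _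
  nonneg := by linarith

lemma sd_mul {e : ℝ} (he : 0 ≤ e) {r : ℝ} (hr : 0 ≤ r) :
    r * Full.sd (e * r ^ 2) = if e = 0 then r else Real.sinh (Real.sqrt e * r) / Real.sqrt e := by
  rcases eq_or_lt_of_le he with rfl | he'
  · simp [Full.sd]
  rw [if_neg he'.ne']
  rcases eq_or_lt_of_le hr with rfl | hr'
  · simp
  rw [Full.sd, if_pos (by positivity), Real.sqrt_mul he, Real.sqrt_sq hr]
  field_simp

lemma snK_eq (hκ : κ ≤ 0) {r : ℝ} (hr : 0 ≤ r) : snK κ r = Full.sn (-κ) r := by
  rw [Full.sn, sd_mul (by linarith) hr, snK]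
  simp only [neg_eq_zero]

lemma areaK_eq (hκ : κ ≤ 0) {r : ℝ} (hr : 0 ≤ r) : areaK n κ r = Full.areaM n (-κ) r := by
  rw [areaK, Full.areaM, snK_eq hκ hr]
  rfl

lemma volK_eq (hκ : κ ≤ 0) {r : ℝ} (hr : 0 ≤ r) : volK n κ r = Full.volM n (-κ) r := by
  refine intervalIntegral.integral_congr fun t ht => areaK_eq hκ ?_
  rw [uIcc_of_le hr] at ht
  exact ht.1

lemma ballForm_eq (hκ : κ ≤ 0) (v a : E n) : ballForm κ v a = Full.modelSq (-κ) v a := by
  rw [ballForm, Full.modelSq]
  rcases eq_or_ne v 0 with rfl | hv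
  · simp [Full.sd]
  rw [if_neg hv, snK_eq hκ (norm_nonneg v), Full.sn]
  have : ‖v‖ ≠ 0 := norm_ne_zero_iff.2 hv
  field_simp
  ring

/-- The radius of the model ball of a given volume and the value of the profile there. -/
lemma exists_radius (hP : Full.ProfStmt) (hn : 2 ≤ n) (hκ : κ ≤ 0) {V : ℝ} (hV : 0 < V) :
    ∃ R : ℝ, 0 < R ∧ volK n κ R = V ∧ Full.profE n (-κ) V = areaK n κ R := by
  obtain ⟨r, hr, hv, ha, -⟩ := (hP n (-κ) hn (by linarith)).2.2.2.2 V hV
  exact ⟨r, hr, by rw [volK_eq hκ hr.le, hv], by rw [ha, areaK_eq hκ hr.le]⟩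

lemma volOf_pos (hm : Metric g) {S : Set (E n)} (hS : 0 < volume S) : 0 < volOf g S := by
  have hc : Continuous fun x => ENNReal.ofReal (density g x) := by
    rw [← dens_eq_density]
    exact ENNReal.continuous_ofReal.comp (isMetric hm).contDiff_dens.continuous
  rw [volOf, setLIntegral_pos_iff hc.measurable]
  refine hS.trans_le (measure_mono fun x hx => ⟨?_, hx⟩)
  rw [Function.mem_support, ne_eq, ENNReal.ofReal_eq_zero, not_le, ← dens_eq_density]
  exact (isMetric hm).dens_pos x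

/-- The inequality for lower Minkowski content and for the relaxed perimeter, and in dimension at least four rigidity. -/
theorem full_of_modules (hglob : Full.GlobalIneq (toCoeff g) (-κ)) (hRigid : Full.RigidStmt)
    (hP : Full.ProfStmt) (hn : 2 ≤ n) (hκ : κ ≤ 0) (hm : Metric g) (hc : Complete g)
    (hs : SecAtMost g κ) (S : Set (E n))
    (hSm : MeasurableSet S) (hSb : Bornology.IsBounded S) (hS0 : 0 < volume S) :
    ∃ R : ℝ, 0 < R ∧ volK n κ R = (volOf g S).toReal ∧
      (∀ c < areaK n κ R, ∀ᶠ ε in 𝓝[>] (0 : ℝ),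
        ENNReal.ofReal ((volOf g S).toReal + ε * c) ≤ volOf g (nbhdOf g S ε)) ∧
      (∀ f : ℕ → E n → ℝ, (∀ k, ContDiff ℝ ∞ (f k)) →
        (∃ K, IsCompact K ∧ S ⊆ K ∧ ∀ k, tsupport (f k) ⊆ K) →
        (∀ k x, f k x ∈ Icc (0 : ℝ) 1) →
        Tendsto (fun k => ∫ x, |f k x - S.indicator 1 x| * density g x) atTop (𝓝 0) →
        ∀ c < areaK n κ R, ∀ᶠ k in atTop, c < ∫ x, gradLen g (f k) x * density g x) ∧
      (4 ≤ n → (∀ c, areaK n κ R < c → ∃ᶠ ε in 𝓝[>] (0 : ℝ),
          volOf g (nbhdOf g S ε) ≤ ENNReal.ofReal ((volOf g S).toReal + ε * c)) →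
        ∃ Φ : E n → E n, ContDiff ℝ 1 Φ ∧ InjOn Φ (ball 0 R) ∧
          volume (symmDiff S (Φ '' ball 0 R)) = 0 ∧
          (∀ v ∈ ball (0 : E n) R, ∀ a,
            gram g (Φ v) (fun i => fderiv ℝ Φ v a i) (fun i => fderiv ℝ Φ v a i) =
              ballForm κ v a) ∧
          (IsOpen S → interior (closure S) = S → S = Φ '' ball 0 R)) := by
  have hCH := isCHe hm hc hκ hs
  have hvol0 : 0 < vol (toCoeff g) S := by rw [vol_eq_volOf]; exact volOf_pos hm hS0
  have := Minkowski.finite_compacts hCH.metric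
  have hV : 0 < (volOf g S).toReal := by
    rw [← vol_eq_volOf]
    obtain ⟨R, hR⟩ := hSb.subset_closedBall (0 : E n)
    exact ENNReal.toReal_pos hvol0.ne'
      (measure_ne_top_of_subset hR (isCompact_closedBall (0 : E n) R).measure_ne_top)
  obtain ⟨R, hR, hvR, hI⟩ := exists_radius (n := n) hP (by omega) hκ hV
  refine ⟨R, hR, hvR, fun c hc' => ?_, fun f hf ⟨K, hK, hSK, hsK⟩ h01 hlim c hc' => ?_, fun hn4 heq => ?_⟩
  · simpa only [vol_eq_volOf, nbhd_eq] using
      Full.minkStmt hP n (toCoeff g) (-κ) (by omega) hCH hglob S hSm hSb hvol0 c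
        (by rw [vol_eq_volOf, hI]; exact hc')
  · have h := Full.perimeter_of_globalIneq hP (by omega) hCH hglob hK hSm hSK
      (fun k => (hf k).of_le (by simp)) hsK h01
      (by simpa only [integral_vol hm] using hlim) (c := c) (by rw [vol_eq_volOf, hI]; exact hc')
    filter_upwards [h] with k hk
    rw [tvar, integral_vol hm] at hk
    refine hk.trans_eq ?_
    congr 1; funext x
    rw [gnorm_grad hm (((hf k).differentiable (by simp)) x)]
  · obtain ⟨Φ, R', hR', hΦ, hinj, hvR', hae, hmet, hopen⟩ :=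
      hRigid n (toCoeff g) (-κ) hn4 hCH S hSm hSb hvol0 (by
        intro c hc'
        rw [vol_eq_volOf, hI] at hc'
        simpa only [vol_eq_volOf, nbhd_eq] using heq c hc')
    have hRR : R' = R := by
      have hrad := (hP n (-κ) (by omega) (by linarith)).2.2.2.1
      rw [← hrad R' hR'.le, ← hrad R hR.le, ← volK_eq hκ hR.le, hvR', hvR, vol_eq_volOf]
    subst hRR
    refine ⟨Φ, hΦ, hinj, ?_, fun v hv a => ?_, hopen⟩
    · have hm' : Measurable fun x => ENNReal.ofReal (dens (toCoeff g) x) :=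
        hCH.metric.contDiff_dens.continuous.measurable.ennreal_ofReal
      have hac : (volume : Measure (E n)) ≪ vol (toCoeff g) :=
        withDensity_absolutelyContinuous' hm'.aemeasurable (Eventually.of_forall fun x => by
          simp [hCH.metric.dens_pos x])
      exact measure_symmDiff_eq_zero_iff.2 (hac.ae_eq hae)
    · rw [gram_eq, ballForm_eq hκ]; exact hmet v hv a

end

end Vale.Agent.P219.CH.Coord
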