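import Vale.Agent.P219.CH.Interfaces

/-!
P219, the full inequality for `Sec ≤ -e`, `e ≥ 0`: definitions.

`m = n - 1`. For a base point `z` and `0 < a`, `φ = (cosh (√e r) - 1) / e`, `ψ = φ + a`,
`w = √(a (2 - e a)) / ψ` and `omg` is the comparison map to the unit sphere of `T_z M × ℝ`.
-/

namespace Vale.Agent.P219.CH.Full

open MeasureTheory Filter Topology Set
open scoped ContDiff RealInnerProductSpace

noncomputable section

variable {n : ℕ}

/-! ### Curvature and model -/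

/-- Sectional curvature at most `-e`. -/
def SecLe (G : Coeff n) (e : ℝ) : Prop :=
  ∀ x u v, G x (curv G x u v v) u ≤ -e * (G x u u * G x v v - G x u v ^ 2)

/-- A Cartan-Hadamard metric with sectional curvature at most `-e ≤ 0`. -/
structure IsCHe (G : Coeff n) (e : ℝ) : Prop where
  metric : IsMetric G
  complete : GeodComplete G
  sec : SecLe G e
  nonneg : 0 ≤ e

/-- `sinh √x / √x`, continued by `1 + x / 6`. -/
def sd (x : ℝ) : ℝ := if 0 < x then Real.sinh (Real.sqrt x) / Real.sqrt x else 1 + x / 6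

/-- `(cosh (√(e ρ)) - 1) / e` as a function of `ρ = r²`. -/
def phiR (e ρ : ℝ) : ℝ := ρ / 2 * sd (e * ρ / 4) ^ 2

/-- `sinh (√e r) / √e`. -/
def sn (e r : ℝ) : ℝ := r * sd (e * r ^ 2)

/-- `cosh (√e r)`. -/
def cs (e r : ℝ) : ℝ := Real.cosh (Real.sqrt e * r)

/-- Boundary area of a ball of the space form. -/
def areaM (n : ℕ) (e r : ℝ) : ℝ := n * omega n * sn e r ^ (n - 1)

/-- Volume of a ball of the space form. -/
def volM (n : ℕ) (e r : ℝ) : ℝ := ∫ t in (0 : ℝ)..r, areaM n e t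

/-- The radius of the ball of volume `V` of the space form. -/
def radM (n : ℕ) (e V : ℝ) : ℝ := sInf {r | 0 ≤ r ∧ V ≤ volM n e r}

/-- The isoperimetric profile of the space form. -/
def profE (n : ℕ) (e V : ℝ) : ℝ := areaM n e (radM n e V)

/-! ### Dimensional constants -/

/-- `m = n - 1`. -/
def md (n : ℕ) : ℝ := (n : ℝ) - 1

/-- `q = 2m/(m-2)`. -/
def qe (n : ℕ) : ℝ := 2 * md n / (md n - 2)

/-- `c = 4(m-1)/(m-2)`. -/
def cc (n : ℕ) : ℝ := 4 * (md n - 1) / (md n - 2)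

/-- `α = (m-2)/2`. -/
def al (n : ℕ) : ℝ := (md n - 2) / 2

/-- The area of the unit sphere of dimension `m = n - 1`. -/
def sphA (n : ℕ) : ℝ := n * omega n

/-- The sharp constant `m (m - 1) |S^m|^(2/m)`. -/
def YS (n : ℕ) : ℝ := md n * (md n - 1) * sphA n ^ (2 / md n)

/-- The potential bound `(m-1)/m (h₀² - e m²)`. -/
def lam (n : ℕ) (e h₀ : ℝ) : ℝ := (md n - 1) / md n * (h₀ ^ 2 - e * md n ^ 2)

/-! ### The comparison map -/

variable {G : Coeff n} (Γ : Geo G) (e : ℝ)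

/-- The squared distance. -/
def sqd (z y : E n) : ℝ := G z (Γ.logm z y) (Γ.logm z y)

/-- `φ`. -/
def phi (z y : E n) : ℝ := phiR e (sqd Γ z y)

/-- `sn r · θ` in `T_z M`. -/
def xi (z y : E n) : E n := sd (e * sqd Γ z y) • Γ.logm z y

/-- The gradient of `φ` in `y`. -/
def gradPhi (z y : E n) : E n := sd (e * sqd Γ z y) • Γ.V z y

/-- The analytic comparison facts for `Sec ≤ -e`. -/
structure Comp : Prop where
  dist_comm : ∀ x y, Γ.dist x y = Γ.dist y x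
  phi_c1 : ContDiff ℝ 1 fun q : E n × E n => phi Γ e q.1 q.2
  xi_c1 : ContDiff ℝ 1 fun q : E n × E n => xi Γ e q.1 q.2
  grad_c1 : ContDiff ℝ 1 fun q : E n × E n => gradPhi Γ e q.1 q.2
  phi_nonneg : ∀ z y, 0 ≤ phi Γ e z y
  xi_sq : ∀ z y, G z (xi Γ e z y) (xi Γ e z y) = 2 * phi Γ e z y + e * phi Γ e z y ^ 2
  grad_sq : ∀ z y,
    G y (gradPhi Γ e z y) (gradPhi Γ e z y) = 2 * phi Γ e z y + e * phi Γ e z y ^ 2
  fderiv_right : ∀ z y w, fderiv ℝ (phi Γ e z) y w = G y (gradPhi Γ e z y) w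
  fderiv_left : ∀ z y w, fderiv ℝ (fun z' => phi Γ e z' y) z w = -G z (xi Γ e z y) w
  hess : ∀ z y w,
    (1 + e * phi Γ e z y) * G y w w ≤ G y (covd G (gradPhi Γ e z) y w) w
  rauch : ∀ z y w,
    G z (fderiv ℝ (xi Γ e z) y w) (fderiv ℝ (xi Γ e z) y w) -
      e * fderiv ℝ (phi Γ e z) y w ^ 2 ≤ G y w w

/-- `ψ = φ + a`. -/
def psi (z : E n) (a : ℝ) (y : E n) : ℝ := phi Γ e z y + a

/-- `k = √(a (2 - e a))`. -/
def kk (a : ℝ) : ℝ := Real.sqrt (a * (2 - e * a))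

/-- `w = k / ψ`. -/
def wgt (z : E n) (a : ℝ) (y : E n) : ℝ := kk e a / psi Γ e z a y

/-- The last coordinate of the comparison map. -/
def om0 (z : E n) (a : ℝ) (y : E n) : ℝ := ((1 - e * a) * phi Γ e z y - a) / psi Γ e z a y

/-- The comparison map to the unit sphere of `T_z M × ℝ`. -/
def omg (z : E n) (a : ℝ) (y : E n) : E n × ℝ := (wgt Γ e z a y • xi Γ e z y, om0 Γ e z a y)

/-- The unit sphere of `T_z M × ℝ`. -/
def SphUnit (G : Coeff n) (z : E n) (p : E n × ℝ) : Prop := G z p.1 p.1 + p.2 ^ 2 = 1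

/-- The coordinate `⟨omg, p⟩`. -/
def sph (z : E n) (a : ℝ) (p : E n × ℝ) (y : E n) : ℝ :=
  G z (omg Γ e z a y).1 p.1 + (omg Γ e z a y).2 * p.2

/-! ### Unit-bundle measures -/

/-- The tangential divergence. -/
def divT (G : Coeff n) (X : E n → E n) (p : E n × E n) : ℝ :=
  divg G X p.1 - G p.1 (covd G X p.1 p.2) p.2

/-- The tangential product of two gradients. -/
def tgp (G : Coeff n) (u v : E n → ℝ) (p : E n × E n) : ℝ :=
  fderiv ℝ u p.1 (grad G v p.1) - fderiv ℝ u p.1 p.2 * fderiv ℝ v p.1 p.2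

/-- The square of the tangential gradient. -/
def tgsq (G : Coeff n) (u : E n → ℝ) (p : E n × E n) : ℝ := tgp G u u p

/-- A finite measure on the unit bundle with bounded mean curvature. -/
structure Varifold (G : Coeff n) (h₀ : ℝ) where
  μ : Measure (E n × E n)
  finite : IsFiniteMeasure μ
  unit : ∀ᵐ p ∂μ, G p.1 p.2 p.2 = 1
  h : E n → ℝ
  h_cont : Continuous h
  h_le : ∀ x, |h x| ≤ h₀
  first : ∀ X : E n → E n, ContDiff ℝ 1 X → HasCompactSupport X →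
    ∫ p, divT G X p ∂μ = ∫ p, h p.1 * G p.1 (X p.1) p.2 ∂μ

attribute [instance] Varifold.finite

/-- A varifold of density at least one. -/
structure Datum (h₀ : ℝ) extends Varifold G h₀ where
  ne_zero : μ ≠ 0
  dens : ∀ᵐ p ∂μ, ∀ θ < 1, ∀ᶠ r in 𝓝[>] (0 : ℝ),
    θ * omega (n - 1) * r ^ (n - 1) ≤ μ.real {p' | Γ.dist p.1 p'.1 ≤ r}

variable {Γ} {h₀ : ℝ}

/-- The quadratic form `∫ c |∇u|² + λ u²`. -/
def energy (μ : Measure (E n × E n)) (G : Coeff n) (e h₀ : ℝ) (u : E n → ℝ) : ℝ :=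
  ∫ p, (cc n * tgsq G u p + lam n e h₀ * u p.1 ^ 2) ∂μ

/-- Normalised test functions. -/
structure Adm (μ : Measure (E n × E n)) (u : E n → ℝ) : Prop where
  c1 : ContDiff ℝ 1 u
  supp : HasCompactSupport u
  nonneg : ∀ x, 0 ≤ u x
  norm : ∫ p, u p.1 ^ qe n ∂μ = 1

/-- The infimum of the quotient. -/
def Yinf (μ : Measure (E n × E n)) (G : Coeff n) (e h₀ : ℝ) : ℝ :=
  sInf (energy μ G e h₀ '' {u | Adm μ u})

variable (Γ)

/-- Balanced parameters. -/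
structure Balanced (μ : Measure (E n × E n)) (u : E n → ℝ) (z : E n) (a : ℝ) : Prop where
  pos : 0 < a
  small : e * a < 1
  zero : ∀ p, SphUnit G z p → ∫ q, u q.1 ^ qe n * sph Γ e z a p q.1 ∂μ = 0

/-- `v = u / w^α`. -/
def vfun (z : E n) (a : ℝ) (u : E n → ℝ) (y : E n) : ℝ := u y / wgt Γ e z a y ^ al n

/-- The gap `∫ w^(2α) |∇v|²`. -/
def gap (μ : Measure (E n × E n)) (z : E n) (a : ℝ) (u : E n → ℝ) : ℝ :=
  ∫ p, wgt Γ e z a p.1 ^ (2 * al n) * tgsq G (vfun Γ e z a u) p ∂μ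

/-- The kernel `(ρ / (ρ² + d²))^m`. -/
def kern (n : ℕ) (ρ d : ℝ) : ℝ := (ρ / (ρ ^ 2 + d ^ 2)) ^ (n - 1)

/-- The potential `d ∫₀^ρ kern r d dr / r`. -/
def rad (n : ℕ) (ρ d : ℝ) : ℝ :=
  d * ∫ r in (0 : ℝ)..ρ, r ^ (n - 2) / (r ^ 2 + d ^ 2) ^ (n - 1)

/-! ### Smooth functions and their limits -/

/-- Competitors. -/
structure Cls (f : E n → ℝ) : Prop where
  c1 : ContDiff ℝ 1 f
  supp : HasCompactSupport f
  mem : ∀ x, f x ∈ Icc (0 : ℝ) 1

/-- The intermediate values. -/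
def midv (G : Coeff n) (f : E n → ℝ) : ℝ := ∫ x, f x * (1 - f x) ∂vol G

/-- The weighted mass. -/
def wmass (G : Coeff n) (η f : E n → ℝ) : ℝ := ∫ x, η x * f x ∂vol G

/-- The smooth inequality, for all supports. -/
def GlobalIneq (G : Coeff n) (e : ℝ) : Prop :=
  ∀ η : E n → ℝ, Cls η → ∀ δ : ℝ, 0 < δ → ∃ L : ℝ, 0 ≤ L ∧ ∀ f : E n → ℝ, Cls f →
    profE n e (wmass G η f) ≤ tvar G f + L * midv G f + δ

/-- A weak limit of a sequence of competitors. -/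
structure Pre (G : Coeff n) (f : ℕ → E n → ℝ) where
  l : Filter ℕ
  ne : l.NeBot
  le : l ≤ atTop
  μ : Measure (E n × E n)
  finite : IsFiniteMeasure μ
  unit : ∀ᵐ p ∂μ, G p.1 p.2 p.2 = 1
  g : E n → ℝ
  g_meas : Measurable g
  g_mem : ∀ x, g x ∈ Icc (0 : ℝ) 1
  A : ℝ
  tvar_lim : Tendsto (fun k => tvar G (f k)) l (𝓝 A)
  mass_le : μ.real univ ≤ A
  mu_lim : ∀ F : E n × E n → ℝ, Continuous F → HasCompactSupport F →
    Tendsto (fun k => ∫ x, F (x, normal G (f k) x) ∂surf G (f k)) l (𝓝 (∫ p, F p ∂μ))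
  g_lim : ∀ φ : E n → ℝ, Continuous φ → HasCompactSupport φ →
    Tendsto (fun k => ∫ x, φ x * f k x ∂vol G) l (𝓝 (∫ x, φ x * g x ∂vol G))

attribute [instance] Pre.finite Pre.ne

/-- Almost minimisers of the penalised deficit. -/
structure Almost (G : Coeff n) (e : ℝ) (η : E n → ℝ) (f : ℕ → E n → ℝ) where
  L : ℕ → ℝ
  ε : ℕ → ℝ
  L_one : ∀ k, 1 ≤ L k
  ε_lim : Tendsto ε atTop (𝓝 0)
  cls : ∀ k, Cls (f k)
  mid_lim : Tendsto (fun k => L k * midv G (f k)) atTop (𝓝 0)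
  bounded : ∃ B, ∀ k, tvar G (f k) ≤ B
  min : ∀ k, ∀ f' : E n → ℝ, Cls f' →
    tvar G (f k) + L k * midv G (f k) - profE n e (wmass G η (f k)) ≤
      tvar G f' + L k * midv G f' - profE n e (wmass G η f') + ε k

/-- The metric of the space form in normal coordinates. -/
def modelSq (e : ℝ) (v a : E n) : ℝ :=
  sd (e * ‖v‖ ^ 2) ^ 2 * ‖a‖ ^ 2 + (1 - sd (e * ‖v‖ ^ 2) ^ 2) * (⟪v, a⟫ ^ 2 / ‖v‖ ^ 2)

end

end Vale.Agent.P219.CH.Full
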