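import Vale.Agent.P219.CH.Full.Coord
import Vale.Agent.P219.CH.CoordPerimeter

/-!
P219, full inequality: in every dimension and for every `κ ≤ 0` there is a complete metric on `ℝⁿ`
of constant curvature `κ`. It is `dt² + exp (2 b t) |dy|²` with `b = √(-κ)`.
-/

namespace Vale.Agent.P219.CH.Coord.Horo

open MeasureTheory Finset
open scoped ContDiff

noncomputable section

variable {n : ℕ} (o : Fin n) (b : ℝ)

/-- The coefficient of `dt`. -/
def hd (i : Fin n) : ℝ := if i = o then 1 else 0

/-- The Euclidean form of the directions other than `o`. -/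
def pj (i j : Fin n) : ℝ := if i = j ∧ i ≠ o then 1 else 0

/-- The factor of `|dy|²`. -/
def fac (x : Pt n) : ℝ := Real.exp (2 * b * x o)

/-- The horospherical form of the metric of constant curvature `-b²`. -/
def met (x : Pt n) (i j : Fin n) : ℝ := hd o i * hd o j + fac o b x * pj o i j

lemma pj_comm (i j : Fin n) : pj o i j = pj o j i := by
  unfold pj; by_cases h : i = j
  · subst h; rfl
  · simp [h, Ne.symm h]

@[simp] lemma pj_left (j : Fin n) : pj o o j = 0 := by simp [pj]

@[simp] lemma pj_right (i : Fin n) : pj o i o = 0 := by rw [pj_comm, pj_left]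

@[simp] lemma hd_self : hd o o = 1 := by simp [hd]

lemma hd_ne {i : Fin n} (h : i ≠ o) : hd o i = 0 := by simp [hd, h]

lemma sum_hd (f : Fin n → ℝ) : ∑ p, hd o p * f p = f o := by simp [hd]

lemma sum_pj (k : Fin n) (f : Fin n → ℝ) : ∑ p, pj o k p * f p = (1 - hd o k) * f k := by
  by_cases h : k = o
  · subst h; simp
  · simp [pj, hd, h]

lemma sum_form (a c : ℝ) (k : Fin n) (f : Fin n → ℝ) :
    ∑ p, (a * hd o p + c * pj o k p) * f p = a * f o + c * ((1 - hd o k) * f k) := by
  rw [← sum_hd o f, ← sum_pj o k f, mul_sum, mul_sum, ← sum_add_distrib]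
  exact sum_congr rfl fun p _ => by ring

lemma metric : Metric (met o b) := by
  refine ⟨fun i j => ?_, fun x i j => by simp only [met, pj_comm o i j]; ring, fun x u hu => ?_⟩
  · exact contDiff_const.add ((Real.contDiff_exp.comp
      (contDiff_const.mul (EuclideanSpace.proj (𝕜 := ℝ) o).contDiff)).mul contDiff_const)
  · obtain ⟨i, hi⟩ := Function.ne_iff.1 hu
    have h : ∀ i, ∑ j, met o b x i j * u i * u j =
        hd o i * (u o * u i) + fac o b x * ((1 - hd o i) * (u i * u i)) := by
      intro i
      simp only [met, mul_assoc]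
      rw [sum_form o (hd o i) (fac o b x) i (fun j => u i * u j)]
      ring
    simp only [h]
    have he : 0 < fac o b x := Real.exp_pos _
    refine sum_pos' (fun j _ => ?_) ⟨i, mem_univ i, ?_⟩
    · by_cases hj : j = o
      · subst hj; simpa using mul_self_nonneg (u j)
      · simpa [hd_ne o hj] using mul_nonneg he.le (mul_self_nonneg (u j))
    · by_cases hj : i = o
      · subst hj; simpa using mul_self_pos.2 hi
      · simpa [hd_ne o hj] using mul_pos he (mul_self_pos.2 hi)

lemma ginv_eq (x : Pt n) (i j : Fin n) :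
    ginv (met o b) x i j = hd o i * hd o j + (fac o b x)⁻¹ * pj o i j := by
  have he : fac o b x ≠ 0 := (Real.exp_pos _).ne'
  have h : (Matrix.of (met o b x))⁻¹ =
      Matrix.of fun i j => hd o i * hd o j + (fac o b x)⁻¹ * pj o i j := by
    refine Matrix.inv_eq_right_inv ?_
    ext i j
    simp only [Matrix.mul_apply, Matrix.of_apply, met, Matrix.one_apply]
    rw [sum_form o (hd o i) (fac o b x) i (fun k => hd o k * hd o j + (fac o b x)⁻¹ * pj o k j)]
    by_cases hi : i = o
    · subst hi; simp [hd, eq_comm]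
    · by_cases hij : i = j
      · subst hij; simp [hd, pj, hi, he]
      · simp [hd, pj, hi, hij]
  rw [ginv, h]; rfl

lemma pd_affine (c d : ℝ) (x : Pt n) (i : Fin n) :
    pd (fun y => c + fac o b y * d) x i = 2 * b * fac o b x * d * hd o i := by
  have h : HasDerivAt (fun t : ℝ => c + Real.exp (2 * b * (x o + t * hd o i)) * d)
      (Real.exp (2 * b * (x o + 0 * hd o i)) * (2 * b * (1 * hd o i)) * d) 0 :=
    ((((((hasDerivAt_id (0 : ℝ)).mul_const (hd o i)).const_add (x o)).const_mul (2 * b)).exp).mul_const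
      d).const_add c
  rw [pd, lineDeriv]
  have hfun : (fun t : ℝ => c + fac o b (x + t • EuclideanSpace.single i 1) * d) =
      fun t : ℝ => c + Real.exp (2 * b * (x o + t * hd o i)) * d := by
    funext t
    simp [fac, hd, PiLp.single_apply, eq_comm]
  rw [hfun, h.deriv]
  simp [fac]; ring

lemma christ_eq (x : Pt n) (k i j : Fin n) :
    christ (met o b) x k i j =
      b * (hd o i * pj o k j + hd o j * pj o k i) - b * fac o b x * hd o k * pj o i j := by
  have he : fac o b x ≠ 0 := (Real.exp_pos _).ne'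
  simp only [christ, ginv_eq, met, pd_affine]
  rw [sum_form o (hd o k) (fac o b x)⁻¹ k]
  by_cases hk : k = o
  · subst hk; simp; ring
  · simp [hd_ne o hk]; field_simp

lemma pd_christ (x : Pt n) (k i j p : Fin n) :
    pd (fun y => christ (met o b) y k i j) x p =
      -(2 * b ^ 2 * fac o b x * hd o k * pj o i j * hd o p) := by
  have : (fun y => christ (met o b) y k i j) = fun y =>
      b * (hd o i * pj o k j + hd o j * pj o k i) + fac o b y * (-(b * hd o k * pj o i j)) := by
    funext y; rw [christ_eq]; ring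
  rw [this, pd_affine]; ring

lemma sum_christ (x : Pt n) (j k : Fin n) (f : Fin n → ℝ) :
    ∑ p, f p * christ (met o b) x p j k =
      b * (hd o j * ((1 - hd o k) * f k) + hd o k * ((1 - hd o j) * f j)) -
        b * fac o b x * pj o j k * f o := by
  rw [← sum_pj o k f, ← sum_pj o j f, ← sum_hd o f]
  simp only [mul_sum, ← sum_add_distrib, ← sum_sub_distrib]
  refine sum_congr rfl fun p _ => ?_
  rw [christ_eq, pj_comm o p k, pj_comm o p j]
  ring

lemma riem_eq (x : Pt n) (l i j k : Fin n) :
    riem (met o b) x l i j k = -b ^ 2 *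
      ((if i = l then 1 else 0) * met o b x j k - (if j = l then 1 else 0) * met o b x i k) := by
  rw [riem, sum_sub_distrib, sum_christ, sum_christ, pd_christ, pd_christ]
  simp only [christ_eq, met]
  have hδ : ∀ i : Fin n, ((if i = l then 1 else 0) : ℝ) = hd o i * hd o l + pj o i l := by
    intro i
    by_cases h : i = l
    · subst h; by_cases hi : i = o <;> simp [hd, pj, hi]
    · by_cases hi : i = o
      · subst hi; simp [hd, pj, h, Ne.symm h]
      · simp [hd, pj, h, hi]
  rw [hδ, hδ, pj_comm o l i, pj_comm o l j, pj_comm o l k]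
  by_cases hi : i = o <;> by_cases hj : j = o <;> by_cases hk : k = o <;> by_cases hl : l = o <;>
    simp [hd, hi, hj, hk, hl] <;> (try simp only [pj_comm o j i]) <;> ring

lemma secNum_eq (x : Pt n) (u v : Fin n → ℝ) :
    secNum (met o b) x u v = -b ^ 2 * (gram (met o b) x u u * gram (met o b) x v v -
      gram (met o b) x u v ^ 2) := by
  set G := met o b x with hG
  have hsym : ∀ i j, G i j = G j i := (metric o b).2.1 x
  have hgr : ∀ w z : Fin n → ℝ, gram (met o b) x w z = ∑ i, (∑ j, G i j * z j) * w i := fun w z => by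
    simp only [gram, sum_mul, hG]
    exact sum_congr rfl fun i _ => sum_congr rfl fun j _ => by ring
  have h1 : ∀ i j k, ∑ l, ∑ m, G l m * riem (met o b) x l i j k * u i * v j * v k * u m =
      -b ^ 2 * ((∑ m, G i m * u m) * (G j k * v k) - (∑ m, G j m * u m) * (G i k * v k)) *
        (u i * v j) := by
    intro i j k
    simp only [riem_eq, ← hG]
    have : ∀ i, (∑ m, G i m * u m) = ∑ l, ∑ m, (if i = l then 1 else 0) * (G l m * u m) := by
      intro i; simp [ite_mul]
    rw [this i, this j]
    simp only [sum_mul, mul_sum, ← sum_sub_distrib]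
    exact sum_congr rfl fun l _ => sum_congr rfl fun m _ => by ring
  have h2 : secNum (met o b) x u v = ∑ i, ∑ j, -b ^ 2 *
      ((∑ m, G i m * u m) * (∑ k, G j k * v k) - (∑ m, G j m * u m) * (∑ k, G i k * v k)) *
        (u i * v j) := by
    simp only [secNum, ← hG, h1]
    refine sum_congr rfl fun i _ => sum_congr rfl fun j _ => ?_
    rw [← sum_mul, ← mul_sum, sum_sub_distrib, ← mul_sum, ← mul_sum]
  rw [h2, hgr, hgr, hgr]
  have hvu : (∑ i, (∑ j, G i j * v j) * u i) = ∑ j, (∑ m, G j m * u m) * v j := by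
    simp only [sum_mul]; rw [sum_comm]
    exact sum_congr rfl fun i _ => sum_congr rfl fun j _ => by rw [hsym j i]; ring
  have hsq : (∑ i, (∑ j, G i j * v j) * u i) ^ 2 =
      (∑ i, (∑ j, G i j * v j) * u i) * ∑ j, (∑ m, G j m * u m) * v j := by rw [← hvu, sq]
  rw [hsq]
  generalize hA : (fun i => ∑ m, G i m * u m) = A
  generalize hB : (fun i => ∑ m, G i m * v m) = B
  have hA' : ∀ i, ∑ m, G i m * u m = A i := fun i => congrFun hA i
  have hB' : ∀ i, ∑ m, G i m * v m = B i := fun i => congrFun hB i
  simp only [hA', hB']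
  rw [sum_mul_sum, sum_mul_sum, ← sum_sub_distrib, mul_sum]
  refine sum_congr rfl fun i _ => ?_
  rw [← sum_sub_distrib, mul_sum]
  exact sum_congr rfl fun j _ => by ring

lemma accel (x : Pt n) (w : Fin n → ℝ) (k : Fin n) :
    ∑ i, ∑ j, christ (met o b) x k i j * w i * w j =
      2 * b * w o * ((1 - hd o k) * w k) -
        b * fac o b x * hd o k * ∑ i, (1 - hd o i) * w i ^ 2 := by
  have h : ∀ i, ∑ j, christ (met o b) x k i j * w i * w j =
      b * (hd o i * w i) * ((1 - hd o k) * w k) + b * w o * (pj o k i * w i) -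
        b * fac o b x * hd o k * ((1 - hd o i) * w i ^ 2) := by
    intro i
    have e : ∀ j, christ (met o b) x k i j * w i * w j =
        b * (hd o i * w i) * (pj o k j * w j) + b * (pj o k i * w i) * (hd o j * w j) -
          b * fac o b x * hd o k * w i * (pj o i j * w j) := fun j => by rw [christ_eq]; ring
    simp only [e, sum_add_distrib, sum_sub_distrib, ← mul_sum, sum_pj, sum_hd]
    ring
  simp only [h, sum_add_distrib, sum_sub_distrib, ← mul_sum, ← sum_mul, sum_hd, sum_pj]
  ring

lemma complete (hb : 0 < b) : Complete (met o b) := by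
  intro x v
  set t₀ := x o with ht₀
  set a := v o with ha
  set u₀ := Real.exp (b * t₀) with hu₀
  have hu₀p : 0 < u₀ := Real.exp_pos _
  set S := ∑ i, (1 - hd o i) * v i ^ 2 with hSd
  have hS : 0 ≤ S := sum_nonneg fun i _ => by
    by_cases hi : i = o
    · subst hi; simp
    · simpa [hd_ne o hi] using sq_nonneg (v i)
  set c := Real.sqrt (a ^ 2 + u₀ ^ 2 * S) with hcd
  have hc2 : c ^ 2 = a ^ 2 + u₀ ^ 2 * S := Real.sq_sqrt (by positivity)
  set r := a / c with hrd
  have hr : c ^ 2 * (1 - r ^ 2) = u₀ ^ 2 * S := by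
    rcases eq_or_ne c 0 with h | h
    · rw [h] at hc2 ⊢
      nlinarith [sq_nonneg a, mul_nonneg (sq_nonneg u₀) hS]
    · rw [hrd]; field_simp; linarith
  have hr1 : r ^ 2 ≤ 1 := by
    rcases eq_or_ne c 0 with h | h
    · simp [hrd, h]
    · have : 0 < c ^ 2 := by positivity
      nlinarith [mul_nonneg (sq_nonneg u₀) hS]
  have hcr : c * r = a := by
    rcases eq_or_ne c 0 with h | h
    · rw [h] at hc2
      rw [h, zero_mul]
      nlinarith [sq_nonneg a, mul_nonneg (sq_nonneg u₀) hS]
    · rw [hrd]; field_simp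
  set U : ℝ → ℝ := fun s => u₀ * (Real.cosh (b * c * s) + r * Real.sinh (b * c * s)) with hUd
  set U' : ℝ → ℝ := fun s => b * c * (u₀ * (Real.sinh (b * c * s) + r * Real.cosh (b * c * s)))
    with hU'd
  have hU : ∀ s, 0 < U s := fun s => by
    refine mul_pos hu₀p ?_
    have h1 : |r| ≤ 1 := abs_le_one_iff_mul_self_le_one.2 (by rwa [← sq])
    have h2 : |Real.sinh (b * c * s)| < Real.cosh (b * c * s) := by
      rw [Real.abs_sinh, ← Real.cosh_abs]; exact Real.sinh_lt_cosh _
    have h3 : |r * Real.sinh (b * c * s)| ≤ |Real.sinh (b * c * s)| := by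
      rw [abs_mul]; exact mul_le_of_le_one_left (abs_nonneg _) h1
    linarith [neg_abs_le (r * Real.sinh (b * c * s))]
  have hdU : ∀ s, HasDerivAt U (U' s) s := fun s => by
    have := (((hasDerivAt_id s).const_mul (b * c)).cosh.add
      (((hasDerivAt_id s).const_mul (b * c)).sinh.const_mul r)).const_mul u₀
    refine this.congr_deriv ?_
    simp only [hU'd, id, mul_one]; ring
  have hdU' : ∀ s, HasDerivAt U' ((b * c) ^ 2 * U s) s := fun s => by
    have := ((((hasDerivAt_id s).const_mul (b * c)).sinh.add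
      (((hasDerivAt_id s).const_mul (b * c)).cosh.const_mul r)).const_mul u₀).const_mul (b * c)
    refine this.congr_deriv ?_
    simp only [hUd, id, mul_one]; ring
  have hcons : ∀ s, (b * c) ^ 2 * U s ^ 2 - U' s ^ 2 = b ^ 2 * u₀ ^ 4 * S := fun s => by
    have h := Real.cosh_sq (b * c * s)
    simp only [hUd, hU'd]
    linear_combination b ^ 2 * u₀ ^ 2 * c ^ 2 * (1 - r ^ 2) * h + b ^ 2 * u₀ ^ 2 * hr
  have hcont : ∀ p : ℝ, Continuous fun s => p / U s ^ 2 := fun p =>
    continuous_const.div ((continuous_iff_continuousAt.2 fun s => (hdU s).continuousAt).pow 2)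
      fun s => pow_ne_zero _ (hU s).ne'
  refine ⟨fun s => WithLp.toLp 2 fun k =>
      if k = o then Real.log (U s) / b else x k + ∫ σ in (0 : ℝ)..s, u₀ ^ 2 * v k / U σ ^ 2,
    fun s => WithLp.toLp 2 fun k => if k = o then U' s / (b * U s) else u₀ ^ 2 * v k / U s ^ 2,
    ?_, ?_, fun s k => ⟨?_, ?_⟩⟩
  · ext k
    by_cases hk : k = o
    · subst hk; simp [hUd, hu₀, ht₀, hb.ne']
    · simp [hk]
  · ext k
    by_cases hk : k = o
    · subst hk
      simp [hUd, hU'd]
      field_simp
      linear_combination hcr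
    · simp [hk, hUd]; field_simp
  · by_cases hk : k = o
    · subst hk
      simpa [div_div, mul_comm] using ((hdU s).log (hU s).ne').div_const b
    · simpa [hk] using
        ((hcont (u₀ ^ 2 * v k)).integral_hasStrictDerivAt 0 s).hasDerivAt.const_add (x k)
  · rw [accel]
    have hfac : ∀ z : Pt n, z o = Real.log (U s) / b → fac o b z = U s ^ 2 := by
      intro z hz
      rw [fac, hz, show 2 * b * (Real.log (U s) / b) = 2 * Real.log (U s) by field_simp,
        ← Real.log_rpow (hU s), Real.exp_log (by have := hU s; positivity)]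
      norm_num
    rw [hfac _ (by simp)]
    have hsum : ∑ i, (1 - hd o i) * (WithLp.toLp 2 fun k : Fin n =>
        if k = o then U' s / (b * U s) else u₀ ^ 2 * v k / U s ^ 2) i ^ 2 =
        u₀ ^ 4 * S / U s ^ 4 := by
      rw [hSd, mul_sum, sum_div]
      refine sum_congr rfl fun i _ => ?_
      by_cases hi : i = o
      · subst hi; simp
      · simp [hi, hd_ne o hi]; ring_nf
    rw [hsum]
    by_cases hk : k = o
    · subst hk
      simp only [hd_self, sub_self, zero_mul, mul_zero, if_true]
      refine ((hdU' s).div ((hdU s).const_mul b) (mul_ne_zero hb.ne' (hU s).ne')).congr_deriv ?_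
      have := (hU s).ne'
      field_simp
      linear_combination hcons s
    · simp only [hd_ne o hk, sub_zero, one_mul, hk, if_false, if_true, mul_zero, zero_mul]
      refine ((hasDerivAt_const s (u₀ ^ 2 * v k)).div ((hdU s).pow 2)
        (pow_ne_zero _ (hU s).ne')).congr_deriv ?_
      have := (hU s).ne'
      simp only [Nat.cast_ofNat, Nat.add_one_sub_one, pow_one, Pi.pow_apply]
      field_simp
      ring

end

end Vale.Agent.P219.CH.Coord.Horo

namespace Vale.Agent.P219.CH.Coord

/-- In every dimension there is a complete metric of constant curvature `κ ≤ 0`. -/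
theorem exists_spaceForm {n : ℕ} (hn : 0 < n) {κ : ℝ} (hκ : κ ≤ 0) :
    ∃ g : Pt n → Fin n → Fin n → ℝ, Metric g ∧ Complete g ∧
      ∀ x u v, secNum g x u v = κ * (gram g x u u * gram g x v v - gram g x u v ^ 2) := by
  rcases eq_or_lt_of_le hκ with rfl | hκ'
  · obtain ⟨hm, hc, -⟩ := cartanHadamard_id n
    refine ⟨_, hm, hc, fun x u v => ?_⟩
    simp [secNum, riem, christ, pd, lineDeriv]
  · refine ⟨Horo.met ⟨0, hn⟩ (Real.sqrt (-κ)), Horo.metric _ _,
      Horo.complete _ _ (Real.sqrt_pos.2 (by linarith)), fun x u v => ?_⟩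
    rw [Horo.secNum_eq, Real.sq_sqrt (by linarith), neg_neg]

end Vale.Agent.P219.CH.Coord
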