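import Vale.Agent.P219.CH.Full.CoordBridge
import Vale.Agent.P219.CH.Full.Witness

/-!
P219, full inequality: the statement of the hand-in, from the modules.
-/

namespace Vale.Agent.P219.CH.Coord

open MeasureTheory Filter Topology Set Bornology
open scoped ContDiff

noncomputable section

theorem final_of_modules (hGlobal : Full.GlobalStmt)
    (hThree : ∀ (G : Coeff 3) (e : ℝ), Full.IsCHe G e → Full.GlobalIneq G e)
    (hRigid : Full.RigidStmt) (hP : Full.ProfStmt) : ∀ n : ℕ, 3 ≤ n → ∀ κ : ℝ, κ ≤ 0 →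
    (∃ g₀ : Pt n → Fin n → Fin n → ℝ, Metric g₀ ∧ Complete g₀ ∧ ∀ x u v, secNum g₀ x u v =
      κ * (gram g₀ x u u * gram g₀ x v v - gram g₀ x u v ^ 2)) ∧
    ∀ g : Pt n → Fin n → Fin n → ℝ, Metric g → Complete g → SecAtMost g κ →
    ∀ S : Set (Pt n), MeasurableSet S → IsBounded S → 0 < volume S →
    ∃ R : ℝ, 0 < R ∧ volK n κ R = (volOf g S).toReal ∧
      (∀ c < areaK n κ R, ∀ᶠ ε in 𝓝[>] (0 : ℝ),
        ENNReal.ofReal ((volOf g S).toReal + ε * c) ≤ volOf g (nbhdOf g S ε)) ∧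
      (∀ f : ℕ → Pt n → ℝ, (∀ k, ContDiff ℝ ∞ (f k)) →
        (∃ K, IsCompact K ∧ S ⊆ K ∧ ∀ k, tsupport (f k) ⊆ K) →
        (∀ k x, f k x ∈ Icc (0 : ℝ) 1) →
        Tendsto (fun k => ∫ x, |f k x - S.indicator 1 x| * density g x) atTop (𝓝 0) →
        ∀ c < areaK n κ R, ∀ᶠ k in atTop, c < ∫ x, gradLen g (f k) x * density g x) ∧
      (4 ≤ n → (∀ c, areaK n κ R < c → ∃ᶠ ε in 𝓝[>] (0 : ℝ),
          volOf g (nbhdOf g S ε) ≤ ENNReal.ofReal ((volOf g S).toReal + ε * c)) →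
        ∃ Φ : Pt n → Pt n, ContDiff ℝ 1 Φ ∧ InjOn Φ (Metric.ball 0 R) ∧
          volume (symmDiff S (Φ '' Metric.ball 0 R)) = 0 ∧
          (∀ v ∈ Metric.ball (0 : Pt n) R, ∀ a,
            gram g (Φ v) (fun i => fderiv ℝ Φ v a i) (fun i => fderiv ℝ Φ v a i) =
              ballForm κ v a) ∧
          (IsOpen S → interior (closure S) = S → S = Φ '' Metric.ball 0 R)) :=
  fun n hn κ hκ => ⟨exists_spaceForm (by omega) hκ, fun g hm hc hs S hSm hSb hS0 =>
    full_of_modules (by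
      rcases Nat.lt_or_ge 3 n with h | h
      · exact hGlobal n _ _ h (isCHe hm hc hκ hs)
      · obtain rfl : n = 3 := by omega
        exact hThree _ _ (isCHe hm hc hκ hs))
      hRigid hP (by omega) hκ hm hc hs S hSm hSb hS0⟩

end

end Vale.Agent.P219.CH.Coord
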