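import Vale.Agent.P219.CH.Full.Statements
import Vale.Agent.P219.CH.Full.Tools
import Vale.Agent.P219.CH.Full.Comparison
import Vale.Agent.P219.CH.Full.Model.Profile
import Vale.Agent.P219.CH.Full.Minimiser.Basic
import Vale.Agent.P219.CH.Geo.Hadamard

/-!
P219, the full inequality: the smooth inequality `GlobalStmt` from the module statements.

A negative deficit produces almost minimisers, whose limit is a unit-bundle measure with mean
curvature bounded by the derivative of the profile. The area bound says that its mass is at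
least the profile, while it is at most the limit of the total variations.
-/

namespace Vale.Agent.P219.CH.Full

open MeasureTheory Filter Topology Set
open scoped ContDiff RealInnerProductSpace

noncomputable section

variable {n : ℕ} {G : Coeff n} {e : ℝ}

theorem Almost.tendsto_midv {η : E n → ℝ} {f : ℕ → E n → ℝ} (hA : Almost G e η f) :
    Tendsto (fun k => midv G (f k)) atTop (𝓝 0) :=
  squeeze_zero (fun k => Minimiser.midv_nonneg (hA.cls k))
    (fun k => le_mul_of_one_le_left (Minimiser.midv_nonneg (hA.cls k)) (hA.L_one k)) hA.mid_lim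

theorem two_le_md (hn : 3 ≤ n) : 2 ≤ md n := by
  have : (3 : ℝ) ≤ n := by exact_mod_cast hn
  simp only [md]; linarith

/-- The potential at the mean curvature of a sphere of radius `r`. -/
theorem lam_sphere (hn : 2 ≤ n) (he : 0 ≤ e) {r : ℝ} (hr : 0 < r) :
    lam n e (md n * cs e r / sn e r) = md n * (md n - 1) / sn e r ^ 2 := by
  have hs := (sn_pos he hr).ne'
  have hm : md n ≠ 0 := (one_sub_cast_pos hn).ne'
  rw [lam, div_pow, mul_pow, cs_sq he]
  field_simp
  ring

/-- The conclusion of the area bound at the mean curvature of a sphere of radius `r`. -/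
theorem areaM_le_of_area (hn : 3 ≤ n) (he : 0 ≤ e) {r M : ℝ} (hr : 0 < r) (hM : 0 ≤ M)
    (h : YS n ≤ lam n e (md n * cs e r / sn e r) * M ^ (2 / md n)) : areaM n e r ≤ M := by
  have hm := two_le_md hn
  have hs := sn_pos he hr
  have hA : 0 ≤ sphA n := mul_nonneg (Nat.cast_nonneg n) (Core.Mini.omega_pos n).le
  rw [lam_sphere (by omega) he hr, YS, div_mul_eq_mul_div, le_div_iff₀ (by positivity),
    mul_assoc] at h
  have h2 := le_of_mul_le_mul_left h (mul_pos (by linarith) (by linarith))
  have h3 : (sphA n * sn e r ^ md n) ^ (2 / md n) ≤ M ^ (2 / md n) := by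
    rwa [Real.mul_rpow hA (by positivity), ← Real.rpow_mul hs.le,
      show md n * (2 / md n) = ((2 : ℕ) : ℝ) by push_cast; field_simp, Real.rpow_natCast]
  have h4 := (Real.rpow_le_rpow_iff (by positivity) hM (by positivity)).1 h3
  rw [areaM, ← Real.rpow_natCast (sn e r) (n - 1), ← md_eq_cast (by omega : 1 ≤ n)]
  exact h4

/-- The smooth inequality from the area bound for the given metric. -/
theorem globalIneq_of_area (hComp : CompStmt) (hProf : ProfStmt) (hGrowth : GrowthStmt)
    (hPre : PreStmt) (hExists : ExistsStmt) (hFirst : FirstStmt) (hZero : ZeroOneStmt)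
    (hNe : NeStmt) (hVol : VolDensStmt) (hDens : DensStmt) (hn : 3 ≤ n) (hCH : IsCHe G e)
    (hArea : ∀ (Γ : Geo G) (h₀ : ℝ), Comp Γ e → ∀ D : Datum Γ h₀, 0 < lam n e h₀ →
      YS n ≤ lam n e h₀ * D.μ.real univ ^ (2 / md n)) : GlobalIneq G e := by
  intro η hη δ hδ
  have he := hCH.nonneg
  have hn2 : 2 ≤ n := by omega
  obtain ⟨Γ⟩ := geoStmt n G hCH.isCH
  have hC := hComp n G e hCH Γ
  obtain ⟨hcont, -, hnonpos, -, hder⟩ := hProf n e hn2 he
  by_contra hfail
  obtain ⟨f, ⟨hA⟩, hdef⟩ := hExists n G e hn2 he hCH.metric η hη δ hδ hfail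
  obtain ⟨P⟩ := hPre n G hCH.metric f hA.cls hA.bounded
  have hlim : Tendsto (fun k => profE n e (wmass G η (f k)) - δ) P.l
      (𝓝 (profE n e (wmass G η P.g) - δ)) :=
    ((hcont.tendsto _).comp (Minimiser.tendsto_wmass P hη)).sub_const δ
  have hAle : P.A ≤ profE n e (wmass G η P.g) - δ := le_of_tendsto_of_tendsto' P.tvar_lim hlim hdef
  have hA0 : 0 ≤ P.A :=
    ge_of_tendsto' P.tvar_lim fun k => integral_nonneg fun x => Real.sqrt_nonneg _
  have hW : 0 < wmass G η P.g := by
    by_contra hW
    rw [hnonpos _ (not_lt.1 hW)] at hAle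
    linarith
  obtain ⟨r, hr, -, hprof, hd⟩ := hder _ hW
  have hs := sn_pos he hr
  set h₁ : ℝ := md n * cs e r / sn e r with hh₁
  have hh0 : 0 ≤ h₁ :=
    div_nonneg (mul_nonneg (one_sub_cast_pos hn2).le (cs_pos e r).le) hs.le
  let D : Varifold G h₁ :=
    { μ := P.μ
      finite := P.finite
      unit := P.unit
      h := fun x => h₁ * η x
      h_cont := continuous_const.mul hη.c1.continuous
      h_le := fun x => by
        rw [abs_mul, abs_of_nonneg hh0, abs_of_nonneg (hη.mem x).1]
        exact mul_le_of_le_one_right hh0 (hη.mem x).2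
      first := hFirst n G e hn2 he hCH.metric η hη f hA P h₁ hW hd }
  have hdens := hDens n G Γ hn2 hCH.metric f hA.cls P
    (hZero n G hn2 hCH.metric f hA.cls hA.tendsto_midv P)
    (hGrowth n G e Γ h₁ hn2 hCH hC D)
    (hVol n G e hn2 he hCH.metric η hη f hA P h₁ hW hd)
  let D' : Datum Γ h₁ :=
    { D with
      ne_zero := hNe n G e Γ (by omega) hCH hC f hA.cls P η hη hW
      dens := hdens }
  have hlam : 0 < lam n e h₁ := by
    rw [hh₁, lam_sphere hn2 he hr]
    have := two_le_md hn
    have : 0 < md n * (md n - 1) := mul_pos (by linarith) (by linarith)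
    positivity
  have hM : areaM n e r ≤ P.μ.real univ :=
    areaM_le_of_area hn he hr measureReal_nonneg (hArea Γ h₁ hC D' hlam)
  rw [hprof] at hAle
  linarith [P.mass_le]

/-- The smooth inequality from the module statements. -/
theorem globalStmt (hComp : CompStmt) (hProf : ProfStmt) (hGrowth : GrowthStmt) (hPre : PreStmt)
    (hExists : ExistsStmt) (hFirst : FirstStmt) (hZero : ZeroOneStmt) (hNe : NeStmt)
    (hVol : VolDensStmt) (hDens : DensStmt) (hArea : AreaStmt) : GlobalStmt :=
  fun n G e hn hCH => globalIneq_of_area hComp hProf hGrowth hPre hExists hFirst hZero hNe hVol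
    hDens (by omega) hCH fun Γ h₀ hC => hArea n G e Γ h₀ hn hCH hC

end

end Vale.Agent.P219.CH.Full
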