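import Vale.Agent.P219.CH.Full.Mono.GrowthStmt
import Vale.Agent.P219.CH.Full.Mono.KernelStmt
import Vale.Agent.P219.CH.Full.Mono.Rad
import Vale.Agent.P219.CH.Full.Mono.Schur

/-!
P219, the monotonicity module: `GrowthStmt`, `KernelStmt`, `SchurStmt` and `RadIntStmt`.
-/

namespace Vale.Agent.P219.CH.Full

theorem kernelStmt : KernelStmt := kernelStmt_of radIntStmt

end Vale.Agent.P219.CH.Full
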