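import Vale.Agent.P219.CH.Full.Variational.Poisson

/-!
P219, full inequality: Barta's inequality, the second variation and monotonicity on the sphere.
-/

namespace Vale.Agent.P219.CH.Full

theorem bartaStmt : BartaStmt := Vari.barta

theorem almostStmt (hs : SphereStmt) : AlmostStmt := Vari.almost hs

theorem poissonStmt (hs : SphereStmt) : PoissonStmt := Vari.poisson hs

end Vale.Agent.P219.CH.Full
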